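import Mathlib
import Vale.Agent.P219.Defs

/-!
# Metrics on `ℝ^n`, curvature, global normal coordinates and weighted perimeters
-/

open MeasureTheory
open scoped ENNReal ContDiff RealInnerProductSpace

namespace Vale.Agent.P219.Univ

open Vale.Agent.P219

noncomputable section

variable {n : ℕ}

/-- Fields of bilinear forms. -/
abbrev MetricField (n : ℕ) : Type := Space n → Space n →L[ℝ] Space n →L[ℝ] ℝ

/-- A smooth Riemannian metric. -/
structure IsMetric (g : MetricField n) : Prop where
  smooth : ContDiff ℝ ∞ g
  symm : ∀ x u v, g x u v = g x v u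
  pos : ∀ x u, u ≠ 0 → 0 < g x u u

/-- The length of a vector. -/
def gNorm (g : MetricField n) (x v : Space n) : ℝ := Real.sqrt (g x v v)

/-- The vector dual to a covector. -/
def sharp (g : MetricField n) (x : Space n) (p : Space n →L[ℝ] ℝ) : Space n := (g x).inverse p

/-- The metric gradient. -/
def gGrad (g : MetricField n) (f : Space n → ℝ) (x : Space n) : Space n :=
  sharp g x (fderiv ℝ f x)

/-- Twice the Christoffel symbols of the first kind. -/
def chris (g : MetricField n) (x u v : Space n) : Space n →L[ℝ] ℝ :=
  fderiv ℝ g x u v + fderiv ℝ g x v u - ((fderiv ℝ g x).flip u).flip v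

/-- The Christoffel symbols of the Levi-Civita connection. -/
def gam (g : MetricField n) (x u v : Space n) : Space n :=
  (1 / 2 : ℝ) • sharp g x (chris g x u v)

/-- The covariant derivative of a vector field. -/
def cov (g : MetricField n) (X : Space n → Space n) (x v : Space n) : Space n :=
  fderiv ℝ X x v + gam g x v (X x)

/-- The Hessian. -/
def gHess (g : MetricField n) (f : Space n → ℝ) (x u v : Space n) : ℝ :=
  fderiv ℝ (fderiv ℝ f) x u v - fderiv ℝ f x (gam g x u v)

/-- The Riemann curvature operator. -/
def riem (g : MetricField n) (x u v w : Space n) : Space n :=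
  fderiv ℝ (fun y => gam g y v w) x u - fderiv ℝ (fun y => gam g y u w) x v +
    gam g x u (gam g x v w) - gam g x v (gam g x u w)

/-- All sectional curvatures are at most `κ`. -/
def SecBound (g : MetricField n) (κ : ℝ) : Prop :=
  ∀ x u v, g x (riem g x u v v) u ≤ κ * (g x u u * g x v v - g x u v ^ 2)

/-- Every point has global normal coordinates: a diffeomorphism from `ℝ^n` which is an isometry
at the origin and carries lines through the origin to geodesics. -/
def NormalCharts (g : MetricField n) : Prop :=
  ∀ o, ∃ E F : Space n → Space n, ContDiff ℝ ∞ E ∧ ContDiff ℝ ∞ F ∧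
    Function.LeftInverse F E ∧ Function.RightInverse F E ∧ E 0 = o ∧
    (∀ u v, g o (fderiv ℝ E 0 u) (fderiv ℝ E 0 v) = inner ℝ u v) ∧
    ∀ u (t : ℝ), deriv (deriv fun s : ℝ => E (s • u)) t =
      -gam g (E (t • u)) (deriv (fun s : ℝ => E (s • u)) t) (deriv (fun s : ℝ => E (s • u)) t)

/-- The Riemannian volume density. -/
def dens (g : MetricField n) (x : Space n) : ℝ :=
  Real.sqrt (Matrix.det (Matrix.of fun i j : Fin n =>
    g x (EuclideanSpace.single i (1 : ℝ)) (EuclideanSpace.single j (1 : ℝ))))

/-- The Riemannian divergence. -/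
def gDiv (g : MetricField n) (X : Space n → Space n) (x : Space n) : ℝ :=
  divg (fun y => dens g y • X y) x / dens g x

/-- The integral of a function over a set for the Riemannian volume. -/
def gInt (g : MetricField n) (E : Set (Space n)) (h : Space n → ℝ) : ℝ :=
  ∫ x in E, h x * dens g x

/-- The Riemannian volume. -/
def gVol (g : MetricField n) (E : Set (Space n)) : ℝ := ∫ x in E, dens g x

/-- The perimeter weighted by `w`: the supremum of the integrals of the divergence over
continuously differentiable compactly supported fields of length at most `w`. -/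
def wPer (g : MetricField n) (w : Space n → ℝ) (E : Set (Space n)) : ℝ≥0∞ :=
  ⨆ (Y : Space n → Space n) (_ : ContDiff ℝ 1 Y ∧ HasCompactSupport Y ∧
      ∀ x, gNorm g x (Y x) ≤ w x),
    ENNReal.ofReal (∫ x in E, divg (fun y => dens g y • Y y) x)

/-- The Riemannian perimeter of De Giorgi. -/
def gPer (g : MetricField n) (E : Set (Space n)) : ℝ≥0∞ := wPer g (fun _ => 1) E

/-- Proper smooth functions behaving like half the squared distance from `o`, in curvature at
most `-b ^ 2`. -/
structure Pot (g : MetricField n) (b : ℝ) (o : Space n) (ψ : Space n → ℝ) : Prop where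
  smooth : ContDiff ℝ ∞ ψ
  zero : ψ o = 0
  nonneg : ∀ x, 0 ≤ ψ x
  compact : ∀ M, IsCompact {x | ψ x ≤ M}
  grad : ∀ x, gNorm g x (gGrad g ψ x) ^ 2 ≤ 2 * ψ x
  hess : ∀ x v, g x v v ≤ gHess g ψ x v v
  lap : ∀ x, 1 + ((n : ℝ) - 1) * b * Real.sqrt (2 * ψ x) ≤ gDiv g (gGrad g ψ) x

/-- The Gaussian of width `δ` centred at `o` for the inner product at `o`. -/
def gauss (g : MetricField n) (δ : ℝ) (o x : Space n) : ℝ :=
  Real.exp (-(g o (x - o) (x - o)) / (2 * δ ^ 2))

end

end Vale.Agent.P219.Univ
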