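import Mathlib
import Vale.Agent.P219.Mollify

/-!
# The interpolation flux field of the standard Gaussian
-/

open MeasureTheory Filter Topology Metric
open scoped ENNReal ContDiff RealInnerProductSpace Convolution

namespace Vale.Agent.P219.Univ

open Vale.Agent.P219

noncomputable section

variable {n : ℕ}

/-- The unnormalised standard Gaussian density. -/
def stdDens (z : Space n) : ℝ := Real.exp (-(1 / 2) * ‖z‖ ^ 2)

lemma stdDens_pos (z : Space n) : 0 < stdDens z := Real.exp_pos _

lemma contDiff_stdDens : ContDiff ℝ 1 (stdDens : Space n → ℝ) :=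
  (contDiff_const.mul (contDiff_norm_sq ℝ)).exp

lemma fderiv_stdDens (z v : Space n) : fderiv ℝ stdDens z v = -(⟪z, v⟫ * stdDens z) := by
  have h1 := (((hasStrictFDerivAt_norm_sq z).hasFDerivAt).const_mul (-(1 / 2) : ℝ)).exp
  unfold stdDens
  rw [h1.fderiv]
  simp
  ring

lemma integrable_moment {k : ℕ} (hk : k ≤ 2) :
    Integrable fun z : Space n => ‖z‖ ^ k * stdDens z := by
  have hb : (0 : ℝ) < 1 / 4 := by norm_num
  have hi := (GaussianFourier.integrable_cexp_neg_mul_sq_norm_add
    (V := Space n) (show 0 < ((1 / 4 : ℝ) : ℂ).re by simp) 0 0).re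
  have hi' : Integrable fun z : Space n => 5 * Real.exp (-(1 / 4) * ‖z‖ ^ 2) := by
    refine (hi.congr (ae_of_all _ fun z => ?_)).const_mul 5
    simp [Complex.exp_re, ← Complex.ofReal_pow]
  refine hi'.mono' ((continuous_norm.pow k).mul contDiff_stdDens.continuous).aestronglyMeasurable
    (ae_of_all _ fun z => ?_)
  rw [Real.norm_of_nonneg (mul_nonneg (pow_nonneg (norm_nonneg _) _) (stdDens_pos z).le)]
  have h1 : ‖z‖ ^ k ≤ 1 + ‖z‖ ^ 2 := by
    rcases le_total ‖z‖ 1 with h | h
    · nlinarith [pow_le_one₀ (norm_nonneg z) h (n := k), sq_nonneg ‖z‖]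
    · nlinarith [pow_le_pow_right₀ h hk]
  have h2 : 1 + ‖z‖ ^ 2 ≤ 5 * Real.exp (1 / 4 * ‖z‖ ^ 2) := by
    nlinarith [Real.add_one_le_exp (1 / 4 * ‖z‖ ^ 2), Real.exp_pos (1 / 4 * ‖z‖ ^ 2), sq_nonneg ‖z‖]
  have e : stdDens z = Real.exp (-(1 / 4) * ‖z‖ ^ 2) / Real.exp (1 / 4 * ‖z‖ ^ 2) := by
    rw [← Real.exp_sub]; unfold stdDens; ring_nf
  rw [e, mul_div_assoc', div_le_iff₀ (Real.exp_pos _)]
  nlinarith [mul_le_mul_of_nonneg_right (h1.trans h2) (Real.exp_pos (-(1 / 4) * ‖z‖ ^ 2)).le]

lemma integrable_stdDens : Integrable (stdDens : Space n → ℝ) := by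
  simpa using integrable_moment (n := n) (k := 0) (by norm_num)

lemma integrable_bdd_moment {f : Space n → ℝ} (hf : Continuous f) {C : ℝ} {k : ℕ} (hk : k ≤ 2)
    (hC : ∀ z, |f z| ≤ C * ‖z‖ ^ k) : Integrable fun z => f z * stdDens z := by
  refine ((integrable_moment hk).const_mul C).mono'
    (hf.mul contDiff_stdDens.continuous).aestronglyMeasurable (ae_of_all _ fun z => ?_)
  rw [Real.norm_eq_abs, abs_mul, abs_of_pos (stdDens_pos z), ← mul_assoc]
  exact mul_le_mul_of_nonneg_right (hC z) (stdDens_pos z).le

lemma integral_stdDens : ∫ z : Space n, stdDens z = Real.sqrt (2 * Real.pi) ^ n := by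
  unfold stdDens
  rw [GaussianFourier.integral_rexp_neg_mul_sq_norm (by norm_num), finrank_euclideanSpace_fin,
    Real.sqrt_eq_rpow, ← Real.rpow_natCast, ← Real.rpow_mul (by positivity)]
  congr 1 <;> ring

lemma stein {f : Space n → ℝ} (hf : ContDiff ℝ 1 f) (v : Space n)
    (h1 : Integrable fun z => f z * stdDens z)
    (h2 : Integrable fun z => f z * ⟪z, v⟫ * stdDens z)
    (h3 : Integrable fun z => fderiv ℝ f z v * stdDens z) :
    ∫ z, f z * ⟪z, v⟫ * stdDens z = ∫ z, fderiv ℝ f z v * stdDens z := by
  have e : ∀ z, f z * fderiv ℝ stdDens z v = -(f z * ⟪z, v⟫ * stdDens z) := fun z => by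
    rw [fderiv_stdDens]; ring
  have := integral_mul_fderiv_eq_neg_fderiv_mul_of_integrable (f := f) (g := stdDens) (v := v) h3
    (by simp_rw [e]; exact h2.neg) h1 (fun x _ => hf.differentiable one_ne_zero x)
    (fun x _ => contDiff_stdDens.differentiable one_ne_zero x)
  simp_rw [e, integral_neg, neg_inj] at this
  exact this

lemma second_moment (v : Space n) :
    ∫ z, ⟪z, v⟫ * ⟪z, v⟫ * stdDens z = ‖v‖ ^ 2 * ∫ z : Space n, stdDens z := by
  have hc : ContDiff ℝ 1 fun z : Space n => ⟪z, v⟫ := contDiff_id.inner ℝ contDiff_const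
  have hd : ∀ z, fderiv ℝ (fun z : Space n => ⟪z, v⟫) z v = ‖v‖ ^ 2 := fun z => by
    rw [show (fun z : Space n => ⟪z, v⟫) = fun z => innerSL ℝ v z from
      funext fun z => real_inner_comm v z, ContinuousLinearMap.fderiv]
    simp
  rw [stein hc v, ← integral_const_mul]
  · simp_rw [hd]
  · refine integrable_bdd_moment hc.continuous (C := ‖v‖) (k := 1) (by norm_num) fun z => ?_
    rw [pow_one, mul_comm]; exact abs_real_inner_le_norm z v
  · refine integrable_bdd_moment (hc.continuous.mul hc.continuous) (C := ‖v‖ * ‖v‖) (k := 2) le_rfl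
      fun z => ?_
    rw [abs_mul]
    nlinarith [abs_real_inner_le_norm z v, abs_nonneg ⟪z, v⟫, norm_nonneg v, norm_nonneg z]
  · simp_rw [hd]; exact integrable_stdDens.const_mul _

lemma first_moment (v : Space n) : ∫ z, ⟪z, v⟫ * stdDens z = 0 := by
  have h := integral_neg_eq_self (fun z : Space n => ⟪z, v⟫ * stdDens z) volume
  simp only [stdDens, inner_neg_left, norm_neg, neg_mul, integral_neg] at h ⊢
  linarith

/-- The time measure times Lebesgue measure. -/
abbrev interpMeasure (n : ℕ) : Measure (ℝ × Space n) :=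
  (volume.restrict (Set.Ioc 0 (Real.pi / 2))).prod volume

/-- The interpolated point. -/
def interp (y : Space n) (p : ℝ × Space n) : Space n := Real.cos p.1 • y + Real.sin p.1 • p.2

lemma continuous_interp (y : Space n) : Continuous (interp y) := by
  unfold interp; fun_prop

/-- The interpolation field. -/
def flow (h : Space n → ℝ) (y : Space n) : Space n :=
  ∫ p, (h (interp y p) * stdDens p.2) • p.2 ∂interpMeasure n

/-- The derivative of the integrand of `flow`. -/
def flowD (h : Space n → ℝ) (y : Space n) (p : ℝ × Space n) : Space n →L[ℝ] Space n :=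
  ((stdDens p.2 * Real.cos p.1) • fderiv ℝ h (interp y p)).smulRight p.2

lemma integrable_prod_dens {k : ℕ} (hk : k ≤ 2) :
    Integrable (fun p : ℝ × Space n => ‖p.2‖ ^ k * stdDens p.2) (interpMeasure n) :=
  (integrable_moment hk).comp_snd _

variable {h : Space n → ℝ} {M : ℝ}

lemma continuous_flowD {α : Type*} [TopologicalSpace α] (hh : ContDiff ℝ 1 h) {f : α → Space n}
    {t : α → ℝ} {z : α → Space n} (hf : Continuous f) (ht : Continuous t) (hz : Continuous z) :
    Continuous fun a => flowD h (f a) (t a, z a) := by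
  unfold flowD interp
  have h1 := hh.continuous_fderiv one_ne_zero
  have h2 : Continuous (stdDens : Space n → ℝ) := contDiff_stdDens.continuous
  have hA : Continuous fun a => (stdDens (z a) * Real.cos (t a)) •
      fderiv ℝ h (Real.cos (t a) • f a + Real.sin (t a) • z a) :=
    ((h2.comp hz).mul (Real.continuous_cos.comp ht)).smul (h1.comp
      (((Real.continuous_cos.comp ht).smul hf).add ((Real.continuous_sin.comp ht).smul hz)))
  exact ((ContinuousLinearMap.smulRightL ℝ (Space n) (Space n)).continuous.comp hA).clm_apply hz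

lemma continuous_flowD_left (hh : ContDiff ℝ 1 h) (y : Space n) :
    Continuous fun p : ℝ × Space n => flowD h y p :=
  continuous_flowD (f := fun _ : ℝ × Space n => y) (t := Prod.fst) (z := Prod.snd) hh
    continuous_const continuous_fst continuous_snd

lemma continuous_flowD_right (hh : ContDiff ℝ 1 h) (p : ℝ × Space n) :
    Continuous fun y : Space n => flowD h y p :=
  continuous_flowD (f := fun y : Space n => y) (t := fun _ => p.1) (z := fun _ => p.2) hh
    continuous_id continuous_const continuous_const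

lemma norm_flowD_le (hM : ∀ x, ‖fderiv ℝ h x‖ ≤ M) (y : Space n) (p : ℝ × Space n) :
    ‖flowD h y p‖ ≤ M * (‖p.2‖ * stdDens p.2) := by
  rw [flowD, ContinuousLinearMap.norm_smulRight_apply, norm_smul, norm_mul,
    Real.norm_of_nonneg (stdDens_pos p.2).le, Real.norm_eq_abs]
  have hd := stdDens_pos p.2
  calc stdDens p.2 * |Real.cos p.1| * ‖fderiv ℝ h (interp y p)‖ * ‖p.2‖
      ≤ stdDens p.2 * 1 * M * ‖p.2‖ := by
        gcongr
        · exact Real.abs_cos_le_one _
        · exact hM _
    _ = _ := by ring

lemma integrable_flow_term (hh : ContDiff ℝ 1 h) (h0 : ∀ x, h x ∈ Set.Icc (0 : ℝ) 1) (y : Space n) :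
    Integrable (fun p : ℝ × Space n => (h (interp y p) * stdDens p.2) • p.2) (interpMeasure n) := by
  refine (integrable_prod_dens (k := 1) (by norm_num)).mono' ?_ (ae_of_all _ fun p => ?_)
  · exact (((hh.continuous.comp (continuous_interp y)).mul
      (contDiff_stdDens.continuous.comp continuous_snd)).smul continuous_snd).aestronglyMeasurable
  · rw [norm_smul, norm_mul, Real.norm_of_nonneg (stdDens_pos p.2).le, pow_one,
      Real.norm_of_nonneg (h0 _).1]
    nlinarith [(h0 (interp y p)).2, mul_nonneg (stdDens_pos p.2).le (norm_nonneg p.2)]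

lemma hasFDerivAt_term (hh : ContDiff ℝ 1 h) (x : Space n) (p : ℝ × Space n) :
    HasFDerivAt (fun y => (h (interp y p) * stdDens p.2) • p.2) (flowD h x p) x := by
  have hi : HasFDerivAt (fun x => interp x p) (Real.cos p.1 • ContinuousLinearMap.id ℝ (Space n)) x := by
    unfold interp
    exact ((hasFDerivAt_id x).const_smul (Real.cos p.1)).add_const _
  have h0 : HasFDerivAt (fun y => h (interp y p))
      ((fderiv ℝ h (interp x p)).comp (Real.cos p.1 • ContinuousLinearMap.id ℝ (Space n))) x :=
    (hh.differentiable one_ne_zero (interp x p)).hasFDerivAt.comp x hi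
  refine ((h0.mul_const (stdDens p.2)).smul_const p.2).congr_fderiv ?_
  unfold flowD
  ext v
  simp [mul_assoc, mul_left_comm]

lemma hasFDerivAt_flow (hh : ContDiff ℝ 1 h) (h0 : ∀ x, h x ∈ Set.Icc (0 : ℝ) 1)
    (hM : ∀ x, ‖fderiv ℝ h x‖ ≤ M) (y : Space n) :
    HasFDerivAt (flow h) (∫ p, flowD h y p ∂interpMeasure n) y := by
  refine hasFDerivAt_integral_of_dominated_of_fderiv_le (F := fun y p => (h (interp y p) * stdDens p.2) • p.2)
    (F' := flowD h) (bound := fun p => M * (‖p.2‖ * stdDens p.2)) univ_mem
    (Eventually.of_forall fun x => (integrable_flow_term hh h0 x).aestronglyMeasurable)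
    (integrable_flow_term hh h0 y)
    (continuous_flowD_left hh y).aestronglyMeasurable
    (ae_of_all _ fun p x _ => norm_flowD_le hM x p) ?_ (ae_of_all _ fun p x _ => ?_)
  · simpa using (integrable_prod_dens (n := n) (k := 1) (by norm_num)).const_mul M
  · exact hasFDerivAt_term hh x p

lemma contDiff_flow (hh : ContDiff ℝ 1 h) (h0 : ∀ x, h x ∈ Set.Icc (0 : ℝ) 1)
    (hM : ∀ x, ‖fderiv ℝ h x‖ ≤ M) : ContDiff ℝ 1 (flow h) := by
  rw [contDiff_one_iff_hasFDerivAt]
  refine ⟨fun y => ∫ p, flowD h y p ∂interpMeasure n, ?_, hasFDerivAt_flow hh h0 hM⟩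
  refine continuous_of_dominated (F := fun y p => flowD h y p)
    (bound := fun p => M * (‖p.2‖ * stdDens p.2))
    (fun y => (continuous_flowD_left hh y).aestronglyMeasurable)
    (fun y => ae_of_all _ fun p => norm_flowD_le hM y p) ?_
    (ae_of_all _ fun p => continuous_flowD_right hh p)
  simpa using (integrable_prod_dens (n := n) (k := 1) (by norm_num)).const_mul M

lemma flow_inner (hh : ContDiff ℝ 1 h) (h0 : ∀ x, h x ∈ Set.Icc (0 : ℝ) 1) (y v : Space n) :
    ⟪flow h y, v⟫ = ∫ p, h (interp y p) * stdDens p.2 * ⟪p.2, v⟫ ∂interpMeasure n := by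
  rw [flow, real_inner_comm, ← integral_inner (integrable_flow_term hh h0 y) v]
  refine integral_congr_ae (ae_of_all _ fun p => ?_)
  simp only [real_inner_smul_right]
  rw [real_inner_comm v]

lemma norm_flow_le (hh : ContDiff ℝ 1 h) (h0 : ∀ x, h x ∈ Set.Icc (0 : ℝ) 1) (y : Space n) :
    ‖flow h y‖ ≤ ∫ z : Space n, stdDens z := by
  set Z := ∫ z : Space n, stdDens z
  have hZ : 0 ≤ Z := integral_nonneg fun z => (stdDens_pos z).le
  rcases eq_or_ne (flow h y) 0 with e | e
  · rw [e, norm_zero]; exact hZ
  set v := ‖flow h y‖⁻¹ • flow h y with hv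
  have hv1 : ‖v‖ = 1 := by
    rw [hv, norm_smul, norm_inv, norm_norm, inv_mul_cancel₀ (norm_ne_zero_iff.2 e)]
  have key : ‖flow h y‖ = ⟪flow h y, v⟫ := by
    rw [hv, real_inner_smul_right, real_inner_self_eq_norm_sq, sq, ← mul_assoc,
      inv_mul_cancel₀ (norm_ne_zero_iff.2 e), one_mul]
  rw [key, flow_inner hh h0]
  have ha : Integrable (fun z : Space n => ⟪z, v⟫ * stdDens z) := by
    refine integrable_bdd_moment (by fun_prop) (C := 1) (k := 1) (by norm_num) fun z => ?_
    have := abs_real_inner_le_norm z v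
    rw [hv1, mul_one] at this
    simpa using this
  have hq : Integrable (fun z : Space n => ⟪z, v⟫ * ⟪z, v⟫ * stdDens z) := by
    refine integrable_bdd_moment (by fun_prop) (C := 1) (k := 2) le_rfl fun z => ?_
    rw [abs_mul, one_mul, sq]
    have := abs_real_inner_le_norm z v
    rw [hv1, mul_one] at this
    exact mul_le_mul this this (abs_nonneg _) (norm_nonneg _)
  -- pointwise comparison with a function of `z` alone
  let B : Space n → ℝ := fun z =>
    1 / 4 * stdDens z + 1 / 4 * (⟪z, v⟫ * ⟪z, v⟫ * stdDens z) + 1 / 2 * (⟪z, v⟫ * stdDens z)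
  have hB : Integrable B :=
    ((integrable_stdDens.const_mul _).add (hq.const_mul _)).add (ha.const_mul _)
  have hmono : ∫ p, h (interp y p) * stdDens p.2 * ⟪p.2, v⟫ ∂interpMeasure n ≤
      ∫ p, B p.2 ∂interpMeasure n := by
    refine integral_mono ?_ (hB.comp_snd _) fun p => ?_
    · refine (((integrable_flow_term hh h0 y).inner_const v)).congr (ae_of_all _ fun p => ?_)
      exact real_inner_smul_left _ _ _
    · have h1 := h0 (interp y p)
      have h2 : (h (interp y p) - 1 / 2) * ⟪p.2, v⟫ ≤ 1 / 4 + 1 / 4 * (⟪p.2, v⟫ * ⟪p.2, v⟫) := by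
        nlinarith [sq_nonneg (⟪p.2, v⟫ - 2 * (h (interp y p) - 1 / 2)), h1.1, h1.2,
          sq_nonneg (⟪p.2, v⟫)]
      have := mul_le_mul_of_nonneg_right h2 (stdDens_pos p.2).le
      simp only [B]
      linarith
  refine hmono.trans ?_
  have hBi : ∫ z, B z = 1 / 2 * Z := by
    have i1 := integral_add (integrable_stdDens.const_mul (1 / 4 : ℝ)) (hq.const_mul (1 / 4 : ℝ))
    have i2 := integral_add (f := fun z => 1 / 4 * stdDens z + 1 / 4 * (⟪z, v⟫ * ⟪z, v⟫ * stdDens z))
      ((integrable_stdDens.const_mul _).add (hq.const_mul _)) (ha.const_mul (1 / 2 : ℝ))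
    rw [show (∫ z, B z) = _ from i2, show (∫ z, 1 / 4 * stdDens z + 1 / 4 * (⟪z, v⟫ * ⟪z, v⟫ * stdDens z)) = _ from i1,
      integral_const_mul, integral_const_mul, integral_const_mul, second_moment, first_moment, hv1]
    ring
  rw [integral_fun_snd, hBi, Measure.real, Measure.restrict_apply_univ, Real.volume_Ioc,
    ENNReal.toReal_ofReal (by linarith [Real.pi_pos]), smul_eq_mul]
  nlinarith [Real.pi_le_four]

lemma euclid_sum (z : Space n) : ∑ i, z i • EuclideanSpace.single i (1 : ℝ) = z := by
  simpa using (EuclideanSpace.basisFun (Fin n) ℝ).sum_repr z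

lemma divg_flow (hh : ContDiff ℝ 1 h) (h0 : ∀ x, h x ∈ Set.Icc (0 : ℝ) 1)
    (hM : ∀ x, ‖fderiv ℝ h x‖ ≤ M) (y : Space n) :
    divg (flow h) y - ⟪flow h y, y⟫ =
      (∫ z, h z * stdDens z) - h y * ∫ z : Space n, stdDens z := by
  have hX := hasFDerivAt_flow hh h0 hM y
  have hcD : Continuous fun p : ℝ × Space n => fderiv ℝ h (interp y p) :=
    (hh.continuous_fderiv one_ne_zero).comp (continuous_interp y)
  have hφ : Continuous fun p : ℝ × Space n => stdDens p.2 :=
    contDiff_stdDens.continuous.comp continuous_snd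
  have hFint : Integrable (flowD h y) (interpMeasure n) := by
    refine ((integrable_prod_dens (n := n) (k := 1) (by norm_num)).const_mul M).mono'
      (continuous_flowD_left hh y).aestronglyMeasurable
      (ae_of_all _ fun p => ?_)
    simpa using norm_flowD_le hM y p
  -- the divergence
  have hdiv : divg (flow h) y =
      ∫ p, stdDens p.2 * Real.cos p.1 * fderiv ℝ h (interp y p) p.2 ∂interpMeasure n := by
    have e : ∀ i, pd i (fun x => flow h x i) y =
        ∫ p, flowD h y p (EuclideanSpace.single i 1) i ∂interpMeasure n := by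
      intro i
      unfold pd
      have h2 : HasFDerivAt (fun x => flow h x i)
          ((EuclideanSpace.proj (𝕜 := ℝ) i).comp (∫ p, flowD h y p ∂interpMeasure n)) y :=
        (EuclideanSpace.proj (𝕜 := ℝ) i).hasFDerivAt.comp y hX
      rw [h2.fderiv, ContinuousLinearMap.comp_apply, ContinuousLinearMap.integral_apply hFint,
        ← ContinuousLinearMap.integral_comp_comm _ (hFint.apply_continuousLinearMap _)]
      rfl
    simp only [divg, e]
    rw [← integral_finsetSum]
    · refine integral_congr_ae (ae_of_all _ fun p => ?_)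
      simp only [flowD, ContinuousLinearMap.smulRight_apply, ContinuousLinearMap.coe_smul', Pi.smul_apply,
        PiLp.smul_apply, smul_eq_mul]
      rw [← Finset.sum_congr rfl fun i _ => show
        stdDens p.2 * Real.cos p.1 * fderiv ℝ h (interp y p) (p.2 i • EuclideanSpace.single i 1) =
        stdDens p.2 * Real.cos p.1 * fderiv ℝ h (interp y p) (EuclideanSpace.single i 1) * p.2 i by
          rw [map_smul, smul_eq_mul]; ring]
      rw [← Finset.mul_sum, ← map_sum, euclid_sum]
    · exact fun i _ => (EuclideanSpace.proj (𝕜 := ℝ) i).integrable_comp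
        (hFint.apply_continuousLinearMap _)
  have hD1 : Integrable (fun p => stdDens p.2 * Real.cos p.1 * fderiv ℝ h (interp y p) p.2)
      (interpMeasure n) := by
    refine ((integrable_prod_dens (n := n) (k := 1) (by norm_num)).const_mul M).mono'
      ((hφ.mul (Real.continuous_cos.comp continuous_fst)).mul (hcD.clm_apply continuous_snd)).aestronglyMeasurable
      (ae_of_all _ fun p => ?_)
    rw [norm_mul, norm_mul, Real.norm_of_nonneg (stdDens_pos p.2).le, Real.norm_eq_abs, pow_one]
    calc stdDens p.2 * |Real.cos p.1| * ‖fderiv ℝ h (interp y p) p.2‖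
        ≤ stdDens p.2 * 1 * (M * ‖p.2‖) := by
          exact mul_le_mul (mul_le_mul_of_nonneg_left (Real.abs_cos_le_one _) (stdDens_pos p.2).le)
            (((fderiv ℝ h _).le_opNorm _).trans (mul_le_mul_of_nonneg_right (hM _) (norm_nonneg _)))
            (norm_nonneg _) (mul_nonneg (stdDens_pos p.2).le zero_le_one)
      _ = _ := by ring
  have hD2 : Integrable (fun p => h (interp y p) * stdDens p.2 * ⟪p.2, y⟫) (interpMeasure n) :=
    ((integrable_flow_term hh h0 y).inner_const y).congr
      (ae_of_all _ fun p => real_inner_smul_left _ _ _)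
  have hD3 : Integrable (fun p => stdDens p.2 * Real.sin p.1 * fderiv ℝ h (interp y p) y)
      (interpMeasure n) := by
    refine ((integrable_prod_dens (n := n) (k := 0) (by norm_num)).const_mul (M * ‖y‖)).mono'
      ((hφ.mul (Real.continuous_sin.comp continuous_fst)).mul (hcD.clm_apply continuous_const)).aestronglyMeasurable
      (ae_of_all _ fun p => ?_)
    rw [norm_mul, norm_mul, Real.norm_of_nonneg (stdDens_pos p.2).le, Real.norm_eq_abs, pow_zero, one_mul]
    calc stdDens p.2 * |Real.sin p.1| * ‖fderiv ℝ h (interp y p) y‖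
        ≤ stdDens p.2 * 1 * (M * ‖y‖) := by
          exact mul_le_mul (mul_le_mul_of_nonneg_left (Real.abs_sin_le_one _) (stdDens_pos p.2).le)
            (((fderiv ℝ h _).le_opNorm _).trans (mul_le_mul_of_nonneg_right (hM _) (norm_nonneg _)))
            (norm_nonneg _) (mul_nonneg (stdDens_pos p.2).le zero_le_one)
      _ = _ := by ring
  -- integrating by parts in `z`
  have hstein : ∫ p, h (interp y p) * stdDens p.2 * ⟪p.2, y⟫ ∂interpMeasure n =
      ∫ p, stdDens p.2 * Real.sin p.1 * fderiv ℝ h (interp y p) y ∂interpMeasure n := by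
    rw [integral_prod _ hD2, integral_prod _ hD3]
    refine integral_congr_ae (ae_of_all _ fun t => ?_)
    have hf : ContDiff ℝ 1 fun z : Space n => h (interp y (t, z)) := by
      refine hh.comp ?_
      unfold interp; fun_prop
    have hd : ∀ z, fderiv ℝ (fun z : Space n => h (interp y (t, z))) z y =
        Real.sin t * fderiv ℝ h (interp y (t, z)) y := fun z => by
      have hi : HasFDerivAt (fun z : Space n => interp y (t, z))
          (Real.sin t • ContinuousLinearMap.id ℝ (Space n)) z := by
        show HasFDerivAt (fun z : Space n => Real.cos t • y + Real.sin t • z) _ z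
        exact ((hasFDerivAt_id z).const_smul (Real.sin t)).const_add (Real.cos t • y)
      have h9 : HasFDerivAt (fun z : Space n => h (interp y (t, z)))
          ((fderiv ℝ h (interp y (t, z))).comp (Real.sin t • ContinuousLinearMap.id ℝ (Space n))) z :=
        (hh.differentiable one_ne_zero _).hasFDerivAt.comp z hi
      rw [h9.fderiv]
      simp
    have h1 : ∀ z : Space n, |h (interp y (t, z))| ≤ 1 := fun z =>
      abs_le.2 ⟨by linarith [(h0 (interp y (t, z))).1], (h0 _).2⟩
    have := stein hf y (integrable_bdd_moment hf.continuous (C := 1) (k := 0) (by norm_num)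
      fun z => by simpa using h1 z) ?_ ?_
    · calc ∫ z, h (interp y (t, z)) * stdDens z * ⟪z, y⟫
          = ∫ z, h (interp y (t, z)) * ⟪z, y⟫ * stdDens z :=
            integral_congr_ae (ae_of_all _ fun z => by ring)
        _ = _ := this
        _ = _ := integral_congr_ae (ae_of_all _ fun z => by simp only [hd]; ring)
    · refine integrable_bdd_moment (hf.continuous.mul (by fun_prop)) (C := ‖y‖) (k := 1) (by norm_num)
        fun z => ?_
      rw [abs_mul, pow_one]
      calc |h (interp y (t, z))| * |⟪z, y⟫| ≤ 1 * (‖z‖ * ‖y‖) :=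
            mul_le_mul (h1 z) (abs_real_inner_le_norm z y) (abs_nonneg _) zero_le_one
        _ = _ := by ring
    · simp_rw [hd]
      refine integrable_bdd_moment (continuous_const.mul (((hh.continuous_fderiv one_ne_zero).comp
        ((continuous_interp y).comp (continuous_const.prodMk continuous_id))).clm_apply continuous_const))
        (C := M * ‖y‖) (k := 0) (by norm_num) fun z => ?_
      rw [abs_mul, pow_zero, mul_one]
      exact (mul_le_of_le_one_left (abs_nonneg _) (Real.abs_sin_le_one t)).trans
        ((((fderiv ℝ h _).le_opNorm y)).trans (mul_le_mul_of_nonneg_right (hM _) (norm_nonneg _)))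
  rw [hdiv, flow_inner hh h0, hstein, ← integral_sub hD1 hD3]
  refine (integral_prod_symm _ (hD1.sub hD3)).trans ?_
  simp only [Pi.sub_apply]
  calc ∫ z, ∫ t in Set.Ioc 0 (Real.pi / 2),
      (stdDens z * Real.cos t * fderiv ℝ h (interp y (t, z)) z -
        stdDens z * Real.sin t * fderiv ℝ h (interp y (t, z)) y)
      = ∫ z, stdDens z * (h z - h y) := by
        refine integral_congr_ae (ae_of_all _ fun z => ?_)
        have hderiv : ∀ t, HasDerivAt (fun t => stdDens z * h (interp y (t, z)))
            (stdDens z * Real.cos t * fderiv ℝ h (interp y (t, z)) z -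
              stdDens z * Real.sin t * fderiv ℝ h (interp y (t, z)) y) t := fun t => by
          have hi : HasDerivAt (fun t => interp y (t, z))
              ((-Real.sin t) • y + Real.cos t • z) t := by
            unfold interp
            exact ((Real.hasDerivAt_cos t).smul_const y).add ((Real.hasDerivAt_sin t).smul_const z)
          have := (((hh.differentiable one_ne_zero _).hasFDerivAt).comp_hasDerivAt t hi).const_mul (stdDens z)
          refine this.congr_deriv ?_
          rw [map_add, map_smul, map_smul, smul_eq_mul, smul_eq_mul]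
          ring
        have hcz : Continuous fun t : ℝ => fderiv ℝ h (interp y (t, z)) :=
          hcD.comp (continuous_id.prodMk continuous_const)
        show ∫ t in Set.Ioc 0 (Real.pi / 2), _ = _
        rw [← intervalIntegral.integral_of_le (by linarith [Real.pi_pos]),
          intervalIntegral.integral_eq_sub_of_hasDerivAt (fun t _ => hderiv t)
          ((((continuous_const.mul Real.continuous_cos).mul (hcz.clm_apply continuous_const)).sub
            ((continuous_const.mul Real.continuous_sin).mul (hcz.clm_apply continuous_const))).intervalIntegrable _ _)]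
        simp [interp]
        ring
    _ = _ := by
        simp_rw [mul_sub]
        rw [integral_sub, integral_mul_const]
        · simp_rw [mul_comm (stdDens _)]; ring
        · simp_rw [mul_comm (stdDens _)]
          exact integrable_bdd_moment hh.continuous (C := 1) (k := 0) (by norm_num) fun z => by
            simpa using abs_le.2 ⟨by linarith [(h0 z).1], (h0 z).2⟩
        · exact integrable_stdDens.mul_const _

lemma moll_bounds {g : Space n → ℝ} (hgm : Measurable g) (hg0 : ∀ x, g x ∈ Set.Icc (0 : ℝ) 1)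
    (hgl : LocallyIntegrable g) (φ : ContDiffBump (0 : Space n)) :
    let u := φ.normed volume ⋆[ContinuousLinearMap.lsmul ℝ ℝ, volume] g
    ContDiff ℝ 1 u ∧ (∀ x, u x ∈ Set.Icc (0 : ℝ) 1) := by
  intro u
  refine ⟨φ.hasCompactSupport_normed.contDiff_convolution_left _ φ.contDiff_normed hgl, fun x => ?_⟩
  have hi : Integrable (φ.normed volume) := φ.integrable_normed
  have hb : Integrable fun t => φ.normed volume t * g (x - t) := by
    refine hi.norm.mono' (hi.aestronglyMeasurable.mul
      (hgm.comp (measurable_const.sub measurable_id)).aestronglyMeasurable) (ae_of_all _ fun t => ?_)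
    rw [norm_mul]
    exact mul_le_of_le_one_right (norm_nonneg _) (by
      rw [Real.norm_of_nonneg (hg0 _).1]; exact (hg0 _).2)
  simp only [u, convolution_def, ContinuousLinearMap.lsmul_apply, smul_eq_mul]
  refine ⟨integral_nonneg fun t => mul_nonneg (φ.nonneg_normed t) (hg0 _).1, ?_⟩
  refine le_trans (integral_mono hb hi fun t => ?_) (φ.integral_normed (μ := volume)).le
  exact mul_le_of_le_one_right (φ.nonneg_normed t) (hg0 _).2

lemma moll_deriv {g : Space n → ℝ} (hg0 : ∀ x, g x ∈ Set.Icc (0 : ℝ) 1)
    (hgl : LocallyIntegrable g) (φ : ContDiffBump (0 : Space n)) :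
    ∃ M, ∀ x, ‖fderiv ℝ (φ.normed volume ⋆[ContinuousLinearMap.lsmul ℝ ℝ, volume] g) x‖ ≤ M := by
  have hφ1 : ContDiff ℝ 1 (φ.normed (volume : Measure (Space n))) := φ.contDiff_normed
  have hD : Integrable fun t => ‖fderiv ℝ (φ.normed volume) t‖ :=
    ((hφ1.continuous_fderiv one_ne_zero).norm).integrable_of_hasCompactSupport
      (φ.hasCompactSupport_normed.fderiv ℝ).norm
  refine ⟨∫ t, ‖fderiv ℝ (φ.normed volume) t‖, fun x => ?_⟩
  rw [(φ.hasCompactSupport_normed.hasFDerivAt_convolution_left (ContinuousLinearMap.lsmul ℝ ℝ)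
    hφ1 hgl x).fderiv, convolution_def]
  refine norm_integral_le_of_norm_le hD (ae_of_all _ fun t => ?_)
  refine ContinuousLinearMap.opNorm_le_bound _ (norm_nonneg _) fun w => ?_
  simp only [ContinuousLinearMap.precompL_apply, ContinuousLinearMap.lsmul_apply, smul_eq_mul]
  rw [norm_mul]
  exact le_trans (mul_le_of_le_one_right (norm_nonneg _) (by
    rw [Real.norm_of_nonneg (hg0 _).1]; exact (hg0 _).2)) (ContinuousLinearMap.le_opNorm _ _)

/-- A smooth function between zero and one close to an indicator in Gaussian mean. -/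
lemma exists_smooth_indicator {E : Set (Space n)} (hE : MeasurableSet E) {e : ℝ} (he : 0 < e) :
    ∃ h : Space n → ℝ, ContDiff ℝ 1 h ∧ (∀ x, h x ∈ Set.Icc (0 : ℝ) 1) ∧
      (∃ M, ∀ x, ‖fderiv ℝ h x‖ ≤ M) ∧
      ∫ z, |h z - E.indicator (fun _ => (1 : ℝ)) z| * stdDens z ≤ e := by
  let φ : ℕ → ContDiffBump (0 : Space n) := fun k =>
    ⟨1 / ((k : ℝ) + 1), 2 / ((k : ℝ) + 1), by positivity, by gcongr; norm_num⟩
  set g : Space n → ℝ := E.indicator (fun _ => (1 : ℝ))
  have hg0 : ∀ x, g x ∈ Set.Icc (0 : ℝ) 1 := fun x => by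
    by_cases hx : x ∈ E <;> simp [g, hx]
  have hgm : Measurable g := measurable_const.indicator hE
  have hgl : LocallyIntegrable g := (locallyIntegrable_const (1 : ℝ)).indicator hE
  let u : ℕ → Space n → ℝ := fun k => (φ k).normed volume ⋆[ContinuousLinearMap.lsmul ℝ ℝ, volume] g
  have huC : ∀ k, ContDiff ℝ 1 (u k) := fun k => (moll_bounds hgm hg0 hgl (φ k)).1
  have hu01 : ∀ k x, u k x ∈ Set.Icc (0 : ℝ) 1 := fun k => (moll_bounds hgm hg0 hgl (φ k)).2
  have hlim : Tendsto (fun k => ∫ z, |u k z - g z| * stdDens z) atTop (𝓝 0) := by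
    have hr : Tendsto (fun k => (φ k).rOut) atTop (𝓝 0) := by
      show Tendsto (fun k : ℕ => (2 : ℝ) / ((k : ℝ) + 1)) atTop (𝓝 0)
      exact tendsto_const_nhds.div_atTop (tendsto_atTop_add_const_right _ 1 tendsto_natCast_atTop_atTop)
    have hae := ContDiffBump.ae_convolution_tendsto_right_of_locallyIntegrable (φ := φ)
      (μ := volume) (K := 2) hr (Eventually.of_forall fun k => le_of_eq (by
        show (2 : ℝ) / ((k : ℝ) + 1) = 2 * (1 / ((k : ℝ) + 1)); ring)) hgl
    have := tendsto_integral_of_dominated_convergence (F := fun k z => |u k z - g z| * stdDens z)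
      (f := fun _ => 0) stdDens (fun k => (((huC k).continuous.measurable.sub hgm).abs.mul
        contDiff_stdDens.continuous.measurable).aestronglyMeasurable) integrable_stdDens
      (fun k => ae_of_all _ fun z => ?_) ?_
    · simpa using this
    · rw [norm_mul, Real.norm_of_nonneg (stdDens_pos z).le, Real.norm_eq_abs, abs_abs]
      refine mul_le_of_le_one_left (stdDens_pos z).le (abs_le.2 ⟨?_, ?_⟩) <;>
        linarith [(hu01 k z).1, (hu01 k z).2, (hg0 z).1, (hg0 z).2]
    · filter_upwards [hae] with z hz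
      have := ((hz.sub_const (g z)).abs.mul_const (stdDens z))
      simpa using this
  obtain ⟨k, hk⟩ := (hlim.eventually (eventually_le_nhds he)).exists
  exact ⟨u k, huC k, hu01 k, moll_deriv hg0 hgl (φ k), hk⟩

lemma flux_arith {E : Set (Space n)} (hE : MeasurableSet E) {h : Space n → ℝ} (hh : ContDiff ℝ 1 h)
    (h0 : ∀ x, h x ∈ Set.Icc (0 : ℝ) 1) {e : ℝ}
    (happ : ∫ z, |h z - E.indicator (fun _ => (1 : ℝ)) z| * stdDens z ≤ e / 2) :
    (∫ y in E, stdDens y) * (∫ y in Eᶜ, stdDens y) / (∫ y : Space n, stdDens y) - e ≤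
      ∫ y in E, stdDens y * (h y - (∫ z, h z * stdDens z) / (∫ y : Space n, stdDens y)) := by
  set Z := ∫ z : Space n, stdDens z with hZ
  have hZ0 : 0 < Z := by rw [hZ, integral_stdDens]; positivity
  have hi : Integrable fun z => h z * stdDens z :=
    integrable_bdd_moment hh.continuous (C := 1) (k := 0) (by norm_num) fun z => by
      simpa using abs_le.2 ⟨by linarith [(h0 z).1], (h0 z).2⟩
  set c := (∫ z, h z * stdDens z) / Z with hc
  set D := ∫ z, |h z - E.indicator (fun _ => (1 : ℝ)) z| * stdDens z
  have hind : Integrable fun z => E.indicator (fun _ => (1 : ℝ)) z * stdDens z := by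
    refine (integrable_stdDens.indicator hE).congr (ae_of_all _ fun z => ?_)
    by_cases hz : z ∈ E <;> simp [hz]
  have habs : Integrable fun z => |h z - E.indicator (fun _ => (1 : ℝ)) z| * stdDens z := by
    refine (hi.sub hind).abs.congr (ae_of_all _ fun z => ?_)
    simp only [Pi.sub_apply]
    rw [← sub_mul, abs_mul, abs_of_pos (stdDens_pos z)]
  have hEc := integral_add_compl hE integrable_stdDens
  set a := ∫ y in E, stdDens y with ha
  set a' := ∫ y in Eᶜ, stdDens y
  have ha0 : 0 ≤ a := setIntegral_nonneg hE fun z _ => (stdDens_pos z).le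
  have ha'0 : 0 ≤ a' := setIntegral_nonneg hE.compl fun z _ => (stdDens_pos z).le
  have haD : a - D ≤ ∫ y in E, h y * stdDens y := by
    have e1 : a - ∫ y in E, h y * stdDens y = ∫ y in E, (1 - h y) * stdDens y := by
      rw [ha, ← integral_sub integrable_stdDens.integrableOn hi.integrableOn]
      exact setIntegral_congr_fun hE fun z _ => by ring
    have e2 : ∫ y in E, (1 - h y) * stdDens y ≤ D := by
      refine le_trans (le_of_eq (setIntegral_congr_fun hE fun z hz => ?_))
        (setIntegral_le_integral habs (ae_of_all _ fun z => mul_nonneg (abs_nonneg _) (stdDens_pos z).le))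
      rw [Set.indicator_of_mem hz, abs_sub_comm, abs_of_nonneg (sub_nonneg.2 (h0 z).2)]
    linarith
  have haD' : (∫ z, h z * stdDens z) ≤ a + D := by
    have e1 : a = ∫ z, E.indicator (fun _ => (1 : ℝ)) z * stdDens z := by
      rw [ha, ← integral_indicator hE]
      refine integral_congr_ae (ae_of_all _ fun z => ?_)
      by_cases hz : z ∈ E <;> simp [hz]
    rw [e1, ← integral_add hind habs]
    refine integral_mono hi (hind.add habs) fun z => ?_
    simp only [Pi.add_apply]
    rw [← add_mul]
    refine mul_le_mul_of_nonneg_right ?_ (stdDens_pos z).le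
    linarith [le_abs_self (h z - E.indicator (fun _ => (1 : ℝ)) z)]
  have e3 : ∫ y in E, stdDens y * (h y - c) = (∫ y in E, h y * stdDens y) - a * c := by
    rw [ha, ← integral_mul_const, ← integral_sub hi.integrableOn (integrable_stdDens.mul_const c).integrableOn]
    exact setIntegral_congr_fun hE fun z _ => by ring
  rw [e3]
  have haZ : a / Z ≤ 1 := (div_le_one hZ0).2 (by linarith)
  have hD0 : 0 ≤ D := integral_nonneg fun z => mul_nonneg (abs_nonneg _) (stdDens_pos z).le
  have e4 : a * c ≤ a * a / Z + D := by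
    calc a * c = a / Z * ∫ z, h z * stdDens z := by rw [hc]; ring
      _ ≤ a / Z * (a + D) := mul_le_mul_of_nonneg_left haD' (by positivity)
      _ ≤ _ := by
          have := mul_le_mul_of_nonneg_right haZ hD0
          have e : a / Z * (a + D) = a * a / Z + a / Z * D := by ring
          linarith
  have e5 : a * a' / Z = a - a * a / Z := by
    rw [show a' = Z - a by linarith]; field_simp
  linarith

/-- The flux field for the standard Gaussian. -/
lemma std_flux {E : Set (Space n)} (hE : MeasurableSet E) {e : ℝ} (he : 0 < e) :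
    ∃ Y : Space n → Space n, ContDiff ℝ 1 Y ∧ (∀ y, ‖Y y‖ ≤ stdDens y) ∧
      (∀ y, |divg Y y| ≤ stdDens y) ∧
      (∫ y in E, stdDens y) * (∫ y in Eᶜ, stdDens y) / (∫ y : Space n, stdDens y) - e ≤
        ∫ y in E, divg Y y := by
  obtain ⟨h, hh, h0, ⟨M, hM⟩, happ⟩ := exists_smooth_indicator hE (e := e / 2) (by linarith)
  set Z := ∫ z : Space n, stdDens z with hZ
  have hZ0 : 0 < Z := by rw [hZ, integral_stdDens]; positivity
  have hi : Integrable fun z => h z * stdDens z :=
    integrable_bdd_moment hh.continuous (C := 1) (k := 0) (by norm_num) fun z => by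
      simpa using abs_le.2 ⟨by linarith [(h0 z).1], (h0 z).2⟩
  set c := (∫ z, h z * stdDens z) / Z with hc
  have hc0 : 0 ≤ c := div_nonneg (integral_nonneg fun z => mul_nonneg (h0 z).1 (stdDens_pos z).le) hZ0.le
  have hc1 : c ≤ 1 := (div_le_one hZ0).2 (integral_mono hi integrable_stdDens fun z =>
    mul_le_of_le_one_left (stdDens_pos z).le (h0 z).2)
  set q : Space n → ℝ := fun y => (-1 / Z) * stdDens y
  have hq : ContDiff ℝ 1 q := contDiff_const.mul contDiff_stdDens
  have hflow := contDiff_flow hh h0 hM
  have hdiv : ∀ y, divg (fun y => q y • flow h y) y = stdDens y * (h y - c) := fun y => by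
    have h1 := divg_flow hh h0 hM y
    rw [divg_smul (hq.differentiable one_ne_zero y) (hflow.differentiable one_ne_zero y),
      show fderiv ℝ q y (flow h y) = (-1 / Z) * -(⟪y, flow h y⟫ * stdDens y) by
        simp only [q]
        rw [fderiv_const_mul (contDiff_stdDens.differentiable one_ne_zero y)]
        simp [fderiv_stdDens],
      real_inner_comm]
    calc -1 / Z * -(⟪flow h y, y⟫ * stdDens y) + q y * divg (flow h) y
        = (-1 / Z) * stdDens y * (divg (flow h) y - ⟪flow h y, y⟫) := by simp only [q]; ring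
      _ = _ := by rw [h1, hc]; field_simp; ring
  refine ⟨fun y => q y • flow h y, hq.smul hflow, fun y => ?_, fun y => ?_, ?_⟩
  · rw [norm_smul]
    simp only [q, norm_mul, norm_div, norm_neg, norm_one, Real.norm_of_nonneg hZ0.le,
      Real.norm_of_nonneg (stdDens_pos y).le]
    have h1 := mul_le_mul_of_nonneg_left (norm_flow_le hh h0 y)
      (mul_nonneg (one_div_nonneg.2 hZ0.le) (stdDens_pos y).le)
    refine h1.trans (le_of_eq ?_)
    rw [← hZ]; field_simp
  · rw [hdiv, abs_mul, abs_of_pos (stdDens_pos y)]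
    exact mul_le_of_le_one_right (stdDens_pos y).le
      (abs_le.2 ⟨by linarith [(h0 y).1], by linarith [(h0 y).2]⟩)
  · simp_rw [hdiv]
    exact flux_arith hE hh h0 happ

end

end Vale.Agent.P219.Univ
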