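import Mathlib
import Vale.Agent.P219.Univ.Defs

/-!
# Algebra and smoothness of the basic operations of a metric
-/

open MeasureTheory
open scoped ENNReal ContDiff RealInnerProductSpace

set_option maxSynthPendingDepth 3

namespace Vale.Agent.P219.Univ

open Vale.Agent.P219

noncomputable section

variable {n : ℕ} {g : MetricField n}

namespace Alg

theorem equiv (hg : IsMetric g) (x : Space n) :
    ∃ e : Space n ≃L[ℝ] (Space n →L[ℝ] ℝ), (e : Space n →L[ℝ] Space n →L[ℝ] ℝ) = g x := by
  have hinj : Function.Injective (g x).toLinearMap := by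
    refine (injective_iff_map_eq_zero _).2 fun u hu => ?_
    by_contra hne
    have h := hg.pos x u hne
    rw [show g x u = 0 from hu] at h
    simp at h
  have hfr : Module.finrank ℝ (Space n) = Module.finrank ℝ (Space n →L[ℝ] ℝ) := by
    rw [← LinearEquiv.finrank_eq (LinearMap.toContinuousLinearMap (𝕜 := ℝ) (E := Space n) (F' := ℝ))]
    exact Subspace.dual_finrank_eq.symm
  exact ⟨(LinearEquiv.ofInjectiveOfFinrankEq (g x).toLinearMap hinj hfr).toContinuousLinearEquiv,
    ContinuousLinearMap.ext fun u => rfl⟩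

theorem sharp_add (x : Space n) (p q : Space n →L[ℝ] ℝ) :
    sharp g x (p + q) = sharp g x p + sharp g x q := map_add _ p q

theorem sharp_smul (x : Space n) (a : ℝ) (p : Space n →L[ℝ] ℝ) :
    sharp g x (a • p) = a • sharp g x p := map_smul _ a p

theorem eq_of_g (hg : IsMetric g) (x : Space n) {u v : Space n}
    (h : ∀ w, g x u w = g x v w) : u = v := by
  obtain ⟨e, he⟩ := equiv hg x
  refine e.injective ?_
  have h' : g x u = g x v := ContinuousLinearMap.ext h
  rw [← he] at h'
  exact h'

theorem dg_apply (hg : IsMetric g) (x u v w : Space n) :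
    fderiv ℝ (fun y => g y v w) x u = fderiv ℝ g x u v w := by
  have hd : DifferentiableAt ℝ g x := hg.smooth.differentiable (by simp) x
  have h1 : DifferentiableAt ℝ (fun y => g y v) x := hd.clm_apply (differentiableAt_const v)
  rw [fderiv_clm_apply h1 (differentiableAt_const w),
    fderiv_clm_apply hd (differentiableAt_const v)]
  simp

theorem dg_symm (hg : IsMetric g) (x u v w : Space n) :
    fderiv ℝ g x u v w = fderiv ℝ g x u w v := by
  rw [← dg_apply hg, ← dg_apply hg, show (fun y => g y v w) = fun y => g y w v from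
    funext fun y => hg.symm y v w]

theorem chris_apply (x u v w : Space n) : chris g x u v w =
    fderiv ℝ g x u v w + fderiv ℝ g x v u w - fderiv ℝ g x w u v := by
  simp [chris]

theorem gam_add_left (x u u' v : Space n) :
    gam g x (u + u') v = gam g x u v + gam g x u' v := by
  have e : chris g x (u + u') v = chris g x u v + chris g x u' v := by
    ext w; simp [chris_apply]; ring
  simp only [gam, e, sharp_add, smul_add]

theorem gam_smul_left (x u v : Space n) (a : ℝ) : gam g x (a • u) v = a • gam g x u v := by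
  have e : chris g x (a • u) v = a • chris g x u v := by
    ext w; simp [chris_apply]; ring
  simp only [gam, e, sharp_smul, smul_comm a]

theorem gam_smul_right (x u v : Space n) (a : ℝ) : gam g x u (a • v) = a • gam g x u v := by
  have e : chris g x u (a • v) = a • chris g x u v := by
    ext w; simp [chris_apply]; ring
  simp only [gam, e, sharp_smul, smul_comm a]

/-- The Gram matrix. -/
def gram (g : MetricField n) (x : Space n) : Matrix (Fin n) (Fin n) ℝ :=
  Matrix.of fun i j : Fin n =>
    g x (EuclideanSpace.single i (1 : ℝ)) (EuclideanSpace.single j (1 : ℝ))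

theorem dens_eq (x : Space n) : dens g x = Real.sqrt (gram g x).det := rfl

theorem sum_single (v : Fin n → ℝ) (i : Fin n) :
    (∑ j, v j • EuclideanSpace.single j (1 : ℝ) : Space n) i = v i := by
  simp [Finset.sum_apply, Pi.single_apply, Finset.sum_ite_eq]

theorem gram_posDef (hg : IsMetric g) (x : Space n) : (gram g x).PosDef := by
  refine Matrix.PosDef.of_dotProduct_mulVec_pos ?_ fun v hv => ?_
  · ext i j
    simp [gram, Matrix.conjTranspose_apply, hg.symm x (EuclideanSpace.single i (1 : ℝ))]
  · set u : Space n := ∑ j, v j • EuclideanSpace.single j (1 : ℝ) with hu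
    have hu0 : u ≠ 0 := fun h => hv (funext fun i => by
      have := sum_single v i
      rw [← hu, h] at this
      simpa using this.symm)
    refine lt_of_lt_of_eq (hg.pos x u hu0) ?_
    simp only [hu, map_sum, map_smul, sum_apply, smul_apply, smul_eq_mul]
    simp [dotProduct, Matrix.mulVec, gram, Finset.mul_sum]
    rw [Finset.sum_comm]
    exact Finset.sum_congr rfl fun i _ => Finset.sum_congr rfl fun j _ => by ring

/-- The derivative of a determinant at the identity is the trace. -/
theorem det_deriv {M : ℝ → Matrix (Fin n) (Fin n) ℝ} {M' : Matrix (Fin n) (Fin n) ℝ} {t : ℝ}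
    (h1 : M t = 1) (h : ∀ i j, HasDerivAt (fun s => M s i j) (M' i j) t) :
    HasDerivAt (fun s => (M s).det) M'.trace t := by
  have hd : ∀ σ : Equiv.Perm (Fin n), HasDerivAt
      (fun s => ((Equiv.Perm.sign σ : ℤ) : ℝ) * ∏ i, M s (σ i) i)
      (((Equiv.Perm.sign σ : ℤ) : ℝ) * ∑ i, (∏ j ∈ Finset.univ.erase i, M t (σ j) j) • M' (σ i) i) t :=
    fun σ => (HasDerivAt.fun_finsetProd fun i _ => h (σ i) i).const_mul _
  have hs := HasDerivAt.fun_sum (u := Finset.univ) fun σ _ => hd σ
  have e1 : (fun s => (M s).det) = fun s =>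
      ∑ σ : Equiv.Perm (Fin n), ((Equiv.Perm.sign σ : ℤ) : ℝ) * ∏ i, M s (σ i) i := by
    funext s
    rw [Matrix.det_apply']
  rw [e1]
  refine hs.congr_deriv ?_
  rw [Finset.sum_eq_single (1 : Equiv.Perm (Fin n))]
  · simp [h1, Matrix.trace]
  · intro σ _ hσ
    refine mul_eq_zero_of_right _ (Finset.sum_eq_zero fun i _ => smul_eq_zero_of_left ?_ _)
    obtain ⟨j, hji, hj⟩ : ∃ j, j ≠ i ∧ σ j ≠ j := by
      by_contra hne
      push Not at hne
      refine hσ (Equiv.ext fun j => ?_)
      by_cases hji : j = i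
      · subst hji
        by_contra hmove
        exact hmove (σ.injective (hne _ hmove))
      · exact hne j hji
    exact Finset.prod_eq_zero (Finset.mem_erase.2 ⟨hji, Finset.mem_univ j⟩)
      (by rw [h1, Matrix.one_apply_ne hj])
  · simp

theorem expand (v : Space n) : v = ∑ i, v i • EuclideanSpace.single i (1 : ℝ) := by
  ext i
  exact (sum_single (fun j => v j) i).symm

theorem trace_eq (L : Space n →ₗ[ℝ] Space n) :
    LinearMap.trace ℝ (Space n) L = ∑ i, L (EuclideanSpace.single i (1 : ℝ)) i := by
  rw [LinearMap.trace_eq_matrix_trace ℝ (EuclideanSpace.basisFun (Fin n) ℝ).toBasis, Matrix.trace]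
  simp [LinearMap.toMatrix_apply, Matrix.diag]

theorem decomp (hg : IsMetric g) (x : Space n) (L : Space n →ₗ[ℝ] Space n)
    (hs : ∀ u v, g x (L u) v = g x u (L v)) (h0 : ∀ v, 0 ≤ g x (L v) v) :
    ∃ s : Fin n → Space n, (∀ v, g x (L v) v = ∑ k, g x (s k) v ^ 2) ∧
      LinearMap.trace ℝ (Space n) L = ∑ k, g x (s k) (s k) := by
  set Q : Matrix (Fin n) (Fin n) ℝ := Matrix.of fun i j : Fin n =>
    g x (L (EuclideanSpace.single i (1 : ℝ))) (EuclideanSpace.single j (1 : ℝ)) with hQ
  have hQp : Q.PosSemidef := by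
    refine Matrix.PosSemidef.of_dotProduct_mulVec_nonneg ?_ fun v => ?_
    · ext i j
      simp [hQ, Matrix.conjTranspose_apply, hs (EuclideanSpace.single i (1 : ℝ)),
        hg.symm x (EuclideanSpace.single i (1 : ℝ))]
    · refine le_of_le_of_eq (h0 (∑ j, v j • EuclideanSpace.single j (1 : ℝ))) ?_
      simp only [map_sum, map_smul, sum_apply, smul_apply, smul_eq_mul]
      simp [dotProduct, Matrix.mulVec, hQ, Finset.mul_sum]
      rw [Finset.sum_comm]
      exact Finset.sum_congr rfl fun i _ => Finset.sum_congr rfl fun j _ => by ring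
  obtain ⟨B, hB⟩ : ∃ B : Matrix (Fin n) (Fin n) ℝ, Q = star B * B := by
    open scoped MatrixOrder in
    exact CStarAlgebra.nonneg_iff_eq_star_mul_self.1 hQp.nonneg
  set s : Fin n → Space n := fun k =>
    sharp g x (∑ i, B k i • (EuclideanSpace.proj i : Space n →L[ℝ] ℝ)) with hsd
  have hb : ∀ k v, g x (s k) v = ∑ i, B k i * v i := by
    intro k v
    obtain ⟨e, he⟩ := equiv hg x
    rw [hsd]
    show g x ((g x).inverse _) v = _
    rw [← he, ContinuousLinearMap.inverse_equiv]
    simp
  have hLform : ∀ u v, g x (L u) v = ∑ k, g x (s k) u * g x (s k) v := by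
    intro u v
    have hlhs : g x (L u) v = ∑ i, ∑ j, u i * v j * Q i j := by
      conv_lhs => rw [expand u, expand v]
      simp only [map_sum, map_smul, sum_apply, smul_apply, smul_eq_mul]
      simp [hQ, Finset.mul_sum]
      rw [Finset.sum_comm]
      exact Finset.sum_congr rfl fun i _ => Finset.sum_congr rfl fun j _ => by ring
    rw [hlhs]
    simp only [hb, hB, Matrix.mul_apply, Matrix.star_apply, star_trivial, Finset.mul_sum,
      Finset.sum_mul]
    rw [Finset.sum_comm (s := (Finset.univ : Finset (Fin n)))]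
    rw [Finset.sum_comm (s := (Finset.univ : Finset (Fin n)))]
    refine (Finset.sum_congr rfl fun _ _ => Finset.sum_comm).trans ?_
    rw [Finset.sum_comm]
    exact Finset.sum_congr rfl fun k _ => by
      rw [Finset.sum_comm]
      exact Finset.sum_congr rfl fun i _ => Finset.sum_congr rfl fun j _ => by ring
  have hLeq : ∀ u, L u = ∑ k, g x (s k) u • s k := fun u => eq_of_g hg x fun w => by
    rw [hLform]
    simp [map_sum, map_smul]
  refine ⟨s, fun v => by simp only [hLform, pow_two], ?_⟩
  rw [trace_eq]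
  simp only [hLeq]
  have e : ∀ (c : Fin n → ℝ) (i : Fin n), (∑ k, c k • s k) i = ∑ k, c k * s k i := by
    intro c i; simp [Finset.sum_apply]
  simp only [e]
  rw [Finset.sum_comm]
  refine Finset.sum_congr rfl fun k _ => ?_
  conv_rhs => arg 2; rw [expand (s k)]
  simp [map_sum, map_smul, mul_comm]

end Alg

open Alg

theorem g_sharp (hg : IsMetric g) (x : Space n) (p : Space n →L[ℝ] ℝ) (v : Space n) :
    g x (sharp g x p) v = p v := by
  obtain ⟨e, he⟩ := equiv hg x
  rw [sharp, ← he, ContinuousLinearMap.inverse_equiv]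
  simp

theorem gGrad_dual (hg : IsMetric g) (f : Space n → ℝ) (x v : Space n) :
    g x (gGrad g f x) v = fderiv ℝ f x v := by
  exact g_sharp hg x _ v

theorem gNorm_pos (hg : IsMetric g) {x v : Space n} (hv : v ≠ 0) : 0 < gNorm g x v := by
  exact Real.sqrt_pos.2 (hg.pos x v hv)

theorem abs_g_le (hg : IsMetric g) (x u v : Space n) :
    |g x u v| ≤ gNorm g x u * gNorm g x v := by
  have hnn : ∀ w, 0 ≤ g x w w := fun w => by
    rcases eq_or_ne w 0 with rfl | hw
    · simp
    · exact (hg.pos x w hw).le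
  have key : g x u v ^ 2 ≤ g x u u * g x v v := by
    rcases eq_or_ne v 0 with rfl | hv
    · simp
    · have h := hnn (g x v v • u - g x u v • v)
      simp only [map_sub, map_smul, sub_apply, smul_apply, smul_eq_mul, hg.symm x v u] at h
      have hv' := hg.pos x v hv
      nlinarith
  rw [gNorm, gNorm, ← Real.sqrt_mul (hnn u), ← Real.sqrt_sq_eq_abs]
  exact Real.sqrt_le_sqrt key

theorem dens_pos (hg : IsMetric g) (x : Space n) : 0 < dens g x := by
  exact Real.sqrt_pos.2 (gram_posDef hg x).det_pos

theorem contDiff_dens (hg : IsMetric g) : ContDiff ℝ ∞ (dens g) := by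
  refine ContDiff.sqrt ?_ fun x => (gram_posDef hg x).det_pos.ne'
  simp only [Matrix.det_apply, Units.smul_def, zsmul_eq_mul, Matrix.of_apply]
  exact ContDiff.sum fun σ _ => contDiff_const.mul (contDiff_prod fun i _ =>
    (hg.smooth.clm_apply contDiff_const).clm_apply contDiff_const)

theorem contDiff_sharp (hg : IsMetric g) {p : Space n → Space n →L[ℝ] ℝ}
    (hp : ContDiff ℝ ∞ p) : ContDiff ℝ ∞ fun x => sharp g x (p x) := by
  refine contDiff_iff_contDiffAt.2 fun x => ?_
  obtain ⟨e, he⟩ := equiv hg x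
  have h1 : ContDiffAt ℝ ∞ ContinuousLinearMap.inverse (g x) := by
    rw [← he]; exact contDiffAt_map_inverse e
  exact (h1.comp x hg.smooth.contDiffAt).clm_apply hp.contDiffAt

theorem contDiff_gGrad (hg : IsMetric g) {f : Space n → ℝ} (hf : ContDiff ℝ ∞ f) :
    ContDiff ℝ ∞ (gGrad g f) := by
  exact contDiff_sharp hg (hf.fderiv_right (by simp))

theorem contDiff_gam (hg : IsMetric g) :
    ContDiff ℝ ∞ fun p : Space n × Space n × Space n => gam g p.1 p.2.1 p.2.2 := by
  have hdg : ContDiff ℝ ∞ fun p : Space n × Space n × Space n => fderiv ℝ g p.1 :=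
    (hg.smooth.fderiv_right (by simp)).comp contDiff_fst
  have hu : ContDiff ℝ ∞ fun p : Space n × Space n × Space n => p.2.1 :=
    contDiff_fst.comp contDiff_snd
  have hv : ContDiff ℝ ∞ fun p : Space n × Space n × Space n => p.2.2 :=
    contDiff_snd.comp contDiff_snd
  have hc : ContDiff ℝ ∞ fun p : Space n × Space n × Space n => chris g p.1 p.2.1 p.2.2 := by
    refine contDiff_clm_apply_iff.2 fun w => ?_
    simp only [chris_apply]
    exact ((((hdg.clm_apply hu).clm_apply hv).clm_apply contDiff_const).add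
      (((hdg.clm_apply hv).clm_apply hu).clm_apply contDiff_const)).sub
      (((hdg.clm_apply contDiff_const).clm_apply hu).clm_apply hv)
  refine contDiff_iff_contDiffAt.2 fun p => ?_
  obtain ⟨e, he⟩ := equiv hg p.1
  have h1 : ContDiffAt ℝ ∞ ContinuousLinearMap.inverse (g p.1) := by
    rw [← he]; exact contDiffAt_map_inverse e
  have h2 : ContDiffAt ℝ ∞ (fun q : Space n × Space n × Space n => g q.1) p :=
    (hg.smooth.comp contDiff_fst).contDiffAt
  exact (((h1.comp p h2).clm_apply hc.contDiffAt)).const_smul (1 / 2 : ℝ)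

theorem gam_symm (hg : IsMetric g) (x u v : Space n) : gam g x u v = gam g x v u := by
  have e : chris g x u v = chris g x v u := by
    ext w
    simp only [chris_apply, dg_symm hg x w u v]
    ring
  simp only [gam, e]

/-- The connection is compatible with the metric. -/
theorem g_compat (hg : IsMetric g) (x u v w : Space n) :
    fderiv ℝ g x u v w = g x (gam g x u v) w + g x v (gam g x u w) := by
  rw [hg.symm x v (gam g x u w)]
  simp only [gam, map_smul, smul_apply, smul_eq_mul, g_sharp hg, chris_apply]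
  rw [dg_symm hg x u w v, dg_symm hg x v u w, dg_symm hg x w u v]
  ring

theorem cov_isLinear (hg : IsMetric g) (X : Space n → Space n) (x : Space n) :
    IsLinearMap ℝ (cov g X x) := by
  refine ⟨fun u v => ?_, fun a v => ?_⟩
  · simp only [cov, map_add, gam_add_left]
    abel
  · simp only [cov, map_smul, gam_smul_left, smul_add]

theorem cov_smul (hg : IsMetric g) {φ : Space n → ℝ} {X : Space n → Space n}
    {x : Space n} (hφ : DifferentiableAt ℝ φ x) (hX : DifferentiableAt ℝ X x) (v : Space n) :
    cov g (fun y => φ y • X y) x v = φ x • cov g X x v + fderiv ℝ φ x v • X x := by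
  have h : fderiv ℝ (fun y => φ y • X y) x v = φ x • fderiv ℝ X x v + fderiv ℝ φ x v • X x := by
    rw [fderiv_fun_smul hφ hX]; simp
  simp only [cov, h, gam_smul_right, smul_add]
  abel

theorem gDiv_smul (hg : IsMetric g) {φ : Space n → ℝ} {X : Space n → Space n}
    {x : Space n} (hφ : DifferentiableAt ℝ φ x) (hX : DifferentiableAt ℝ X x) :
    gDiv g (fun y => φ y • X y) x = φ x * gDiv g X x + fderiv ℝ φ x (X x) := by
  have hD : DifferentiableAt ℝ (dens g) x := (contDiff_dens hg).differentiable (by simp) x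
  have hi : ∀ i, DifferentiableAt ℝ (fun y => (dens g y • X y) i) x := fun i =>
    (EuclideanSpace.proj i : Space n →L[ℝ] ℝ).differentiableAt.comp x (hD.smul hX)
  have e : ∀ i y, (dens g y • φ y • X y) i = φ y * (dens g y • X y) i := fun i y => by
    simp only [PiLp.smul_apply, smul_eq_mul]; ring
  have hsum : fderiv ℝ φ x (X x) = ∑ i, X x i * fderiv ℝ φ x (EuclideanSpace.single i (1 : ℝ)) := by
    conv_lhs => rw [expand (X x)]
    simp [map_sum, map_smul]
  have hterm : ∀ i, pd i (fun y => φ y * (dens g y • X y) i) x =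
      φ x * pd i (fun y => (dens g y • X y) i) x +
        dens g x * (X x i * fderiv ℝ φ x (EuclideanSpace.single i (1 : ℝ))) := by
    intro i
    simp only [pd]
    rw [fderiv_fun_mul hφ (hi i)]
    simp only [add_apply, smul_apply, smul_eq_mul, PiLp.smul_apply]
    ring
  have hp := dens_pos hg x
  simp only [gDiv, divg, e, hterm, Finset.sum_add_distrib, ← Finset.mul_sum, ← hsum]
  field_simp

/-- The divergence is the trace of the covariant derivative. -/
theorem gDiv_eq_trace (hg : IsMetric g) {X : Space n → Space n} {x : Space n}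
    (hX : DifferentiableAt ℝ X x) :
    gDiv g X x = LinearMap.trace ℝ (Space n) ((cov_isLinear hg X x).mk' _) := by
  have hD : DifferentiableAt ℝ (dens g) x := (contDiff_dens hg).differentiable (by simp) x
  have hp := dens_pos hg x
  set w := X x with hw
  set L : Matrix (Fin n) (Fin n) ℝ := Matrix.of fun i j : Fin n =>
    gam g x w (EuclideanSpace.single j (1 : ℝ)) i with hL
  set D : Matrix (Fin n) (Fin n) ℝ := Matrix.of fun i j : Fin n =>
    fderiv ℝ g x w (EuclideanSpace.single i (1 : ℝ)) (EuclideanSpace.single j (1 : ℝ)) with hDm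
  set G := gram g x with hG
  have hGdet : IsUnit G.det := isUnit_iff_ne_zero.2 (gram_posDef hg x).det_pos.ne'
  have hGs : G.transpose = G := by
    ext i j; simp [hG, gram, hg.symm x (EuclideanSpace.single j (1 : ℝ))]
  have hGD : D = L.transpose * G + G * L := by
    ext i j
    simp only [hDm, Matrix.of_apply, g_compat hg x w, Matrix.add_apply, Matrix.mul_apply,
      Matrix.transpose_apply, hL]
    refine congrArg₂ (· + ·) ?_ ?_
    · conv_lhs => rw [expand (gam g x w (EuclideanSpace.single i (1 : ℝ)))]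
      simp [map_sum, map_smul, hG, gram]
    · conv_lhs => rw [expand (gam g x w (EuclideanSpace.single j (1 : ℝ)))]
      simp [map_sum, map_smul, hG, gram, mul_comm]
  have htr : (G⁻¹ * D).trace = 2 * L.trace := by
    rw [hGD, mul_add, Matrix.trace_add, Matrix.trace_mul_comm G⁻¹ (L.transpose * G),
      Matrix.mul_assoc, Matrix.mul_nonsing_inv _ hGdet, Matrix.mul_one, Matrix.trace_transpose,
      ← Matrix.mul_assoc, Matrix.nonsing_inv_mul _ hGdet, Matrix.one_mul]
    ring
  have hline : HasDerivAt (fun t : ℝ => x + t • w) w 0 := by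
    simpa using ((hasDerivAt_id (0 : ℝ)).smul_const w).const_add x
  have hx0 : x + (0 : ℝ) • w = x := by simp
  have hdet : HasDerivAt (fun t : ℝ => (gram g (x + t • w)).det) (G.det * (G⁻¹ * D).trace) 0 := by
    have h : ∀ i j, HasDerivAt (fun t : ℝ => (G⁻¹ * gram g (x + t • w)) i j) ((G⁻¹ * D) i j) 0 := by
      intro i j
      simp only [Matrix.mul_apply]
      refine HasDerivAt.fun_sum fun k _ => HasDerivAt.const_mul _ ?_
      simp only [hDm, Matrix.of_apply, gram]
      rw [← dg_apply hg]
      have hd : DifferentiableAt ℝ (fun y => g y (EuclideanSpace.single k (1 : ℝ))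
          (EuclideanSpace.single j (1 : ℝ))) x :=
        ((hg.smooth.clm_apply contDiff_const).clm_apply contDiff_const).differentiable (by simp) x
      exact hd.hasFDerivAt.comp_hasDerivAt_of_eq (0 : ℝ) hline hx0.symm
    have h2 := (det_deriv (M := fun t : ℝ => G⁻¹ * gram g (x + t • w))
      (by rw [hx0]; exact Matrix.nonsing_inv_mul _ hGdet) h).const_mul G.det
    refine h2.congr_of_eventuallyEq (Filter.Eventually.of_forall fun t => ?_)
    show (gram g (x + t • w)).det = G.det * (G⁻¹ * gram g (x + t • w)).det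
    rw [Matrix.det_mul, ← mul_assoc, ← Matrix.det_mul, Matrix.mul_nonsing_inv _ hGdet,
      Matrix.det_one, one_mul]
  have hdens : fderiv ℝ (dens g) x w = dens g x * L.trace := by
    have h1 : HasDerivAt (fun t : ℝ => dens g (x + t • w)) (fderiv ℝ (dens g) x w) 0 :=
      hD.hasFDerivAt.comp_hasDerivAt_of_eq (0 : ℝ) hline hx0.symm
    have hpos : 0 < G.det := (gram_posDef hg x).det_pos
    have h2 : HasDerivAt (fun t : ℝ => dens g (x + t • w))
        (G.det * (G⁻¹ * D).trace / (2 * Real.sqrt (gram g (x + (0 : ℝ) • w)).det)) 0 :=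
      hdet.sqrt (by rw [hx0]; exact hpos.ne')
    rw [h1.unique h2, htr, dens_eq, hx0, ← hG]
    have hs := Real.mul_self_sqrt hpos.le
    field_simp
    rw [Real.sq_sqrt hpos.le]
    ring
  have hsum : fderiv ℝ (dens g) x w =
      ∑ i, w i * fderiv ℝ (dens g) x (EuclideanSpace.single i (1 : ℝ)) := by
    conv_lhs => rw [expand w]
    simp [map_sum, map_smul]
  have hterm : ∀ i, pd i (fun y => (dens g y • X y) i) x =
      dens g x * fderiv ℝ X x (EuclideanSpace.single i (1 : ℝ)) i +
        w i * fderiv ℝ (dens g) x (EuclideanSpace.single i (1 : ℝ)) := by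
    intro i
    simp only [pd]
    have h := ((EuclideanSpace.proj i : Space n →L[ℝ] ℝ).hasFDerivAt.comp x
      (hD.hasFDerivAt.fun_smul hX.hasFDerivAt))
    have h' : HasFDerivAt (fun y => (dens g y • X y) i) _ x := h
    rw [h'.fderiv]
    simp [hw, mul_comm]
  rw [trace_eq]
  simp only [IsLinearMap.mk'_apply, cov, PiLp.add_apply, Finset.sum_add_distrib]
  have htrL : ∑ i, gam g x (EuclideanSpace.single i (1 : ℝ)) w i = L.trace := by
    simp [Matrix.trace, hL, gam_symm hg x w]
  rw [← hw, htrL]
  simp only [gDiv, divg, hterm, Finset.sum_add_distrib, ← Finset.mul_sum]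
  rw [← hsum, hdens]
  field_simp

theorem gHess_eq (hg : IsMetric g) {f : Space n → ℝ} (hf : ContDiff ℝ ∞ f) (x v w : Space n) :
    g x (cov g (gGrad g f) x v) w = gHess g f x v w := by
  have hG : DifferentiableAt ℝ (gGrad g f) x := (contDiff_gGrad hg hf).differentiable (by simp) x
  have hgd : DifferentiableAt ℝ g x := hg.smooth.differentiable (by simp) x
  have hf2 : DifferentiableAt ℝ (fderiv ℝ f) x :=
    (hf.fderiv_right (m := ∞) (by simp)).differentiable (by simp) x
  have e : fderiv ℝ (fun y => g y (gGrad g f y) w) x v =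
      fderiv ℝ (fun y => fderiv ℝ f y w) x v := by
    simp only [gGrad_dual hg]
  rw [fderiv_clm_apply (hgd.clm_apply hG) (differentiableAt_const w), fderiv_clm_apply hgd hG,
    fderiv_clm_apply hf2 (differentiableAt_const w)] at e
  simp [g_compat hg x v (gGrad g f x) w] at e
  simp only [cov, gHess, map_add, add_apply]
  rw [gGrad_dual hg] at e
  linarith

theorem gHess_symm (hg : IsMetric g) {f : Space n → ℝ} (hf : ContDiff ℝ ∞ f) (x v w : Space n) :
    gHess g f x v w = gHess g f x w v := by
  simp only [gHess, gam_symm hg x v w]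
  rw [(hf.contDiffAt.isSymmSndFDerivAt (by simp only [minSmoothness_of_isRCLikeNormedField]; exact WithTop.coe_le_coe.2 le_top)).eq v w]

/-- A nonnegative self-adjoint operator is bounded by its trace. -/
theorem quad_le_trace (hg : IsMetric g) (x : Space n) (L : Space n →ₗ[ℝ] Space n)
    (hs : ∀ u v, g x (L u) v = g x u (L v)) (h0 : ∀ v, 0 ≤ g x (L v) v) (v : Space n) :
    g x (L v) v ≤ LinearMap.trace ℝ (Space n) L * g x v v := by
  obtain ⟨s, hq, ht⟩ := decomp hg x L hs h0
  rw [hq, ht, Finset.sum_mul]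
  refine Finset.sum_le_sum fun k _ => ?_
  have h := abs_g_le hg x (s k) v
  have h2 := pow_le_pow_left₀ (abs_nonneg _) h 2
  have hnn : ∀ u, 0 ≤ g x u u := fun u => by
    rcases eq_or_ne u 0 with rfl | hu
    · simp
    · exact (hg.pos x u hu).le
  rwa [sq_abs, mul_pow, gNorm, gNorm, Real.sq_sqrt (hnn _), Real.sq_sqrt (hnn _)] at h2

/-- The covariant derivative and divergence of a radial field of a potential. -/
theorem radial_div (hg : IsMetric g) {b : ℝ} {o : Space n} {ψ : Space n → ℝ}
    (hψ : Pot g b o ψ) {η : ℝ → ℝ} (hη : ContDiff ℝ 2 η) (x : Space n) (hη0 : 0 ≤ η (ψ x))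
    (hη1 : deriv η (ψ x) ≤ 0) :
    (∀ v, (((n : ℝ) - 1) * η (ψ x) + 2 * ψ x * deriv η (ψ x)) * g x v v -
        deriv η (ψ x) * fderiv ℝ ψ x v ^ 2 ≤
      gDiv g (fun y => η (ψ y) • gGrad g ψ y) x * g x v v -
        g x (cov g (fun y => η (ψ y) • gGrad g ψ y) x v) v) ∧
    (n : ℝ) * η (ψ x) + 2 * ψ x * deriv η (ψ x) ≤
      gDiv g (fun y => η (ψ y) • gGrad g ψ y) x := by
  have hnn : ∀ u, 0 ≤ g x u u := fun u => by
    rcases eq_or_ne u 0 with rfl | hu
    · simp
    · exact (hg.pos x u hu).le
  have hψd : DifferentiableAt ℝ ψ x := hψ.smooth.differentiable (by simp) x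
  have hηd : DifferentiableAt ℝ η (ψ x) := hη.differentiable (by simp) (ψ x)
  have hφ : HasFDerivAt (fun y => η (ψ y)) (deriv η (ψ x) • fderiv ℝ ψ x) x :=
    hηd.hasDerivAt.comp_hasFDerivAt x hψd.hasFDerivAt
  have hGd : DifferentiableAt ℝ (gGrad g ψ) x :=
    (contDiff_gGrad hg hψ.smooth).differentiable (by simp) x
  set G2 := g x (gGrad g ψ x) (gGrad g ψ x) with hG2
  have hG2le : G2 ≤ 2 * ψ x := by
    have h := hψ.grad x
    rwa [gNorm, Real.sq_sqrt (hnn _)] at h
  have hdiv : gDiv g (fun y => η (ψ y) • gGrad g ψ y) x =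
      η (ψ x) * gDiv g (gGrad g ψ) x + deriv η (ψ x) * G2 := by
    rw [gDiv_smul hg hφ.differentiableAt hGd, hφ.fderiv]
    simp [hG2, gGrad_dual hg]
  set C := (cov_isLinear hg (gGrad g ψ) x).mk' _ with hC
  have hCv : ∀ v, C v = cov g (gGrad g ψ) x v := fun v => rfl
  set P : Space n →ₗ[ℝ] Space n := C - LinearMap.id with hP
  have hPs : ∀ u v, g x (P u) v = g x u (P v) := by
    intro u v
    rw [hg.symm x u (P v)]
    simp only [hP, LinearMap.sub_apply, LinearMap.id_coe, id_eq, map_sub, sub_apply, hCv,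
      gHess_eq hg hψ.smooth, gHess_symm hg hψ.smooth x u v, hg.symm x u v]
  have hP0 : ∀ v, 0 ≤ g x (P v) v := by
    intro v
    simp only [hP, LinearMap.sub_apply, LinearMap.id_coe, id_eq, map_sub, sub_apply, hCv,
      gHess_eq hg hψ.smooth]
    linarith [hψ.hess x v]
  have hPtr : LinearMap.trace ℝ (Space n) P = gDiv g (gGrad g ψ) x - n := by
    rw [hP, map_sub, LinearMap.trace_id, gDiv_eq_trace hg hGd, finrank_euclideanSpace_fin]
  have hdn : (n : ℝ) ≤ gDiv g (gGrad g ψ) x := by
    obtain ⟨s, -, ht⟩ := decomp hg x P hPs hP0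
    have h : 0 ≤ LinearMap.trace ℝ (Space n) P := by
      rw [ht]; exact Finset.sum_nonneg fun k _ => hnn _
    rw [hPtr] at h
    linarith
  refine ⟨fun v => ?_, ?_⟩
  · have hquad := quad_le_trace hg x P hPs hP0 v
    rw [hPtr] at hquad
    simp only [hP, LinearMap.sub_apply, LinearMap.id_coe, id_eq, map_sub, sub_apply, hCv,
      gHess_eq hg hψ.smooth] at hquad
    have hc : g x (cov g (fun y => η (ψ y) • gGrad g ψ y) x v) v =
        η (ψ x) * gHess g ψ x v v + deriv η (ψ x) * fderiv ℝ ψ x v ^ 2 := by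
      rw [cov_smul hg hφ.differentiableAt hGd, hφ.fderiv]
      simp [map_add, map_smul, gHess_eq hg hψ.smooth, gGrad_dual hg, pow_two, mul_assoc]
    rw [hdiv, hc]
    have a1 := mul_le_mul_of_nonneg_left hquad hη0
    have a2 := mul_le_mul_of_nonpos_left (mul_le_mul_of_nonneg_right hG2le (hnn v)) hη1
    have a3 := mul_nonpos_of_nonpos_of_nonneg hη1 (sq_nonneg (fderiv ℝ ψ x v))
    linarith
  · rw [hdiv]
    have a1 := mul_le_mul_of_nonneg_left hdn hη0
    have a2 := mul_le_mul_of_nonpos_left hG2le hη1
    linarith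

end

end Vale.Agent.P219.Univ
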