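import Mathlib
import Vale.Agent.P219.Mollify
import Vale.Agent.P219.Univ.Algebra

/-!
# Elementary properties of lengths, divergences and weighted perimeters
-/

open MeasureTheory Filter Topology
open scoped ENNReal ContDiff

namespace Vale.Agent.P219.Univ

open Vale.Agent.P219

noncomputable section

variable {n : ℕ} {g : MetricField n}

theorem g_nonneg (hg : IsMetric g) (x v : Space n) : 0 ≤ g x v v := by
  rcases eq_or_ne v 0 with rfl | h
  · simp
  · exact (hg.pos x v h).le

theorem gNorm_nonneg (g : MetricField n) (x v : Space n) : 0 ≤ gNorm g x v := Real.sqrt_nonneg _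

theorem gNorm_zero (g : MetricField n) (x : Space n) : gNorm g x 0 = 0 := by simp [gNorm]

theorem gNorm_sq (hg : IsMetric g) (x v : Space n) : gNorm g x v ^ 2 = g x v v :=
  Real.sq_sqrt (g_nonneg hg x v)

theorem gNorm_smul (x : Space n) (c : ℝ) (v : Space n) :
    gNorm g x (c • v) = |c| * gNorm g x v := by
  simp only [gNorm, map_smul, _root_.smul_apply, smul_eq_mul]
  rw [← mul_assoc, ← sq, Real.sqrt_mul (sq_nonneg c), Real.sqrt_sq_eq_abs]

theorem gNorm_add_le (hg : IsMetric g) (x u v : Space n) :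
    gNorm g x (u + v) ≤ gNorm g x u + gNorm g x v := by
  refine Real.sqrt_le_iff.2 ⟨add_nonneg (gNorm_nonneg g x u) (gNorm_nonneg g x v), ?_⟩
  have := (abs_le.1 (abs_g_le hg x u v)).2
  simp only [map_add, _root_.add_apply, hg.symm x v u]
  nlinarith [gNorm_sq hg x u, gNorm_sq hg x v]

theorem contDiff_weighted (hg : IsMetric g) {Y : Space n → Space n} (hY : ContDiff ℝ 1 Y) :
    ContDiff ℝ 1 fun y => dens g y • Y y :=
  ((contDiff_dens hg).of_le (by simp)).smul hY

theorem hasCompactSupport_weighted {Y : Space n → Space n} (hY : HasCompactSupport Y) :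
    HasCompactSupport fun y => dens g y • Y y :=
  hY.smul_left (f := dens g)

theorem integrable_divg {Y : Space n → Space n} (hY : ContDiff ℝ 1 Y)
    (hYc : HasCompactSupport Y) : Integrable (divg Y) :=
  (continuous_divg hY).integrable_of_hasCompactSupport (hasCompactSupport_divg hYc)

theorem integral_divg_eq_zero {Y : Space n → Space n} (hY : ContDiff ℝ 1 Y)
    (hYc : HasCompactSupport Y) : ∫ x, divg Y x = 0 := by
  have hi : ∀ i : Fin n, ContDiff ℝ 1 fun y => Y y i := contDiff_euclidean.1 hY
  have hc : ∀ i : Fin n, HasCompactSupport fun y => Y y i := fun i =>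
    hYc.comp_left (g := fun v : Space n => v i) (by simp)
  have hp : ∀ i : Fin n, Integrable fun x => pd i (fun y => Y y i) x := fun i =>
    (((hi i).continuous_fderiv one_ne_zero).clm_apply continuous_const).integrable_of_hasCompactSupport
      ((hc i).fderiv_apply ℝ (EuclideanSpace.single i (1 : ℝ)))
  unfold divg
  rw [integral_finsetSum _ fun i _ => hp i]
  refine Finset.sum_eq_zero fun i _ => ?_
  have h := integral_mul_fderiv_eq_neg_fderiv_mul_of_integrable (μ := (volume : Measure (Space n)))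
    (f := fun _ => (1 : ℝ)) (g := fun y => Y y i) (v := EuclideanSpace.single i (1 : ℝ))
    (by simp) (by simpa [pd] using hp i)
    (by simpa using (hi i).continuous.integrable_of_hasCompactSupport (hc i))
    (fun x _ => differentiableAt_const _) (fun x _ => (hi i).differentiable one_ne_zero x)
  simpa [pd] using h

theorem gDiv_mul_dens (hg : IsMetric g) (X : Space n → Space n) (x : Space n) :
    gDiv g X x * dens g x = divg (fun y => dens g y • X y) x :=
  div_mul_cancel₀ _ (dens_pos hg x).ne'

theorem le_wPer {w : Space n → ℝ} {E : Set (Space n)} {Y : Space n → Space n}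
    (hY : ContDiff ℝ 1 Y) (hYc : HasCompactSupport Y) (hw : ∀ x, gNorm g x (Y x) ≤ w x) :
    ENNReal.ofReal (∫ x in E, divg (fun y => dens g y • Y y) x) ≤ wPer g w E :=
  le_iSup₂_of_le Y ⟨hY, hYc, hw⟩ le_rfl

theorem wPer_mono {w w' : Space n → ℝ} (h : ∀ x, w x ≤ w' x) (E : Set (Space n)) :
    wPer g w E ≤ wPer g w' E :=
  iSup₂_le fun Y hY => le_wPer hY.1 hY.2.1 fun x => (hY.2.2 x).trans (h x)

theorem wPer_add_le (hg : IsMetric g) {w w' : Space n → ℝ} (hw : ∀ x, 0 ≤ w x)
    (hw' : ∀ x, 0 ≤ w' x) (E : Set (Space n)) :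
    wPer g w E + wPer g w' E ≤ wPer g (fun x => w x + w' x) E := by
  simp only [wPer, iSup_subtype']
  have : Nonempty {Y : Space n → Space n // ContDiff ℝ 1 Y ∧ HasCompactSupport Y ∧
      ∀ x, gNorm g x (Y x) ≤ w x} :=
    ⟨⟨fun _ => 0, contDiff_const, HasCompactSupport.zero, fun x => by simpa [gNorm_zero] using hw x⟩⟩
  have : Nonempty {Y : Space n → Space n // ContDiff ℝ 1 Y ∧ HasCompactSupport Y ∧
      ∀ x, gNorm g x (Y x) ≤ w' x} :=
    ⟨⟨fun _ => 0, contDiff_const, HasCompactSupport.zero, fun x => by simpa [gNorm_zero] using hw' x⟩⟩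
  refine ENNReal.iSup_add_iSup_le fun ⟨Y, hY⟩ ⟨Z, hZ⟩ => ?_
  rw [← iSup_subtype' (f := fun (Y : Space n → Space n) (_ : ContDiff ℝ 1 Y ∧ HasCompactSupport Y ∧
      ∀ x, gNorm g x (Y x) ≤ w x + w' x) =>
    ENNReal.ofReal (∫ x in E, divg (fun y => dens g y • Y y) x))]
  show _ ≤ wPer g (fun x => w x + w' x) E
  have h := le_wPer (E := E) (hY.1.add hZ.1) (hY.2.1.add hZ.2.1)
    (w := fun x => w x + w' x) (g := g)
    fun x => (gNorm_add_le hg x _ _).trans (add_le_add (hY.2.2 x) (hZ.2.2 x))
  have hiY := integrable_divg (contDiff_weighted hg hY.1) (hasCompactSupport_weighted hY.2.1)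
  have hiZ := integrable_divg (contDiff_weighted hg hZ.1) (hasCompactSupport_weighted hZ.2.1)
  by_cases hp : 0 ≤ ∫ x in E, divg (fun y => dens g y • Y y) x
  · by_cases hq : 0 ≤ ∫ x in E, divg (fun y => dens g y • Z y) x
    · rw [← ENNReal.ofReal_add hp hq, ← integral_add hiY.integrableOn hiZ.integrableOn]
      refine le_trans (ENNReal.ofReal_le_ofReal (le_of_eq (integral_congr_ae (ae_of_all _ fun x => ?_)))) h
      simp only [smul_add]
      unfold divg
      rw [← Finset.sum_add_distrib]
      refine Finset.sum_congr rfl fun i _ => ?_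
      simp only [pd, PiLp.add_apply]
      rw [fderiv_fun_add ((contDiff_euclidean.1 (contDiff_weighted hg hY.1) i).differentiable one_ne_zero x)
        ((contDiff_euclidean.1 (contDiff_weighted hg hZ.1) i).differentiable one_ne_zero x)]
      rfl
    · rw [ENNReal.ofReal_of_nonpos (le_of_not_ge hq), add_zero]
      exact (le_wPer hY.1 hY.2.1 hY.2.2).trans (wPer_mono (fun x => le_add_of_nonneg_right (hw' x)) E)
  · rw [ENNReal.ofReal_of_nonpos (le_of_not_ge hp), zero_add]
    exact (le_wPer hZ.1 hZ.2.1 hZ.2.2).trans (wPer_mono (fun x => le_add_of_nonneg_left (hw x)) E)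

theorem divg_const_smul {Y : Space n → Space n} {x : Space n} (hY : DifferentiableAt ℝ Y x)
    (c : ℝ) : divg (fun y => c • Y y) x = c * divg Y x := by
  simpa using divg_smul (f := fun _ => c) (differentiableAt_const c) hY

theorem wPer_const_le (hg : IsMetric g) {M : ℝ} (hM : 0 < M) (E : Set (Space n)) :
    wPer g (fun _ => M) E ≤ ENNReal.ofReal M * gPer g E := by
  refine iSup₂_le fun Y hY => ?_
  have h := le_wPer (g := g) (E := E) (hY.1.const_smul M⁻¹) (hY.2.1.smul_left (f := fun _ => M⁻¹))
    (w := fun _ => 1) fun x => by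
      rw [gNorm_smul, abs_of_pos (inv_pos.2 hM), inv_mul_le_iff₀ hM, mul_one]
      exact hY.2.2 x
  refine le_trans ?_ (mul_le_mul_right h _)
  rw [← ENNReal.ofReal_mul hM.le]
  refine ENNReal.ofReal_le_ofReal (le_of_eq ?_)
  rw [← integral_const_mul]
  refine integral_congr_ae (ae_of_all _ fun x => ?_)
  simp only [smul_comm (dens g _) M⁻¹]
  rw [divg_const_smul ((contDiff_weighted hg hY.1).differentiable one_ne_zero x), ← mul_assoc,
    mul_inv_cancel₀ hM.ne', one_mul]

theorem gInt_gDiv (hg : IsMetric g) (X : Space n → Space n) (E : Set (Space n)) :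
    gInt g E (gDiv g X) = ∫ x in E, divg (fun y => dens g y • X y) x := by
  simp only [gInt, gDiv_mul_dens hg X]

end

end Vale.Agent.P219.Univ
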