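import Mathlib
import Vale.Agent.P219.Defs

/-!
# Riemannian metrics on `ℝ^n` written in coordinates
-/

open MeasureTheory
open scoped ENNReal ContDiff

namespace Vale.Agent.P219.Coord

open Vale.Agent.P219

noncomputable section

variable {n : ℕ}

/-- The components of a symmetric positive smooth metric. -/
structure IsMetric (G : Fin n → Fin n → Space n → ℝ) : Prop where
  smooth : ∀ i j, ContDiff ℝ ∞ (G i j)
  symm : ∀ i j x, G i j x = G j i x
  pos : ∀ x (v : Fin n → ℝ), v ≠ 0 → 0 < ∑ i, ∑ j, v i * v j * G i j x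

/-- The Christoffel symbol with upper index `k`. -/
def Gamma (G : Fin n → Fin n → Space n → ℝ) (k i j : Fin n) (x : Space n) : ℝ :=
  1 / 2 * ∑ l, (Matrix.of fun a b => G a b x)⁻¹ k l *
    (pd i (G j l) x + pd j (G i l) x - pd l (G i j) x)

/-- The curvature `R(e i, e j) e k`, component `m`. -/
def Curv (G : Fin n → Fin n → Space n → ℝ) (m i j k : Fin n) (x : Space n) : ℝ :=
  pd i (Gamma G m j k) x - pd j (Gamma G m i k) x +
    ∑ s, (Gamma G m i s x * Gamma G s j k x - Gamma G m j s x * Gamma G s i k x)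

/-- All sectional curvatures are at most `κ`: `g(R(u,v)v,u) ≤ κ (|u|² |v|² - g(u,v)²)`. -/
def SecLE (G : Fin n → Fin n → Space n → ℝ) (κ : ℝ) : Prop :=
  ∀ x (u v : Fin n → ℝ),
    (∑ i, ∑ j, ∑ k, ∑ m, ∑ l, u i * v j * v k * u l * G m l x * Curv G m i j k x) ≤
      κ * ((∑ i, ∑ j, u i * u j * G i j x) * (∑ i, ∑ j, v i * v j * G i j x) -
        (∑ i, ∑ j, u i * v j * G i j x) ^ 2)

/-- Every point has global normal coordinates: a diffeomorphism from `ℝ^n` which is an isometry
at the origin and carries lines through the origin to geodesics. -/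
def NormalCharts (G : Fin n → Fin n → Space n → ℝ) : Prop :=
  ∀ o, ∃ E F : Space n → Space n, ContDiff ℝ ∞ E ∧ ContDiff ℝ ∞ F ∧
    Function.LeftInverse F E ∧ Function.RightInverse F E ∧ E 0 = o ∧
    (∀ a b : Fin n, (∑ i, ∑ j, pd a (fun y => E y i) 0 * pd b (fun y => E y j) 0 * G i j o) =
      if a = b then 1 else 0) ∧
    ∀ u (t : ℝ) (k : Fin n), deriv (deriv fun s : ℝ => E (s • u) k) t =
      -∑ i, ∑ j, Gamma G k i j (E (t • u)) * deriv (fun s : ℝ => E (s • u) i) t *
        deriv (fun s : ℝ => E (s • u) j) t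

/-- The volume density. -/
def dens (G : Fin n → Fin n → Space n → ℝ) (x : Space n) : ℝ :=
  Real.sqrt (Matrix.det (Matrix.of fun a b => G a b x))

/-- The volume. -/
def vol (G : Fin n → Fin n → Space n → ℝ) (Ω : Set (Space n)) : ℝ := ∫ x in Ω, dens G x

/-- De Giorgi's perimeter: the supremum of the integrals of the divergence over continuously
differentiable compactly supported fields of length at most one. -/
def per (G : Fin n → Fin n → Space n → ℝ) (Ω : Set (Space n)) : ℝ≥0∞ :=
  ⨆ (Y : Space n → Space n) (_ : ContDiff ℝ 1 Y ∧ HasCompactSupport Y ∧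
      ∀ x, (∑ i, ∑ j, Y x i * Y x j * G i j x) ≤ 1),
    ENNReal.ofReal (∫ x in Ω, divg (fun y => dens G y • Y y) x)

/-- The inequality in dimension `n` with the constant `c` for the Euclidean profile and `c + 1`
for the profile of curvature `κ`. -/
def Ineq (n : ℕ) (c : ℝ) : Prop :=
  ∀ κ : ℝ, κ ≤ 0 → ∀ G : Fin n → Fin n → Space n → ℝ,
    IsMetric G → SecLE G κ → NormalCharts G →
    ∀ Ω : Set (Space n), MeasurableSet Ω → Bornology.IsBounded Ω →
      ENNReal.ofReal (n * ballVol n ^ ((n : ℝ)⁻¹) * vol G Ω ^ (1 - (n : ℝ)⁻¹)) ≤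
          ENNReal.ofReal c * per G Ω ∧
        ∀ r, 0 ≤ r → modelVol n κ r = vol G Ω →
          ENNReal.ofReal (modelArea n κ r) ≤ ENNReal.ofReal (c + 1) * per G Ω

/-- The Euclidean metric. -/
def flat (n : ℕ) : Fin n → Fin n → Space n → ℝ := fun i j _ => if i = j then 1 else 0

end

end Vale.Agent.P219.Coord
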