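import Mathlib
import Vale.Agent.P219.Univ.PerBasics

/-!
# The linear isoperimetric inequality of negative curvature
-/

open MeasureTheory Filter Topology Set Metric
open scoped ENNReal ContDiff

namespace Vale.Agent.P219.Univ

open Vale.Agent.P219

noncomputable section

variable {n : ℕ} {g : MetricField n}

theorem cheeger (hn : 2 ≤ n) (hg : IsMetric g) {b : ℝ} (hb : 0 ≤ b) {o : Space n}
    {ψ : Space n → ℝ} (hψ : Pot g b o ψ) {F : Set (Space n)} (hFm : MeasurableSet F)
    (hFb : Bornology.IsBounded F) (hFP : gPer g F ≠ ⊤) :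
    ((n : ℝ) - 1) * b * gVol g F ≤ (gPer g F).toReal := by
  have hn2 : (2 : ℝ) ≤ n := by exact_mod_cast hn
  set c := ((n : ℝ) - 1) * b with hc
  have hc0 : 0 ≤ c := mul_nonneg (by linarith) hb
  obtain ⟨r, hr, hFr⟩ := hFb.subset_ball_lt 0 (0 : Space n)
  let f : ContDiffBump (0 : Space n) := ⟨r, r + 1, hr, by linarith⟩
  have hd := contDiff_dens hg
  set low : ℝ → Space n → ℝ := fun a x =>
    min c ((c * Real.sqrt (2 * ψ x)) / Real.sqrt (2 * ψ x + a ^ 2) +
      a ^ 2 / Real.sqrt (2 * ψ x + a ^ 2) ^ 3) with hlow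
  have hiF : ∀ {h : Space n → ℝ}, Continuous h → IntegrableOn h F := fun hh =>
    (hh.continuousOn.integrableOn_compact hFb.isCompact_closure).mono_set subset_closure
  have hspos : ∀ a : ℝ, 0 < a → ∀ x, 0 < 2 * ψ x + a ^ 2 := fun a ha x => by
    have := hψ.nonneg x
    positivity
  have hlc : ∀ a : ℝ, 0 < a → Continuous (low a) := fun a ha => by
    have hsc : Continuous fun x => Real.sqrt (2 * ψ x + a ^ 2) :=
      ((continuous_const.mul hψ.smooth.continuous).add continuous_const).sqrt
    exact continuous_const.min (((continuous_const.mul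
      (continuous_const.mul hψ.smooth.continuous).sqrt).div hsc
        fun x => (Real.sqrt_pos.2 (hspos a ha x)).ne').add
      (continuous_const.div (hsc.pow 3) fun x => pow_ne_zero _ (Real.sqrt_pos.2 (hspos a ha x)).ne'))
  have hstep : ∀ a : ℝ, 0 < a → ∫ x in F, low a x * dens g x ≤ (gPer g F).toReal := by
    intro a ha
    set φ : Space n → ℝ := fun x => f x / Real.sqrt (2 * ψ x + a ^ 2)
    have hs : ContDiff ℝ ∞ fun x => Real.sqrt (2 * ψ x + a ^ 2) :=
      ((contDiff_const.mul hψ.smooth).add contDiff_const).sqrt fun x => (hspos a ha x).ne'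
    have hφ : ContDiff ℝ ∞ φ := f.contDiff.div hs fun x => (Real.sqrt_pos.2 (hspos a ha x)).ne'
    set X : Space n → Space n := fun x => φ x • gGrad g ψ x
    have hX : ContDiff ℝ 1 X := (hφ.smul (contDiff_gGrad hg hψ.smooth)).of_le (by simp)
    have hXc : HasCompactSupport X :=
      HasCompactSupport.intro f.hasCompactSupport fun x hx => by
        simp [X, φ, image_eq_zero_of_notMem_tsupport hx]
    have hXn : ∀ x, gNorm g x (X x) ≤ 1 := by
      intro x
      have h0 : 0 < Real.sqrt (2 * ψ x + a ^ 2) := Real.sqrt_pos.2 (hspos a ha x)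
      simp only [X, φ]
      rw [gNorm_smul, abs_of_nonneg (div_nonneg f.nonneg h0.le), div_mul_eq_mul_div,
        div_le_one h0]
      refine (mul_le_of_le_one_left (gNorm_nonneg _ _ _) f.le_one).trans ?_
      rw [← Real.sqrt_sq (gNorm_nonneg g x (gGrad g ψ x))]
      exact Real.sqrt_le_sqrt (by nlinarith [hψ.grad x])
    refine le_trans ?_ ((ENNReal.ofReal_le_iff_le_toReal hFP).1 (le_wPer hX hXc hXn))
    refine setIntegral_mono_on (hiF ((hlc a ha).mul hd.continuous))
      ((integrable_divg (contDiff_weighted hg hX) (hasCompactSupport_weighted hXc)).integrableOn)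
      hFm fun x hx => ?_
    rw [← gDiv_mul_dens hg]
    refine mul_le_mul_of_nonneg_right ?_ (dens_pos hg x).le
    have hev : (f : Space n → ℝ) =ᶠ[𝓝 x] fun _ => 1 := f.eventuallyEq_one_of_mem_ball (hFr hx)
    set s := Real.sqrt (2 * ψ x + a ^ 2) with hs'
    have hs0 : 0 < s := Real.sqrt_pos.2 (hspos a ha x)
    have hh : φ =ᶠ[𝓝 x] fun y => (Real.sqrt (2 * ψ y + a ^ 2))⁻¹ :=
      hev.mono fun y hy => by simp [φ, hy]
    have hdφ : HasFDerivAt φ ((-(s ^ 3)⁻¹) • fderiv ℝ ψ x) x := by
      have h1 := ((((hψ.smooth.differentiable (by simp) x).hasFDerivAt.const_mul 2).add_const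
        (a ^ 2)).sqrt (hspos a ha x).ne')
      have h2 := (hasDerivAt_inv hs0.ne').comp_hasFDerivAt x h1
      refine HasFDerivAt.congr_of_eventuallyEq ?_ hh
      refine h2.congr_fderiv (ContinuousLinearMap.ext fun w => ?_)
      simp only [smul_apply, smul_eq_mul, ← hs']
      field_simp
    show low a x ≤ gDiv g (fun y => φ y • gGrad g ψ y) x
    rw [gDiv_smul hg hdφ.differentiableAt
      ((contDiff_gGrad hg hψ.smooth).differentiable (by simp) x), hdφ.fderiv, hh.self_of_nhds,
      smul_apply, smul_eq_mul]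
    show low a x ≤ s⁻¹ * _ + _
    have hgr : fderiv ℝ ψ x (gGrad g ψ x) ≤ 2 * ψ x := by
      rw [← gGrad_dual hg, ← gNorm_sq hg]
      exact hψ.grad x
    refine (min_le_right _ _).trans ?_
    have hlap := hψ.lap x
    have hs2 : s ^ 2 = 2 * ψ x + a ^ 2 := Real.sq_sqrt (hspos a ha x).le
    have e1 : c * Real.sqrt (2 * ψ x) / s + a ^ 2 / s ^ 3 =
        s⁻¹ * (1 + c * Real.sqrt (2 * ψ x)) + -(s ^ 3)⁻¹ * (2 * ψ x) := by
      rw [show a ^ 2 = s ^ 2 - 2 * ψ x by linarith]
      field_simp
      ring
    rw [e1]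
    refine add_le_add (mul_le_mul_of_nonneg_left hlap (by positivity)) ?_
    exact mul_le_mul_of_nonpos_left hgr (by simp only [neg_nonpos]; positivity)
  have hlim : Tendsto (fun a => ∫ x in F, low a x * dens g x) (𝓝[>] (0 : ℝ))
      (𝓝 (∫ x in F, c * dens g x)) := by
    refine tendsto_integral_filter_of_dominated_convergence (fun x => c * dens g x) ?_ ?_
      ((hiF hd.continuous).const_mul c) (ae_of_all _ fun x => ?_)
    · filter_upwards [self_mem_nhdsWithin] with a ha
      exact ((hlc a ha).mul hd.continuous).aestronglyMeasurable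
    · filter_upwards [self_mem_nhdsWithin] with a (ha : 0 < a)
      refine ae_of_all _ fun x => ?_
      have h0 : 0 ≤ low a x := le_min hc0 (by have := hψ.nonneg x; positivity)
      rw [Real.norm_eq_abs, abs_of_nonneg (mul_nonneg h0 (dens_pos hg x).le)]
      exact mul_le_mul_of_nonneg_right (min_le_left _ _) (dens_pos hg x).le
    · refine Tendsto.mul_const (dens g x) ?_
      rcases eq_or_lt_of_le (hψ.nonneg x) with h | h
      · refine tendsto_const_nhds.congr' ?_
        filter_upwards [self_mem_nhdsWithin, nhdsWithin_le_nhds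
          (Iio_mem_nhds (show 0 < 1 / (c + 1) by positivity))] with a (ha : 0 < a) (hac : a < 1 / (c + 1))
        simp only [hlow, ← h, mul_zero, zero_add, Real.sqrt_zero, zero_div, Real.sqrt_sq ha.le]
        rw [min_eq_left]
        rw [show a ^ 2 / a ^ 3 = 1 / a by field_simp, le_div_iff₀ ha]
        rw [lt_div_iff₀ (by positivity)] at hac
        nlinarith
      · have hs : Real.sqrt (2 * ψ x + (0 : ℝ) ^ 2) ≠ 0 := by
          rw [zero_pow two_ne_zero, add_zero]
          exact (Real.sqrt_pos.2 (by linarith)).ne'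
        have hcont : ContinuousAt (fun a => low a x) 0 := by
          simp only [hlow]
          refine continuousAt_const.min (ContinuousAt.add ?_ ?_)
          · exact continuousAt_const.div (by fun_prop) hs
          · exact (continuousAt_id.pow 2).div (by fun_prop) (pow_ne_zero _ hs)
        have h0 : low 0 x = c := by
          have h2 : Real.sqrt (2 * ψ x) ≠ 0 := (Real.sqrt_pos.2 (by linarith)).ne'
          simp only [hlow]
          rw [zero_pow two_ne_zero, add_zero, zero_div, add_zero, mul_div_assoc, div_self h2, mul_one,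
            min_self]
        have := hcont.tendsto.mono_left (nhdsWithin_le_nhds (s := Ioi (0 : ℝ)))
        rwa [h0] at this
  have h := le_of_tendsto hlim (eventually_nhdsWithin_of_forall fun a ha => hstep a ha)
  rwa [integral_const_mul] at h

end

end Vale.Agent.P219.Univ
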