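import Mathlib
import Vale.Agent.P219.Defs

/-!
# The constant
-/

open MeasureTheory Set

namespace Vale.Agent.P219.Univ

open Vale.Agent.P219

noncomputable section

theorem gamma_lower {s : ℝ} (hs : 0 < s) : s ^ s * Real.exp (-s) ≤ Real.Gamma (s + 1) := by
  rw [Real.Gamma_eq_integral (by linarith)]
  have hi := Real.GammaIntegral_convergent (show 0 < s + 1 by linarith)
  calc s ^ s * Real.exp (-s) = ∫ x in Ioi s, s ^ s * Real.exp (-x) := by
        rw [integral_const_mul, integral_exp_neg_Ioi]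
    _ ≤ ∫ x in Ioi s, Real.exp (-x) * x ^ (s + 1 - 1) := by
        refine setIntegral_mono_on ((integrableOn_exp_neg_Ioi s).const_mul _)
          (hi.mono_set (Ioi_subset_Ioi hs.le)) measurableSet_Ioi fun x hx => ?_
        rw [add_sub_cancel_right, mul_comm]
        exact mul_le_mul_of_nonneg_left (Real.rpow_le_rpow hs.le (le_of_lt hx) hs.le)
          (Real.exp_pos _).le
    _ ≤ _ := by
        refine setIntegral_mono_set hi ?_ (Ioi_subset_Ioi hs.le).eventuallyLE
        filter_upwards [ae_restrict_mem measurableSet_Ioi] with x hx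
        exact mul_nonneg (Real.exp_pos _).le (Real.rpow_nonneg (le_of_lt hx) _)

theorem ballVol_le {n : ℕ} (hn : 0 < n) :
    ballVol n ≤ (Real.sqrt Real.pi * Real.sqrt (2 * Real.exp 1 / n)) ^ n := by
  have : Nonempty (Fin n) := ⟨⟨0, hn⟩⟩
  have hn' : (0 : ℝ) < n := by exact_mod_cast hn
  have h := gamma_lower (s := (n : ℝ) / 2) (by positivity)
  have e : ((n : ℝ) / 2) ^ ((n : ℝ) / 2) * Real.exp (-((n : ℝ) / 2)) =
      ((Real.sqrt (2 * Real.exp 1 / n)) ^ n)⁻¹ := by
    rw [show Real.exp (-((n : ℝ) / 2)) = Real.exp (-1) ^ ((n : ℝ) / 2) by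
      rw [← Real.exp_mul]; congr 1; ring, ← Real.mul_rpow (by positivity) (Real.exp_pos _).le,
      ← inv_pow, ← Real.sqrt_inv, inv_div, Real.sqrt_eq_rpow, ← Real.rpow_natCast,
      ← Real.rpow_mul (by positivity), Real.exp_neg]
    congr 1
    · field_simp
    · ring
  rw [e] at h
  rw [ballVol, EuclideanSpace.volume_ball]
  simp only [ENNReal.ofReal_one, one_pow, one_mul, Fintype.card_fin]
  rw [ENNReal.toReal_ofReal (by positivity), mul_pow, div_eq_mul_inv]
  refine mul_le_mul_of_nonneg_left ?_ (by positivity)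
  exact inv_le_of_inv_le₀ (by positivity) h

theorem const_bound {n : ℕ} (hn : 2 ≤ n) {c k : ℝ} (hc : 0 < c) (hk : 0 < k)
    (h : 20 * Real.exp 1 * ((n : ℝ) * ((n : ℝ) + 1)) ≤ Real.sqrt 2 * c ^ n * k ^ (n - 1)) :
    40 * ((n : ℝ) * ballVol n) / c ^ n ≤
      k ^ (n - 1) * (Real.sqrt 2 * Real.sqrt Real.pi ^ n *
        (Real.sqrt (2 * Real.exp 1 / ((n : ℝ) + 1)) ^ (n + 1) / Real.exp 1)) := by
  have hn' : (0 : ℝ) < n := by exact_mod_cast (show 0 < n by omega)
  set e := Real.exp 1 with he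
  have he0 : 0 < e := Real.exp_pos 1
  set p := Real.sqrt Real.pi with hp
  set q := Real.sqrt (2 * e / n) with hq
  set t := Real.sqrt (2 * e / ((n : ℝ) + 1)) with ht
  have hq0 : 0 < q := Real.sqrt_pos.2 (by positivity)
  have ht0 : 0 < t := Real.sqrt_pos.2 (by positivity)
  have hlow : (2 : ℝ) / ((n : ℝ) + 1) * q ^ n ≤ t ^ (n + 1) := by
    set u := Real.sqrt (((n : ℝ) + 1) / n) with hu
    have hqt : q = t * u := by
      rw [hq, ht, hu, ← Real.sqrt_mul (by positivity)]
      congr 1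
      field_simp
    have hu2 : u ^ n ≤ Real.sqrt e := by
      rw [Real.le_sqrt (by positivity) he0.le, ← pow_mul, mul_comm, pow_mul, hu,
        Real.sq_sqrt (by positivity)]
      have h1 : ((n : ℝ) + 1) / n ≤ Real.exp (1 / n) := by
        rw [add_div, div_self hn'.ne']
        linarith [Real.add_one_le_exp (1 / (n : ℝ))]
      refine (pow_le_pow_left₀ (by positivity) h1 n).trans_eq ?_
      rw [← Real.exp_nat_mul, he]
      congr 1
      field_simp
    have h3 : 2 * Real.sqrt e / ((n : ℝ) + 1) ≤ t := by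
      rw [ht, Real.le_sqrt (by positivity) (by positivity), div_pow, mul_pow, Real.sq_sqrt he0.le,
        div_le_div_iff₀ (by positivity) (by positivity)]
      have hn2 : (2 : ℝ) ≤ n := by exact_mod_cast hn
      nlinarith [mul_le_mul_of_nonneg_left (show (2 : ℝ) ≤ (n : ℝ) + 1 by linarith)
        (mul_nonneg he0.le (show (0 : ℝ) ≤ 2 * ((n : ℝ) + 1) by linarith))]
    calc (2 : ℝ) / ((n : ℝ) + 1) * q ^ n = 2 / ((n : ℝ) + 1) * u ^ n * t ^ n := by
          rw [hqt, mul_pow]; ring
      _ ≤ 2 / ((n : ℝ) + 1) * Real.sqrt e * t ^ n := by gcongr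
      _ ≤ t * t ^ n := by
          refine mul_le_mul_of_nonneg_right (le_trans (le_of_eq (by ring)) h3) (by positivity)
      _ = _ := by ring
  have hb := ballVol_le (show 0 < n by omega)
  rw [← hp, ← hq] at hb
  rw [div_le_iff₀ (by positivity)]
  calc 40 * ((n : ℝ) * ballVol n)
      ≤ 40 * ((n : ℝ) * (p * q) ^ n) := by gcongr
    _ = 20 * e * ((n : ℝ) * ((n : ℝ) + 1)) * (p ^ n / e * (2 / ((n : ℝ) + 1) * q ^ n)) := by
        rw [mul_pow]
        field_simp
        ring
    _ ≤ Real.sqrt 2 * c ^ n * k ^ (n - 1) * (p ^ n / e * t ^ (n + 1)) := by gcongr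
    _ = _ := by ring

end

end Vale.Agent.P219.Univ
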