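import Mathlib
import Vale.Agent.P219.Univ.PerBasics

/-!
# The confinement weight
-/

open MeasureTheory Filter Topology Set
open scoped ENNReal ContDiff

namespace Vale.Agent.P219.Univ

open Vale.Agent.P219

noncomputable section

variable {n : ℕ} {g : MetricField n}

/-- An exhaustion with small logarithmic gradient. -/
def penW (ψ : Space n → ℝ) (η : ℝ) (x : Space n) : ℝ := Real.exp (η * Real.sqrt (1 + 2 * ψ x))

theorem pen_facts (hg : IsMetric g) {b : ℝ} {o : Space n} {ψ : Space n → ℝ} (hψ : Pot g b o ψ)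
    {η : ℝ} (hη : 0 < η) :
    ContDiff ℝ ∞ (penW ψ η) ∧ (∀ x, 1 ≤ penW ψ η x) ∧ (∀ M, IsCompact {x | penW ψ η x ≤ M}) ∧
      ∀ x v, |fderiv ℝ (penW ψ η) x v| ≤ η * penW ψ η x * gNorm g x v := by
  have hpos : ∀ x, 0 < 1 + 2 * ψ x := fun x => by linarith [hψ.nonneg x]
  have hsm : ContDiff ℝ ∞ (penW ψ η) :=
    (contDiff_const.mul ((contDiff_const.add (contDiff_const.mul hψ.smooth)).sqrt
      fun x => (hpos x).ne')).exp
  refine ⟨hsm, fun x => Real.one_le_exp (by positivity), fun M => ?_, fun x v => ?_⟩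
  · refine (hψ.compact (((Real.log (max M 1) / η) ^ 2 - 1) / 2)).of_isClosed_subset
      (isClosed_le hsm.continuous continuous_const) fun x hx => ?_
    have h1 : η * Real.sqrt (1 + 2 * ψ x) ≤ Real.log (max M 1) := by
      rw [Real.le_log_iff_exp_le (lt_max_of_lt_right one_pos)]
      exact le_max_of_le_left hx
    have h2 : Real.sqrt (1 + 2 * ψ x) ≤ Real.log (max M 1) / η :=
      (le_div_iff₀ hη).2 (by linarith)
    have h3 := pow_le_pow_left₀ (Real.sqrt_nonneg _) h2 2
    rw [Real.sq_sqrt (hpos x).le] at h3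
    show ψ x ≤ _
    linarith
  · set s := Real.sqrt (1 + 2 * ψ x) with hs
    have hs0 : 0 < s := Real.sqrt_pos.2 (hpos x)
    have h : HasFDerivAt (penW ψ η) ((penW ψ η x * η / s) • fderiv ℝ ψ x) x := by
      have := ((((hψ.smooth.differentiable (by simp) x).hasFDerivAt.const_mul 2).const_add 1).sqrt
        (hpos x).ne').const_mul η |>.exp
      refine this.congr_fderiv ?_
      refine ContinuousLinearMap.ext fun w => ?_
      simp only [smul_apply, smul_eq_mul, ← hs, penW]
      field_simp
    rw [h.fderiv, smul_apply, smul_eq_mul, ← gGrad_dual hg, abs_mul,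
      abs_of_nonneg (by unfold penW; positivity)]
    have h2 : gNorm g x (gGrad g ψ x) ≤ s := by
      rw [hs, ← Real.sqrt_sq (gNorm_nonneg g x (gGrad g ψ x))]
      exact Real.sqrt_le_sqrt (by linarith [hψ.grad x])
    calc penW ψ η x * η / s * |g x (gGrad g ψ x) v|
        ≤ penW ψ η x * η / s * (s * gNorm g x v) :=
          mul_le_mul_of_nonneg_left ((abs_g_le hg x _ _).trans
            (mul_le_mul_of_nonneg_right h2 (gNorm_nonneg g x v))) (by unfold penW; positivity)
      _ = _ := by field_simp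

end

end Vale.Agent.P219.Univ
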