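import Mathlib
import Vale.Agent.P219.Univ.Algebra
import Vale.Agent.P219.Univ.GaussStd

/-!
# Gaussian relative isoperimetry at a point of intermediate density
-/

open MeasureTheory Filter Topology
open scoped ENNReal ContDiff RealInnerProductSpace

namespace Vale.Agent.P219.Univ

open Vale.Agent.P219

noncomputable section

variable {n : ℕ} {g : MetricField n}

/-- A linear frame orthonormal at a point. -/
lemma exists_frame (hg : IsMetric g) (o : Space n) :
    ∃ L : Space n ≃L[ℝ] Space n, (∀ v, g o (L v) (L v) = ‖v‖ ^ 2) ∧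
      |LinearMap.det (L.toLinearMap : Space n →ₗ[ℝ] Space n)| * dens g o = 1 := by
  set T : Space n →ₗ[ℝ] Space n :=
    ((InnerProductSpace.toDual ℝ (Space n)).symm.toLinearEquiv.toLinearMap).comp (g o).toLinearMap
  have hTg : ∀ v w, ⟪T v, w⟫ = g o v w := fun v w =>
    InnerProductSpace.toDual_symm_apply (x := w) (y := g o v)
  have hT : T.IsSymmetric := fun v w => by
    rw [hTg, hg.symm o v w, ← hTg, real_inner_comm]
  have hn : Module.finrank ℝ (Space n) = n := finrank_euclideanSpace_fin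
  set b := hT.eigenvectorBasis hn
  set l := hT.eigenvalues hn
  have hTb : ∀ i, T (b i) = l i • b i := fun i => hT.apply_eigenvectorBasis hn i
  have hl : ∀ i, 0 < l i := fun i => by
    have h := hTg (b i) (b i)
    rw [hTb, real_inner_smul_left, real_inner_self_eq_norm_sq, b.orthonormal.1 i] at h
    have := hg.pos o (b i) (b.orthonormal.ne_zero i)
    linarith
  let L₀ : Space n →ₗ[ℝ] Space n := b.toBasis.constr ℝ fun i => (Real.sqrt (l i))⁻¹ • b i
  have hL₀b : ∀ i, L₀ (b i) = (Real.sqrt (l i))⁻¹ • b i := fun i => by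
    simpa [L₀] using b.toBasis.constr_basis ℝ (fun i => (Real.sqrt (l i))⁻¹ • b i) i
  have hL₀m : LinearMap.toMatrix b.toBasis b.toBasis L₀ =
      Matrix.diagonal fun i => (Real.sqrt (l i))⁻¹ := by
    ext i j
    rw [LinearMap.toMatrix_apply, OrthonormalBasis.coe_toBasis, hL₀b, map_smul]
    rcases eq_or_ne i j with rfl | hij
    · simp
    · simp [Matrix.diagonal_apply_ne _ hij, EuclideanSpace.single, hij]
  have hdetL : LinearMap.det L₀ = ∏ i, (Real.sqrt (l i))⁻¹ := by
    rw [← LinearMap.det_toMatrix b.toBasis, hL₀m, Matrix.det_diagonal]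
  have hdetL0 : LinearMap.det L₀ ≠ 0 := by
    rw [hdetL]
    exact Finset.prod_ne_zero_iff.2 fun i _ => inv_ne_zero (Real.sqrt_pos.2 (hl i)).ne'
  have hdens : dens g o = ∏ i, Real.sqrt (l i) := by
    have h1 : LinearMap.toMatrix b.toBasis b.toBasis T = Matrix.diagonal l := by
      ext i j
      rw [LinearMap.toMatrix_apply, OrthonormalBasis.coe_toBasis, hTb, map_smul]
      rcases eq_or_ne i j with rfl | hij
      · simp
      · simp [Matrix.diagonal_apply_ne _ hij, EuclideanSpace.single, hij]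
    have h2 : LinearMap.toMatrix (EuclideanSpace.basisFun (Fin n) ℝ).toBasis
        (EuclideanSpace.basisFun (Fin n) ℝ).toBasis T = Matrix.of fun i j : Fin n =>
          g o (EuclideanSpace.single i (1 : ℝ)) (EuclideanSpace.single j (1 : ℝ)) := by
      ext i j
      rw [LinearMap.toMatrix_apply, OrthonormalBasis.coe_toBasis, OrthonormalBasis.coe_toBasis_repr_apply,
        OrthonormalBasis.repr_apply_apply, EuclideanSpace.basisFun_apply, EuclideanSpace.basisFun_apply,
        real_inner_comm, hTg, Matrix.of_apply, hg.symm]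
    rw [dens, ← h2, LinearMap.det_toMatrix, ← LinearMap.det_toMatrix b.toBasis, h1,
      Matrix.det_diagonal, Real.sqrt_prod _ fun i _ => (hl i).le]
  refine ⟨(LinearMap.equivOfDetNeZero L₀ hdetL0).toContinuousLinearEquiv, fun v => ?_, ?_⟩
  · show g o (L₀ v) (L₀ v) = _
    rw [← hTg, ← b.repr.inner_map_map, PiLp.inner_apply, ← b.repr.norm_map v,
      EuclideanSpace.real_norm_sq_eq]
    refine Finset.sum_congr rfl fun i _ => ?_
    have hLi : b.repr (L₀ v) i = (Real.sqrt (l i))⁻¹ * b.repr v i := by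
      conv_lhs => rw [← b.sum_repr v, map_sum, map_sum]
      simp only [map_smul, hL₀b, WithLp.ofLp_sum, Finset.sum_apply, PiLp.smul_apply, smul_eq_mul,
        b.repr_self]
      rw [Finset.sum_eq_single i]
      · simp [mul_comm]
      · intro j _ hj; simp [EuclideanSpace.single, hj.symm]
      · simp
    rw [hT.eigenvectorBasis_apply_self_apply hn (L₀ v) i, hLi]
    simp only [RCLike.inner_apply, conj_trivial, RCLike.ofReal_real_eq_id, id_eq]
    have hs := Real.mul_self_sqrt (hl i).le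
    have hs0 := (Real.sqrt_pos.2 (hl i)).ne'
    field_simp
    nlinarith [hs]
  · show |LinearMap.det L₀| * _ = 1
    rw [hdetL, hdens, abs_of_pos (Finset.prod_pos fun i _ => inv_pos.2 (Real.sqrt_pos.2 (hl i))),
      ← Finset.prod_mul_distrib]
    exact Finset.prod_eq_one fun i _ => inv_mul_cancel₀ (Real.sqrt_pos.2 (hl i)).ne'

/-- Affine coordinates at a point, at scale `δ`. -/
def aff (o : Space n) (L : Space n ≃L[ℝ] Space n) (δ : ℝ) (y : Space n) : Space n := o + δ • L y

lemma gauss_aff {o : Space n} {L : Space n ≃L[ℝ] Space n} (hL : ∀ v, g o (L v) (L v) = ‖v‖ ^ 2)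
    {δ : ℝ} (hδ : 0 < δ) (y : Space n) : gauss g δ o (aff o L δ y) = stdDens y := by
  simp only [gauss, aff, add_sub_cancel_left, map_smul, FunLike.coe_smul, Pi.smul_apply,
    smul_eq_mul, hL, stdDens]
  congr 1
  field_simp

lemma map_aff (o : Space n) (L : Space n ≃L[ℝ] Space n) {δ : ℝ} (hδ : 0 < δ) :
    MeasurableEmbedding (aff o L δ) ∧ Measure.map (aff o L δ) volume =
      ENNReal.ofReal (δ ^ n * |LinearMap.det (L.toLinearMap : Space n →ₗ[ℝ] Space n)|)⁻¹ • volume := by
  set M : Space n →ₗ[ℝ] Space n := δ • (L.toLinearMap : Space n →ₗ[ℝ] Space n) with hM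
  have hdet : LinearMap.det M = δ ^ n * LinearMap.det (L.toLinearMap : Space n →ₗ[ℝ] Space n) := by
    rw [hM, LinearMap.det_smul, finrank_euclideanSpace_fin]
  have hdet0 : LinearMap.det M ≠ 0 := by
    rw [hdet]
    exact mul_ne_zero (pow_ne_zero _ hδ.ne') (LinearEquiv.isUnit_det' L.toLinearEquiv).ne_zero
  set Me := (LinearMap.equivOfDetNeZero M hdet0).toContinuousLinearEquiv
  have he : aff o L δ = (fun x => o + x) ∘ Me := by funext y; rfl
  have e1 : MeasurableEmbedding Me := Me.toHomeomorph.measurableEmbedding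
  refine ⟨he ▸ (measurableEmbedding_addLeft o).comp e1, ?_⟩
  rw [he, ← Measure.map_map (measurable_const_add o) e1.measurable]
  rw [show (Me : Space n → Space n) = M from rfl, Measure.map_linearMap_addHaar_eq_smul_addHaar _ hdet0,
    Measure.map_smul, map_add_left_eq_self, hdet]
  congr 2
  rw [abs_inv, abs_mul, abs_of_pos (pow_pos hδ n)]

lemma setIntegral_aff (o : Space n) (L : Space n ≃L[ℝ] Space n) {δ : ℝ} (hδ : 0 < δ)
    (F : Space n → ℝ) (S : Set (Space n)) :
    ∫ x in S, F x = δ ^ n * |LinearMap.det (L.toLinearMap : Space n →ₗ[ℝ] Space n)| *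
      ∫ y in aff o L δ ⁻¹' S, F (aff o L δ y) := by
  obtain ⟨he, hmap⟩ := map_aff o L hδ
  have hc : 0 < δ ^ n * |LinearMap.det (L.toLinearMap : Space n →ₗ[ℝ] Space n)| :=
    mul_pos (pow_pos hδ n) (abs_pos.2 (LinearEquiv.isUnit_det' L.toLinearEquiv).ne_zero)
  rw [← he.setIntegral_map, hmap, Measure.restrict_smul, integral_smul_measure,
    ENNReal.toReal_ofReal (inv_nonneg.2 hc.le), smul_eq_mul, ← mul_assoc, mul_inv_cancel₀ hc.ne',
    one_mul]

/-- Gaussian integrals in affine coordinates. -/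
lemma setIntegral_gauss (hg : IsMetric g) {o : Space n} {L : Space n ≃L[ℝ] Space n}
    (hL : ∀ v, g o (L v) (L v) = ‖v‖ ^ 2) {δ : ℝ} (hδ : 0 < δ) (S : Set (Space n)) :
    ∫ x in S, gauss g δ o x = δ ^ n * |LinearMap.det (L.toLinearMap : Space n →ₗ[ℝ] Space n)| *
      ∫ y in aff o L δ ⁻¹' S, stdDens y := by
  rw [setIntegral_aff o L hδ]
  simp only [gauss_aff hL hδ]

theorem integrable_gauss (hg : IsMetric g) {δ : ℝ} (hδ : 0 < δ) (o : Space n) :
    Integrable (gauss g δ o) := by
  obtain ⟨L, hL, -⟩ := exists_frame hg o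
  obtain ⟨he, hmap⟩ := map_aff o L hδ
  have h : Integrable (gauss g δ o) (Measure.map (aff o L δ) volume) := by
    rw [he.integrable_map_iff]
    exact integrable_stdDens.congr (ae_of_all _ fun y => (gauss_aff hL hδ y).symm)
  rw [hmap] at h
  refine (integrable_smul_measure ?_ ENNReal.ofReal_ne_top).1 h
  refine ENNReal.ofReal_ne_zero_iff.2 (inv_pos.2 (mul_pos (pow_pos hδ n) ?_))
  exact abs_pos.2 (LinearEquiv.isUnit_det' L.toLinearEquiv).ne_zero

theorem integral_gauss (hg : IsMetric g) {δ : ℝ} (hδ : 0 < δ) (o : Space n) :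
    ∫ x, gauss g δ o x = (Real.sqrt (2 * Real.pi) * δ) ^ n / dens g o := by
  obtain ⟨L, hL, hdet⟩ := exists_frame hg o
  have h := setIntegral_gauss hg hL hδ Set.univ
  rw [Set.preimage_univ, setIntegral_univ, setIntegral_univ, integral_stdDens] at h
  have hd : dens g o ≠ 0 := fun h0 => by simp [h0] at hdet
  rw [h, eq_div_iff hd, mul_pow]
  linear_combination (δ ^ n * Real.sqrt (2 * Real.pi) ^ n) * hdet

lemma divg_eq_trace {Y : Space n → Space n} {x : Space n} (hY : DifferentiableAt ℝ Y x) :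
    divg Y x = LinearMap.trace ℝ (Space n) (fderiv ℝ Y x).toLinearMap := by
  rw [LinearMap.trace_eq_matrix_trace ℝ (EuclideanSpace.basisFun (Fin n) ℝ).toBasis, Matrix.trace]
  refine Finset.sum_congr rfl fun i _ => ?_
  have h : HasFDerivAt (fun y => Y y i) ((EuclideanSpace.proj (𝕜 := ℝ) i).comp (fderiv ℝ Y x)) x :=
    (EuclideanSpace.proj (𝕜 := ℝ) i).hasFDerivAt.comp x hY.hasFDerivAt
  rw [pd, h.fderiv, Matrix.diag_apply, LinearMap.toMatrix_apply]
  simp

lemma divg_conj {Y₀ : Space n → Space n} (hY₀ : ContDiff ℝ 1 Y₀) (o : Space n)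
    (L : Space n ≃L[ℝ] Space n) {δ : ℝ} (hδ : 0 < δ) (x : Space n) :
    divg (fun x => δ • L (Y₀ (δ⁻¹ • L.symm (x - o)))) x = divg Y₀ (δ⁻¹ • L.symm (x - o)) := by
  set a := δ⁻¹ • L.symm (x - o) with ha
  have hA : HasFDerivAt (fun x => δ⁻¹ • L.symm (x - o))
      (δ⁻¹ • (L.symm : Space n →L[ℝ] Space n)) x := by
    have h := ((L.symm : Space n →L[ℝ] Space n).hasFDerivAt.comp x ((hasFDerivAt_id x).sub_const o)).const_smul δ⁻¹
    rw [ContinuousLinearMap.comp_id] at h
    exact h
  have hd := hY₀.differentiable one_ne_zero a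
  have h1 : HasFDerivAt (fun x => δ • L (Y₀ (δ⁻¹ • L.symm (x - o))))
      (δ • ((L : Space n →L[ℝ] Space n).comp ((fderiv ℝ Y₀ a).comp (δ⁻¹ • (L.symm : Space n →L[ℝ] Space n))))) x :=
    ((L : Space n →L[ℝ] Space n).hasFDerivAt.comp x (hd.hasFDerivAt.comp x hA)).const_smul δ
  rw [divg_eq_trace h1.differentiableAt, divg_eq_trace hd, h1.fderiv]
  have e : (δ • ((L : Space n →L[ℝ] Space n).comp ((fderiv ℝ Y₀ a).comp
      (δ⁻¹ • (L.symm : Space n →L[ℝ] Space n))))).toLinearMap =
      L.toLinearEquiv.conj (fderiv ℝ Y₀ a).toLinearMap := by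
    ext v i
    simp [LinearEquiv.conj_apply, smul_smul, mul_inv_cancel₀ hδ.ne']
  rw [e, LinearMap.trace_conj']

/-- The flux field of the semigroup interpolation. -/
theorem gauss_flux (hg : IsMetric g) {E : Set (Space n)} (hE : MeasurableSet E) (o : Space n)
    {δ e : ℝ} (hδ : 0 < δ) (he : 0 < e) :
    ∃ Y : Space n → Space n, ContDiff ℝ 1 Y ∧
      (∀ x, gNorm g o (Y x) ≤ δ * gauss g δ o x) ∧ (∀ x, |divg Y x| ≤ gauss g δ o x) ∧
      (∫ x in E, gauss g δ o x) * (∫ x in Eᶜ, gauss g δ o x) / (∫ x, gauss g δ o x) - e ≤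
        ∫ x in E, divg Y x := by
  obtain ⟨L, hL, hdet⟩ := exists_frame hg o
  set k := δ ^ n * |LinearMap.det (L.toLinearMap : Space n →ₗ[ℝ] Space n)| with hk
  have hk0 : 0 < k := mul_pos (pow_pos hδ n) (abs_pos.2 (LinearEquiv.isUnit_det' L.toLinearEquiv).ne_zero)
  have hEm : MeasurableSet (aff o L δ ⁻¹' E) := (map_aff o L hδ).1.measurable hE
  obtain ⟨Y₀, hY₀, hY₀n, hY₀d, hY₀i⟩ := std_flux hEm (e := e / k) (div_pos he hk0)
  set A : Space n → Space n := fun x => δ⁻¹ • L.symm (x - o) with hA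
  have hAaff : ∀ y, A (aff o L δ y) = y := fun y => by
    simp only [hA, aff, add_sub_cancel_left, map_smul, L.symm_apply_apply, smul_smul,
      inv_mul_cancel₀ hδ.ne', one_smul]
  have haffA : ∀ x, aff o L δ (A x) = x := fun x => by
    simp only [hA, aff, map_smul, L.apply_symm_apply, smul_smul, mul_inv_cancel₀ hδ.ne', one_smul]
    exact add_sub_cancel o x
  set Y : Space n → Space n := fun x => δ • L (Y₀ (A x)) with hY
  have hdiv : ∀ x, divg Y x = divg Y₀ (A x) := fun x => divg_conj hY₀ o L hδ x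
  have hA1 : ContDiff ℝ 1 A := (L.symm.contDiff.comp (contDiff_id.sub contDiff_const)).const_smul δ⁻¹
  have hY1 : ContDiff ℝ 1 Y := (L.contDiff.comp (hY₀.comp hA1)).const_smul δ
  refine ⟨Y, hY1, fun x => ?_, fun x => ?_, ?_⟩
  · have h1 : gNorm g o (Y x) = δ * ‖Y₀ (A x)‖ := by
      simp only [gNorm, hY, map_smul, FunLike.coe_smul, Pi.smul_apply, smul_eq_mul, hL]
      rw [show δ * (δ * ‖Y₀ (A x)‖ ^ 2) = (δ * ‖Y₀ (A x)‖) ^ 2 by ring,
        Real.sqrt_sq (mul_nonneg hδ.le (norm_nonneg _))]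
    rw [h1]
    refine mul_le_mul_of_nonneg_left ((hY₀n _).trans (le_of_eq ?_)) hδ.le
    rw [← gauss_aff hL hδ, haffA]
  · rw [hdiv]
    refine (hY₀d _).trans (le_of_eq ?_)
    rw [← gauss_aff hL hδ, haffA]
  · have hZ := setIntegral_gauss hg hL hδ (Set.univ : Set (Space n))
    rw [Set.preimage_univ, setIntegral_univ, setIntegral_univ] at hZ
    rw [setIntegral_gauss hg hL hδ E, setIntegral_gauss hg hL hδ Eᶜ, hZ, setIntegral_aff o L hδ (divg Y),
      Set.preimage_compl]
    simp only [hdiv, hAaff]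
    rw [← hk]
    calc _ = k * ((∫ y in aff o L δ ⁻¹' E, stdDens y) * (∫ y in (aff o L δ ⁻¹' E)ᶜ, stdDens y) /
          (∫ y : Space n, stdDens y) - e / k) := by field_simp
      _ ≤ _ := mul_le_mul_of_nonneg_left hY₀i hk0.le

lemma continuous_setIntegral_gauss (hg : IsMetric g) {δ : ℝ} (hδ : 0 < δ) (S : Set (Space n)) :
    Continuous fun o => ∫ x in S, gauss g δ o x := by
  refine continuous_iff_continuousAt.2 fun o₀ => ?_
  -- a uniform lower bound for the quadratic forms near the point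
  have hK : IsCompact (Metric.closedBall o₀ 1 ×ˢ Metric.sphere (0 : Space n) 1) :=
    (isCompact_closedBall _ _).prod (isCompact_sphere _ _)
  have hgc := hg.smooth.continuous
  have hq : Continuous fun p : Space n × Space n => g p.1 p.2 p.2 :=
    ((hgc.comp continuous_fst).clm_apply continuous_snd).clm_apply continuous_snd
  obtain ⟨m, hm0, hm⟩ : ∃ m > (0 : ℝ), ∀ o ∈ Metric.closedBall o₀ 1, ∀ v, m * ‖v‖ ^ 2 ≤ g o v v := by
    have hpos : ∀ p ∈ Metric.closedBall o₀ 1 ×ˢ Metric.sphere (0 : Space n) 1, (0 : ℝ) < g p.1 p.2 p.2 :=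
      fun p hp => hg.pos _ _ fun h0 => by simp [h0] at hp
    obtain ⟨m, hm0, hm⟩ : ∃ m > (0 : ℝ),
        ∀ p ∈ Metric.closedBall o₀ 1 ×ˢ Metric.sphere (0 : Space n) 1, m ≤ g p.1 p.2 p.2 := by
      rcases (Metric.closedBall o₀ 1 ×ˢ Metric.sphere (0 : Space n) 1).eq_empty_or_nonempty with h | h
      · exact ⟨1, one_pos, by simp [h]⟩
      · obtain ⟨p, hp, hmin⟩ := hK.exists_isMinOn h hq.continuousOn
        exact ⟨_, hpos p hp, fun q hq => hmin hq⟩
    refine ⟨m, hm0, fun o ho v => ?_⟩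
    rcases eq_or_ne v 0 with rfl | hv
    · simp
    have hv0 : 0 < ‖v‖ := norm_pos_iff.2 hv
    have h := hm (o, ‖v‖⁻¹ • v) ⟨ho, by simp [norm_smul, hv0.ne']⟩
    simp only [map_smul, FunLike.coe_smul, Pi.smul_apply, smul_eq_mul] at h
    calc m * ‖v‖ ^ 2 ≤ ‖v‖⁻¹ * (‖v‖⁻¹ * g o v v) * ‖v‖ ^ 2 :=
          mul_le_mul_of_nonneg_right h (sq_nonneg _)
      _ = _ := by field_simp
  have hbound : ∀ o ∈ Metric.closedBall o₀ 1, ∀ x, gauss g δ o x ≤
      Real.exp (m / (2 * δ ^ 2)) * Real.exp (-(m / (4 * δ ^ 2)) * ‖x - o₀‖ ^ 2) := by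
    intro o ho x
    rw [← Real.exp_add, gauss, Real.exp_le_exp]
    have h1 := hm o ho (x - o)
    have h2 : ‖x - o₀‖ ^ 2 ≤ 2 * ‖x - o‖ ^ 2 + 2 := by
      have := norm_sub_le_norm_sub_add_norm_sub x o o₀
      have := mem_closedBall_iff_norm.1 ho
      nlinarith [norm_nonneg (x - o), norm_nonneg (o - o₀), norm_nonneg (x - o₀), sq_nonneg (‖x - o‖ - 1)]
    have h3 : m * ‖x - o₀‖ ^ 2 / 2 - m ≤ g o (x - o) (x - o) := by
      nlinarith [mul_le_mul_of_nonneg_left h2 hm0.le]
    have h4 : (m * ‖x - o₀‖ ^ 2 / 2 - m) / (2 * δ ^ 2) ≤ g o (x - o) (x - o) / (2 * δ ^ 2) :=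
      div_le_div_of_nonneg_right h3 (by positivity)
    have e : (m * ‖x - o₀‖ ^ 2 / 2 - m) / (2 * δ ^ 2) =
        -(m / (2 * δ ^ 2) + -(m / (4 * δ ^ 2)) * ‖x - o₀‖ ^ 2) := by field_simp; ring
    rw [neg_div]
    linarith
  have hint : Integrable fun x : Space n =>
      Real.exp (m / (2 * δ ^ 2)) * Real.exp (-(m / (4 * δ ^ 2)) * ‖x - o₀‖ ^ 2) := by
    have hb : 0 < m / (4 * δ ^ 2) := by positivity
    have hi := (GaussianFourier.integrable_cexp_neg_mul_sq_norm_add
      (V := Space n) (show 0 < ((m / (4 * δ ^ 2) : ℝ) : ℂ).re by rwa [Complex.ofReal_re]) 0 0).re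
    have hi' : Integrable fun x : Space n => Real.exp (-(m / (4 * δ ^ 2)) * ‖x‖ ^ 2) := by
      generalize m / (4 * δ ^ 2) = b at hi ⊢
      refine hi.congr (ae_of_all _ fun z => ?_)
      simp [Complex.exp_re, ← Complex.ofReal_pow]
    exact (hi'.comp_sub_right o₀).const_mul _
  refine continuousAt_of_dominated (bound := fun x : Space n =>
    Real.exp (m / (2 * δ ^ 2)) * Real.exp (-(m / (4 * δ ^ 2)) * ‖x - o₀‖ ^ 2))
    (Eventually.of_forall fun o => (integrable_gauss hg hδ o).aestronglyMeasurable.restrict)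
    ?_ hint.restrict (ae_of_all _ fun x => ?_)
  · filter_upwards [Metric.closedBall_mem_nhds o₀ one_pos] with o ho
    exact ae_of_all _ fun x => by
      rw [gauss, Real.norm_of_nonneg (Real.exp_pos _).le]; exact hbound o ho x
  · exact (Real.continuous_exp.comp ((((hgc.clm_apply (continuous_const.sub continuous_id)).clm_apply
      (continuous_const.sub continuous_id)).neg).div_const _)).continuousAt

/-- At a point of density zero the Gaussian proportion tends to zero. -/
lemma tendsto_fraction (hg : IsMetric g) {S : Set (Space n)} (hS : MeasurableSet S) {o : Space n}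
    (ho : Tendsto (fun r => volume (S ∩ Metric.closedBall o r) / volume (Metric.closedBall o r))
      (𝓝[>] 0) (𝓝 0)) :
    Tendsto (fun δ => (∫ x in S, gauss g δ o x) / ∫ x, gauss g δ o x) (𝓝[>] 0) (𝓝 0) := by
  obtain ⟨L, hL, hdet⟩ := exists_frame hg o
  set Z := ∫ y : Space n, stdDens y with hZ
  have hZ0 : 0 < Z := by rw [hZ, integral_stdDens]; positivity
  set d := |LinearMap.det (L.toLinearMap : Space n →ₗ[ℝ] Space n)|
  have hd0 : 0 < d := abs_pos.2 (LinearEquiv.isUnit_det' L.toLinearEquiv).ne_zero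
  have hfrac : ∀ δ, 0 < δ → (∫ x in S, gauss g δ o x) / ∫ x, gauss g δ o x =
      (∫ y in aff o L δ ⁻¹' S, stdDens y) / Z := fun δ hδ => by
    have hU := setIntegral_gauss hg hL hδ (Set.univ : Set (Space n))
    rw [Set.preimage_univ, setIntegral_univ, setIntegral_univ] at hU
    rw [setIntegral_gauss hg hL hδ S, hU, mul_div_mul_left]
    exact (mul_pos (pow_pos hδ n) hd0).ne'
  rw [Metric.tendsto_nhds]
  intro ε hε
  -- the tail
  obtain ⟨R, hR⟩ : ∃ R : ℕ, ∫ y in (Metric.closedBall (0 : Space n) R)ᶜ, stdDens y < ε * Z / 2 := by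
    have h := tendsto_setIntegral_of_antitone (μ := volume) (f := stdDens)
      (s := fun R : ℕ => (Metric.closedBall (0 : Space n) R)ᶜ)
      (fun R => Metric.isClosed_closedBall.measurableSet.compl)
      (fun a b hab => Set.compl_subset_compl.2 (Metric.closedBall_subset_closedBall (Nat.cast_le.2 hab)))
      ⟨0, integrable_stdDens.integrableOn⟩
    have he : ⋂ R : ℕ, (Metric.closedBall (0 : Space n) R)ᶜ = ∅ := by
      refine Set.eq_empty_of_forall_notMem fun y hy => ?_
      exact Set.mem_iInter.1 hy ⌈‖y‖⌉₊ (mem_closedBall_zero_iff.2 (Nat.le_ceil _))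
    rw [he, setIntegral_empty] at h
    exact (h.eventually (eventually_lt_nhds (by positivity))).exists
  -- the ball
  set c := ‖(L : Space n →L[ℝ] Space n)‖ * R + 1 with hc
  have hc0 : 0 < c := by positivity
  have hscale : Tendsto (fun δ : ℝ => δ * c) (𝓝[>] 0) (𝓝[>] 0) := by
    refine tendsto_nhdsWithin_of_tendsto_nhds_of_eventually_within _ ?_
      (eventually_nhdsWithin_of_forall fun δ (hδ : (0 : ℝ) < δ) => mul_pos hδ hc0)
    simpa using (tendsto_id.mul_const c).mono_left (nhdsWithin_le_nhds (a := (0 : ℝ)))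
  set w := (volume (Metric.closedBall (0 : Space n) 1)).toReal
  have hlim : Tendsto (fun δ => c ^ n * w / d *
      (volume (S ∩ Metric.closedBall o (δ * c)) / volume (Metric.closedBall o (δ * c))).toReal)
      (𝓝[>] 0) (𝓝 0) := by
    simpa using (((ENNReal.tendsto_toReal ENNReal.zero_ne_top).comp (ho.comp hscale)).const_mul
      (c ^ n * w / d))
  filter_upwards [hlim.eventually (eventually_lt_nhds (show (0 : ℝ) < ε * Z / 2 by positivity)),
    self_mem_nhdsWithin] with δ h1 (hδ : 0 < δ)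
  rw [Real.dist_0_eq_abs, hfrac δ hδ,
    abs_of_nonneg (div_nonneg (integral_nonneg fun y => (stdDens_pos y).le) hZ0.le), div_lt_iff₀ hZ0]
  set P := aff o L δ ⁻¹' S
  have hP : MeasurableSet P := (map_aff o L hδ).1.measurable hS
  have hBm : MeasurableSet (Metric.closedBall (0 : Space n) R) := Metric.isClosed_closedBall.measurableSet
  have hsplit := integral_inter_add_sdiff (μ := volume) (s := P) hBm integrable_stdDens.integrableOn
  have hin : ∫ y in P ∩ Metric.closedBall 0 R, stdDens y ≤ c ^ n * w / d *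
      (volume (S ∩ Metric.closedBall o (δ * c)) / volume (Metric.closedBall o (δ * c))).toReal := by
    have hfin : volume (P ∩ Metric.closedBall 0 R) < ⊤ :=
      (measure_mono Set.inter_subset_right).trans_lt measure_closedBall_lt_top
    have h2 : ∫ y in P ∩ Metric.closedBall 0 R, stdDens y ≤ (volume (P ∩ Metric.closedBall 0 R)).toReal := by
      calc _ ≤ ∫ y in P ∩ Metric.closedBall 0 R, (1 : ℝ) := by
            refine setIntegral_mono_on integrable_stdDens.integrableOn (integrableOn_const hfin.ne)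
              (hP.inter hBm) fun y _ => ?_
            unfold stdDens
            exact Real.exp_le_one_iff.2 (by nlinarith [sq_nonneg ‖y‖])
        _ = _ := by simp [Measure.real]
    refine h2.trans ?_
    have hsub : P ∩ Metric.closedBall 0 R ⊆ aff o L δ ⁻¹' (S ∩ Metric.closedBall o (δ * c)) := by
      rintro y ⟨hy, hyR⟩
      refine ⟨hy, ?_⟩
      rw [mem_closedBall_iff_norm, aff, add_sub_cancel_left, norm_smul, Real.norm_of_nonneg hδ.le]
      refine mul_le_mul_of_nonneg_left ?_ hδ.le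
      rw [hc]
      have := ((L : Space n →L[ℝ] Space n).le_opNorm y).trans
        (mul_le_mul_of_nonneg_left (mem_closedBall_zero_iff.1 hyR) (norm_nonneg _))
      simp only [ContinuousLinearEquiv.coe_coe] at this ⊢
      linarith
    have hSB : MeasurableSet (S ∩ Metric.closedBall o (δ * c)) :=
      hS.inter Metric.isClosed_closedBall.measurableSet
    obtain ⟨he, hmap⟩ := map_aff o L hδ
    have hvol : volume (aff o L δ ⁻¹' (S ∩ Metric.closedBall o (δ * c))) =
        ENNReal.ofReal (δ ^ n * d)⁻¹ * volume (S ∩ Metric.closedBall o (δ * c)) := by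
      rw [← he.map_apply, hmap, Measure.smul_apply, smul_eq_mul]
    have htop : volume (S ∩ Metric.closedBall o (δ * c)) ≠ ⊤ :=
      ((measure_mono Set.inter_subset_right).trans_lt measure_closedBall_lt_top).ne
    refine le_trans (ENNReal.toReal_mono (by rw [hvol]; exact ENNReal.mul_ne_top ENNReal.ofReal_ne_top htop)
      (measure_mono hsub)) (le_of_eq ?_)
    have hball : (volume (Metric.closedBall o (δ * c))).toReal = (δ * c) ^ n * w := by
      rw [Measure.addHaar_closedBall' volume o (by positivity), finrank_euclideanSpace_fin,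
        ENNReal.toReal_mul, ENNReal.toReal_ofReal (by positivity)]
    have hw : 0 < w := ENNReal.toReal_pos (Metric.measure_closedBall_pos volume _ one_pos).ne'
      measure_closedBall_lt_top.ne
    rw [hvol, ENNReal.toReal_mul, ENNReal.toReal_ofReal (by positivity), ENNReal.toReal_div, hball, mul_pow]
    field_simp
  have hout : ∫ y in P \ Metric.closedBall 0 R, stdDens y ≤
      ∫ y in (Metric.closedBall (0 : Space n) R)ᶜ, stdDens y :=
    setIntegral_mono_set integrable_stdDens.integrableOn (ae_of_all _ fun y => (stdDens_pos y).le)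
      (LE.le.eventuallyLE fun y hy => hy.2)
  linarith

/-- Some point of a fixed compact set sees both the set and its complement. -/
theorem half_point (hg : IsMetric g) {E : Set (Space n)} (hE : MeasurableSet E)
    (h1 : volume E ≠ 0) (h2 : volume Eᶜ ≠ 0) :
    ∃ K : Set (Space n), IsCompact K ∧ ∀ᶠ δ in 𝓝[>] (0 : ℝ), ∃ o ∈ K,
      3 / 16 * ∫ x, gauss g δ o x ≤
        (∫ x in E, gauss g δ o x) * (∫ x in Eᶜ, gauss g δ o x) / ∫ x, gauss g δ o x := by
  -- density points
  have hae := Besicovitch.ae_tendsto_measure_inter_div_of_measurableSet (volume : Measure (Space n)) hE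
  have haec := Besicovitch.ae_tendsto_measure_inter_div_of_measurableSet (volume : Measure (Space n)) hE.compl
  obtain ⟨o₁, ho₁, ho₁E⟩ : ∃ o, Tendsto (fun r => volume (Eᶜ ∩ Metric.closedBall o r) /
      volume (Metric.closedBall o r)) (𝓝[>] 0) (𝓝 0) ∧ o ∈ E := by
    by_contra hno
    push Not at hno
    refine h1 (measure_mono_null (fun x hx => ?_) (ae_iff.1 haec))
    intro hgood
    exact hno x (by simpa [Set.indicator_of_notMem (show x ∉ Eᶜ from fun h => h hx)] using hgood) hx
  obtain ⟨o₀, ho₀, -⟩ : ∃ o, Tendsto (fun r => volume (E ∩ Metric.closedBall o r) /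
      volume (Metric.closedBall o r)) (𝓝[>] 0) (𝓝 0) ∧ o ∉ E := by
    by_contra hno
    push Not at hno
    refine h2 (measure_mono_null (fun x hx => ?_) (ae_iff.1 hae))
    intro hgood
    exact hx (hno x (by simpa [Set.indicator_of_notMem hx] using hgood))
  let seg : ℝ → Space n := fun s => o₀ + s • (o₁ - o₀)
  have hseg : Continuous seg := by fun_prop
  refine ⟨seg '' Set.Icc 0 1, isCompact_Icc.image hseg, ?_⟩
  filter_upwards [(tendsto_fraction hg hE ho₀).eventually (eventually_le_nhds (show (0 : ℝ) < 1 / 4 by norm_num)),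
    (tendsto_fraction hg hE.compl ho₁).eventually (eventually_le_nhds (show (0 : ℝ) < 1 / 4 by norm_num)),
    self_mem_nhdsWithin] with δ h0δ h1δ (hδ : 0 < δ)
  set a : Space n → ℝ := fun o => ∫ x in E, gauss g δ o x
  set Z : Space n → ℝ := fun o => ∫ x, gauss g δ o x
  have hZ : ∀ o, 0 < Z o := fun o => by
    simp only [Z]
    rw [integral_gauss hg hδ o]
    exact div_pos (by positivity) (dens_pos hg o)
  have hsum : ∀ o, a o + ∫ x in Eᶜ, gauss g δ o x = Z o := fun o =>
    integral_add_compl hE (integrable_gauss hg hδ o)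
  have hZc : Continuous Z := by
    simpa [Z] using continuous_setIntegral_gauss hg hδ (Set.univ : Set (Space n))
  have hfc : Continuous fun s => a (seg s) / Z (seg s) :=
    ((continuous_setIntegral_gauss hg hδ E).comp hseg).div₀ (hZc.comp hseg) fun s => (hZ _).ne'
  have e0 : a (seg 0) / Z (seg 0) ≤ 1 / 2 := by
    simp only [seg, zero_smul, add_zero]; exact h0δ.trans (by norm_num)
  have e1 : 1 / 2 ≤ a (seg 1) / Z (seg 1) := by
    simp only [seg, one_smul, add_sub_cancel]
    change (∫ x in Eᶜ, gauss g δ o₁ x) / Z o₁ ≤ 1 / 4 at h1δ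
    rw [div_le_iff₀ (hZ o₁)] at h1δ
    rw [le_div_iff₀ (hZ o₁)]
    linarith [hsum o₁, hZ o₁]
  obtain ⟨s, hs, hval⟩ := intermediate_value_Icc zero_le_one hfc.continuousOn ⟨e0, e1⟩
  refine ⟨seg s, ⟨s, hs, rfl⟩, ?_⟩
  show 3 / 16 * Z (seg s) ≤ a (seg s) * (∫ x in Eᶜ, gauss g δ (seg s) x) / Z (seg s)
  simp only at hval
  rw [div_eq_iff (hZ _).ne'] at hval
  have := hsum (seg s)
  rw [show (∫ x in Eᶜ, gauss g δ (seg s) x) = Z (seg s) / 2 by linarith, hval, le_div_iff₀ (hZ _)]
  nlinarith [hZ (seg s)]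

end

end Vale.Agent.P219.Univ
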