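import Mathlib
import Vale.Agent.P219.Univ.PerBasics

/-!
# Uniform comparison with the frozen metric and a first bound on potentials
-/

open MeasureTheory Filter Topology Set Metric
open scoped ENNReal ContDiff

namespace Vale.Agent.P219.Univ

open Vale.Agent.P219

noncomputable section

variable {n : ℕ} {g : MetricField n}

theorem continuous_quad (hg : IsMetric g) :
    Continuous fun p : Space n × Space n => g p.1 p.2 p.2 :=
  ((hg.smooth.continuous.comp continuous_fst).clm_apply continuous_snd).clm_apply continuous_snd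

/-- Near a compact set the metric and its density are almost frozen. -/
theorem near_bounds (hn : 0 < n) (hg : IsMetric g) {K : Set (Space n)} (hK : IsCompact K)
    (hKn : K.Nonempty) {τ : ℝ} (hτ : 0 < τ) :
    ∃ m, 0 < m ∧ (∀ o ∈ K, ∀ v, m * ‖v‖ ^ 2 ≤ g o v v) ∧
      ∃ ρ, 0 < ρ ∧ ∀ o ∈ K, ∀ x, ‖x - o‖ ≤ ρ →
        (∀ v, g x v v ≤ (1 + τ) * g o v v) ∧ dens g o ≤ (1 + τ) * dens g x := by
  have : Nonempty (Fin n) := ⟨⟨0, hn⟩⟩
  have hSn : (sphere (0 : Space n) 1).Nonempty := NormedSpace.sphere_nonempty.2 zero_le_one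
  have hq := continuous_quad hg
  obtain ⟨p, hp, hpmin⟩ := (hK.prod (isCompact_sphere (0 : Space n) 1)).exists_isMinOn
    (hKn.prod hSn) hq.continuousOn
  set m := g p.1 p.2 p.2 with hm
  have hm0 : 0 < m := by
    refine hg.pos _ _ fun h => ?_
    have := hp.2
    rw [h] at this
    simp at this
  have homog : ∀ v : Space n, v ≠ 0 → ∃ u ∈ sphere (0 : Space n) 1,
      ∀ x, g x v v = ‖v‖ ^ 2 * g x u u := by
    intro v hv
    refine ⟨‖v‖⁻¹ • v, by simp [norm_smul, hv], fun x => ?_⟩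
    simp only [map_smul, smul_apply, smul_eq_mul]
    field_simp
  have hlow : ∀ o ∈ K, ∀ v, m * ‖v‖ ^ 2 ≤ g o v v := by
    intro o ho v
    rcases eq_or_ne v 0 with rfl | hv
    · simp
    obtain ⟨u, hu, e⟩ := homog v hv
    rw [e o, mul_comm]
    exact mul_le_mul_of_nonneg_left (hpmin (show (o, u) ∈ K ×ˢ _ from ⟨ho, hu⟩)) (sq_nonneg _)
  refine ⟨m, hm0, hlow, ?_⟩
  set T := cthickening 1 K
  have hT : IsCompact T := hK.cthickening
  have hKT : K ⊆ T := self_subset_cthickening K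
  have hu := (hT.prod (isCompact_sphere (0 : Space n) 1)).uniformContinuousOn_of_continuous
    hq.continuousOn
  obtain ⟨η, hη, hη'⟩ := Metric.uniformContinuousOn_iff.1 hu (τ * m) (by positivity)
  obtain ⟨o1, ho1, hdmin⟩ := hT.exists_isMinOn (hKn.mono hKT) (contDiff_dens hg).continuous.continuousOn
  obtain ⟨η2, hη2, hη2'⟩ := Metric.uniformContinuousOn_iff.1
    (hT.uniformContinuousOn_of_continuous (contDiff_dens hg).continuous.continuousOn)
    (τ * dens g o1) (mul_pos hτ (dens_pos hg o1))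
  refine ⟨min 1 (min η η2 / 2), by positivity, fun o ho x hx => ⟨fun v => ?_, ?_⟩⟩
  all_goals
    have hx1 : ‖x - o‖ ≤ 1 := hx.trans (min_le_left _ _)
    have hx2 : ‖x - o‖ ≤ min η η2 / 2 := hx.trans (min_le_right _ _)
    have hxT : x ∈ T := mem_cthickening_of_dist_le x o 1 K ho (by rwa [dist_eq_norm])
  · rcases eq_or_ne v 0 with rfl | hv
    · simp
    obtain ⟨u, hu', e⟩ := homog v hv
    have hd : dist ((x, u) : Space n × Space n) (o, u) < η := by
      rw [Prod.dist_eq, dist_self, max_eq_left dist_nonneg, dist_eq_norm]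
      linarith [min_le_left η η2]
    have h1 := hη' (x, u) ⟨hxT, hu'⟩ (o, u) ⟨hKT ho, hu'⟩ hd
    rw [Real.dist_eq] at h1
    have h2 : m ≤ g o u u := hpmin (show (o, u) ∈ K ×ˢ _ from ⟨ho, hu'⟩)
    rw [e x, e o]
    nlinarith [abs_lt.1 h1, sq_nonneg ‖v‖, mul_le_mul_of_nonneg_left h2 hτ.le]
  · have hd : dist x o < η2 := by
      rw [dist_eq_norm]
      linarith [min_le_right η η2]
    have h1 := hη2' x hxT o (hKT ho) hd
    rw [Real.dist_eq] at h1
    have h2 : dens g o1 ≤ dens g x := hdmin hxT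
    nlinarith [abs_lt.1 h1, mul_le_mul_of_nonneg_left h2 hτ.le]

/-- A potential is at most half the squared length of a segment. -/
theorem pot_le {b : ℝ} (hg : IsMetric g) {o : Space n} {ψ : Space n → ℝ} (hψ : Pot g b o ψ)
    {x : Space n} {B : ℝ}
    (hB : ∀ t ∈ Icc (0 : ℝ) 1, g (o + t • (x - o)) (x - o) (x - o) ≤ B) :
    2 * ψ x ≤ B := by
  set v := x - o
  have hB0 : 0 ≤ B := (g_nonneg hg _ v).trans (hB 0 (left_mem_Icc.2 zero_le_one))
  suffices hs : Real.sqrt (2 * ψ x) ≤ Real.sqrt B from (Real.sqrt_le_sqrt_iff hB0).1 hs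
  refine le_of_forall_pos_le_add fun δ hδ => ?_
  set e := δ ^ 2 with hedef
  have he : 0 < e := by positivity
  set f : ℝ → ℝ := fun t => Real.sqrt (2 * ψ (o + t • v) + e) with hf
  have hd : ∀ t, HasDerivAt f
      (2 * fderiv ℝ ψ (o + t • v) v / (2 * Real.sqrt (2 * ψ (o + t • v) + e))) t := by
    intro t
    have h1 : HasDerivAt (fun s : ℝ => o + s • v) v t := by
      simpa using ((hasDerivAt_id t).smul_const v).const_add o
    have h2 := ((hψ.smooth.differentiable (by simp) _).hasFDerivAt.comp_hasDerivAt t h1)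
    exact ((h2.const_mul 2).add_const e).sqrt
      (add_pos_of_nonneg_of_pos (mul_nonneg zero_le_two (hψ.nonneg _)) he).ne'
  have hbd : ∀ t ∈ Ico (0 : ℝ) 1,
      ‖2 * fderiv ℝ ψ (o + t • v) v / (2 * Real.sqrt (2 * ψ (o + t • v) + e))‖ ≤ Real.sqrt B := by
    intro t ht
    set y := o + t • v
    have hpos : 0 < Real.sqrt (2 * ψ y + e) := Real.sqrt_pos.2 (by linarith [hψ.nonneg y])
    rw [mul_div_mul_left _ _ two_ne_zero, Real.norm_eq_abs, abs_div, abs_of_pos hpos,
      div_le_iff₀ hpos, mul_comm, ← gGrad_dual hg]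
    refine (abs_g_le hg y _ _).trans (mul_le_mul ?_ (Real.sqrt_le_sqrt (hB t ⟨ht.1, ht.2.le⟩))
      (gNorm_nonneg g y v) hpos.le)
    rw [← Real.sqrt_sq (gNorm_nonneg g y (gGrad g ψ y))]
    exact Real.sqrt_le_sqrt (by linarith [hψ.grad y])
  have h := norm_image_sub_le_of_norm_deriv_le_segment_01'
    (fun t _ => (hd t).hasDerivWithinAt) hbd
  simp only [hf, one_smul, zero_smul, add_zero, hψ.zero, mul_zero, zero_add, v, add_sub_cancel,
    Real.norm_eq_abs] at h
  have h3 : Real.sqrt (2 * ψ x + e) ≤ Real.sqrt e + Real.sqrt B := by linarith [(abs_le.1 h).2]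
  rw [show Real.sqrt e = δ from Real.sqrt_sq hδ.le] at h3
  linarith [Real.sqrt_le_sqrt (show 2 * ψ x ≤ 2 * ψ x + e by linarith)]

end

end Vale.Agent.P219.Univ
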