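import Mathlib
import Vale.Agent.P219.Univ.Algebra
import Vale.Agent.P219.Univ.Exist.Compact

/-!
# Existence of minimizers
-/

open MeasureTheory Filter Topology Metric
open scoped ENNReal ContDiff RealInnerProductSpace

namespace Vale.Agent.P219.Univ

open Vale.Agent.P219

noncomputable section

variable {n : ℕ} {g : MetricField n}

/-- Admissible sets for the penalised problem. -/
def Admissible (g : MetricField n) (P : Space n → ℝ) (E : Set (Space n)) : Prop :=
  MeasurableSet E ∧ IntegrableOn (fun x => P x * dens g x) E ∧ gPer g E ≠ ⊤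

/-- Perimeter plus confinement minus a power of the volume. -/
def energy (g : MetricField n) (P : Space n → ℝ) (ε C a : ℝ) (E : Set (Space n)) : ℝ :=
  (gPer g E).toReal + ε * gInt g E P - C * gVol g E ^ a

namespace Exist

lemma gNorm_smul (g : MetricField n) (x v : Space n) (c : ℝ) :
    gNorm g x (c • v) = |c| * gNorm g x v := by
  rw [gNorm, gNorm]
  simp only [map_smul, smul_apply, smul_eq_mul]
  rw [← mul_assoc, Real.sqrt_mul (mul_self_nonneg c), Real.sqrt_mul_self_eq_abs]

lemma gNorm_le (g : MetricField n) (x v : Space n) :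
    gNorm g x v ≤ Real.sqrt ‖g x‖ * ‖v‖ := by
  rw [gNorm]
  refine Real.sqrt_le_iff.2 ⟨by positivity, ?_⟩
  rw [mul_pow, Real.sq_sqrt (norm_nonneg (g x)), sq, ← mul_assoc]
  exact (le_abs_self _).trans ((g x).le_opNorm₂ v v)

lemma test_le {w : Space n → ℝ} {E : Set (Space n)} {B : ℝ} (hB : 0 ≤ B)
    (h : wPer g w E ≤ ENNReal.ofReal B) {Y : Space n → Space n} (hY : ContDiff ℝ 1 Y)
    (hYc : HasCompactSupport Y) (hYw : ∀ x, gNorm g x (Y x) ≤ w x) :
    ∫ x in E, divg (fun y => dens g y • Y y) x ≤ B :=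
  (ENNReal.ofReal_le_ofReal_iff hB).1 ((le_iSup₂_of_le (f := fun (Y : Space n → Space n)
    (_ : ContDiff ℝ 1 Y ∧ HasCompactSupport Y ∧ ∀ x, gNorm g x (Y x) ≤ w x) =>
      ENNReal.ofReal (∫ x in E, divg (fun y => dens g y • Y y) x)) Y ⟨hY, hYc, hYw⟩ le_rfl).trans h)

lemma continuous_ratio (hg : IsMetric g) :
    Continuous fun x => Real.sqrt ‖g x‖ / dens g x := by
  have hgc : Continuous g := hg.smooth.continuous
  have h : Continuous fun x => ‖g x‖ :=
    Continuous.norm (E := Space n →L[ℝ] Space n →L[ℝ] ℝ) hgc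
  exact (Real.continuous_sqrt.comp h).div (contDiff_dens hg).continuous fun x => (dens_pos hg x).ne'

/-- A bound on the perimeter bounds the Euclidean perimeter in every ball. -/
lemma bvBound (hg : IsMetric g) {B : ℝ} (hB : 0 ≤ B) (R : ℝ) :
    ∃ C, ∀ E : Set (Space n), gPer g E ≤ ENNReal.ofReal B → BVBound E R C := by
  have hd := dens_pos hg
  have hcont := continuous_ratio hg
  obtain ⟨M0, hM0⟩ := (isCompact_closedBall (0 : Space n) R).exists_bound_of_continuousOn
    hcont.continuousOn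
  set M := |M0| + 1 with hM
  have hMp : 0 < M := by positivity
  refine ⟨M * B, fun E hE => ⟨by positivity, fun Φ hΦ hs hb => ?_⟩⟩
  have hYw : ∀ x, gNorm g x ((M⁻¹ / dens g x) • Φ x) ≤ 1 := fun x => by
    rw [gNorm_smul, abs_of_pos (div_pos (inv_pos.2 hMp) (hd x))]
    rcases eq_or_ne (Φ x) 0 with h0 | h0
    · simp [h0, gNorm]
    have h1 := hM0 x (hs (subset_tsupport Φ h0))
    rw [Real.norm_of_nonneg (div_nonneg (Real.sqrt_nonneg _) (hd x).le)] at h1
    have h2 : gNorm g x (Φ x) / dens g x ≤ M :=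
      (div_le_div_of_nonneg_right (((gNorm_le g x _).trans (mul_le_of_le_one_right
        (Real.sqrt_nonneg _) (hb x)))) (hd x).le).trans (by linarith [le_abs_self M0])
    calc M⁻¹ / dens g x * gNorm g x (Φ x) = M⁻¹ * (gNorm g x (Φ x) / dens g x) := by ring
      _ ≤ M⁻¹ * M := mul_le_mul_of_nonneg_left h2 (by positivity)
      _ = 1 := inv_mul_cancel₀ hMp.ne'
  have hYc : ContDiff ℝ 1 fun x => (M⁻¹ / dens g x) • Φ x :=
    (contDiff_const.div ((contDiff_dens hg).of_le (by norm_num)) fun x => (hd x).ne').smul hΦ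
  have hc : HasCompactSupport Φ :=
    (isCompact_closedBall (0 : Space n) R).of_isClosed_subset (isClosed_tsupport Φ) hs
  have h := test_le (w := fun _ => 1) (Y := fun x => (M⁻¹ / dens g x) • Φ x) hB hE hYc
    (hc.mono fun x hx => fun h0 => hx (by simp [h0])) hYw
  have e : (fun y => dens g y • (M⁻¹ / dens g y) • Φ y) = fun y => M⁻¹ • Φ y := by
    funext y; rw [smul_smul]; congr 1
    have := (hd y).ne'; field_simp
  have e2 : ∀ x, divg (fun y => M⁻¹ • Φ y) x = M⁻¹ * divg Φ x := fun x => by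
    simp only [divg, pd, Finset.mul_sum]
    refine Finset.sum_congr rfl fun i _ => ?_
    rw [show (fun y => (M⁻¹ • Φ y) i) = fun y => M⁻¹ * Φ y i from rfl,
      fderiv_const_mul ((differentiable_euclidean.1 (hΦ.differentiable one_ne_zero) i) x)]
    simp
  simp only [e, e2] at h
  rw [integral_const_mul, inv_mul_le_iff₀ hMp] at h
  exact h

/-- Integrals over sets converging almost everywhere. -/
lemma tendsto_setIntegral {E : ℕ → Set (Space n)} {S : Set (Space n)}
    (hE : ∀ k, MeasurableSet (E k)) (hS : MeasurableSet S)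
    (hc : ∀ᵐ x, ∀ᶠ k in atTop, ind (E k) x = ind S x) {f : Space n → ℝ} (hf : Integrable f) :
    Tendsto (fun k => ∫ x in E k, f x) atTop (𝓝 (∫ x in S, f x)) := by
  have e : ∀ T : Set (Space n), MeasurableSet T → ∫ x in T, f x = ∫ x, ind T x * f x := fun T hT => by
    rw [← integral_indicator hT]
    refine integral_congr_ae (Eventually.of_forall fun x => ?_)
    by_cases hx : x ∈ T <;> simp [ind, hx]
  simp only [e _ (hE _), e _ hS]
  refine tendsto_integral_of_dominated_convergence (fun x => ‖f x‖)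
    (fun k => (measurable_ind (hE k)).aestronglyMeasurable.mul hf.1) hf.norm
    (fun k => Eventually.of_forall fun x => ?_) ?_
  · rw [norm_mul, Real.norm_of_nonneg (ind_nonneg _ _)]
    exact mul_le_of_le_one_left (norm_nonneg _) (ind_le_one _ _)
  · filter_upwards [hc] with x hx
    exact tendsto_const_nhds.congr' (hx.mono fun k hk => by simp only [hk])

lemma vol_le_int (hg : IsMetric g) {P : Space n → ℝ} (hP1 : ∀ x, 1 ≤ P x) {E : Set (Space n)}
    (hi : IntegrableOn (fun x => P x * dens g x) E) :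
    IntegrableOn (dens g) E ∧ 0 ≤ gVol g E ∧ gVol g E ≤ gInt g E P := by
  have hle : ∀ x, dens g x ≤ P x * dens g x := fun x =>
    le_mul_of_one_le_left (dens_pos hg x).le (hP1 x)
  have h1 : IntegrableOn (dens g) E :=
    hi.mono' (contDiff_dens hg).continuous.aestronglyMeasurable (Eventually.of_forall fun x => by
      rw [Real.norm_of_nonneg (dens_pos hg x).le]; exact hle x)
  exact ⟨h1, integral_nonneg fun x => (dens_pos hg x).le, integral_mono h1 hi hle⟩

lemma energy_lower {ε C a : ℝ} (hε : 0 < ε) (hC : 0 < C) (ha0 : 0 < a) (ha1 : a < 1) :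
    ∃ T ≥ 0, ∀ t, 0 ≤ t → (-(C * T ^ a) ≤ ε * t - C * t ^ a) ∧ (ε * t < C * t ^ a → t ≤ T) := by
  have h1a : 0 < 1 - a := by linarith
  refine ⟨(C / ε) ^ (1 / (1 - a)), Real.rpow_nonneg (by positivity) _, fun t ht => ?_⟩
  have hsmall : ε * t < C * t ^ a → t ≤ (C / ε) ^ (1 / (1 - a)) := fun h => by
    rcases eq_or_lt_of_le ht with h0 | h0
    · rw [← h0]; exact Real.rpow_nonneg (by positivity) _
    have h2 : t ^ (1 - a) ≤ C / ε := by
      rw [Real.rpow_sub h0, Real.rpow_one, div_le_iff₀ (Real.rpow_pos_of_pos h0 a),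
        div_mul_eq_mul_div, le_div_iff₀ hε]
      linarith
    calc t = (t ^ (1 - a)) ^ (1 / (1 - a)) := by
          rw [← Real.rpow_mul ht, mul_one_div_cancel h1a.ne', Real.rpow_one]
      _ ≤ _ := Real.rpow_le_rpow (Real.rpow_nonneg ht _) h2 (by positivity)
  refine ⟨?_, hsmall⟩
  rcases le_or_gt t ((C / ε) ^ (1 / (1 - a))) with h | h
  · have : C * t ^ a ≤ C * ((C / ε) ^ (1 / (1 - a))) ^ a :=
      mul_le_mul_of_nonneg_left (Real.rpow_le_rpow ht h ha0.le) hC.le
    linarith [mul_nonneg hε.le ht]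
  · have : C * t ^ a ≤ ε * t := by
      by_contra h'
      linarith [hsmall (lt_of_not_ge h')]
    have : 0 ≤ C * ((C / ε) ^ (1 / (1 - a))) ^ a := by positivity
    linarith

end Exist

open Exist in
/-- A negative energy gives a nontrivial minimizer. -/
theorem exists_min (hn : 2 ≤ n) (hg : IsMetric g) {P : Space n → ℝ} (hP : Continuous P)
    (hP1 : ∀ x, 1 ≤ P x) (hPc : ∀ M, IsCompact {x | P x ≤ M}) {ε C a : ℝ} (hε : 0 < ε)
    (hC : 0 < C) (ha0 : 0 < a) (ha1 : a < 1) {F : Set (Space n)} (hF : Admissible g P F)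
    (hFneg : energy g P ε C a F < 0) :
    ∃ E, Admissible g P E ∧ 0 < gVol g E ∧ energy g P ε C a E < 0 ∧
      ∀ E', Admissible g P E' → energy g P ε C a E ≤ energy g P ε C a E' := by
  have _ := hn
  obtain ⟨T, hT0, hT⟩ := energy_lower hε hC ha0 ha1
  have hbasic : ∀ E, Admissible g P E →
      -(C * T ^ a) ≤ energy g P ε C a E ∧
      (energy g P ε C a E < 0 → gInt g E P ≤ T ∧ (gPer g E).toReal ≤ C * T ^ a) := by
    intro E hE
    obtain ⟨-, hv0, hv⟩ := vol_le_int hg hP1 hE.2.1
    have hpw : C * gVol g E ^ a ≤ C * gInt g E P ^ a :=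
      mul_le_mul_of_nonneg_left (Real.rpow_le_rpow hv0 hv ha0.le) hC.le
    obtain ⟨h1, h2⟩ := hT (gInt g E P) (hv0.trans hv)
    have hp : 0 ≤ (gPer g E).toReal := ENNReal.toReal_nonneg
    have ht : 0 ≤ ε * gInt g E P := mul_nonneg hε.le (hv0.trans hv)
    refine ⟨by unfold energy; linarith, fun hneg => ?_⟩
    unfold energy at hneg
    have h3 := h2 (by linarith)
    have : C * gInt g E P ^ a ≤ C * T ^ a :=
      mul_le_mul_of_nonneg_left (Real.rpow_le_rpow (hv0.trans hv) h3 ha0.le) hC.le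
    exact ⟨h3, by linarith⟩
  set S0 := energy g P ε C a '' {E | Admissible g P E} with hS0
  have hne : S0.Nonempty := ⟨_, Set.mem_image_of_mem _ hF⟩
  have hbdd : BddBelow S0 := ⟨-(C * T ^ a), by rintro _ ⟨E, hE, rfl⟩; exact (hbasic E hE).1⟩
  set m := sInf S0 with hm
  have hm0 : m < 0 := (csInf_le hbdd (Set.mem_image_of_mem _ hF)).trans_lt hFneg
  have hseq : ∀ k : ℕ, ∃ E, Admissible g P E ∧
      energy g P ε C a E < min 0 (m + 1 / ((k : ℝ) + 1)) := fun k => by
    obtain ⟨_, ⟨E, hE, rfl⟩, h⟩ := exists_lt_of_csInf_lt hne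
      (lt_min hm0 (lt_add_of_pos_right m (by positivity : (0 : ℝ) < 1 / ((k : ℝ) + 1))))
    exact ⟨E, hE, h⟩
  choose E hE hEe using hseq
  have hEb : ∀ k, gInt g (E k) P ≤ T ∧ (gPer g (E k)).toReal ≤ C * T ^ a := fun k =>
    (hbasic _ (hE k)).2 ((hEe k).trans_le (min_le_left _ _))
  have hCT : 0 ≤ C * T ^ a := by positivity
  obtain ⟨σ₁, S, hσ₁, hS, hconv⟩ := exists_limit_set E (fun k => (hE k).1) fun R => by
    obtain ⟨D, hD⟩ := bvBound hg hCT R
    exact ⟨D, fun k => hD _ ((ENNReal.le_ofReal_iff_toReal_le (hE k).2.2 hCT).2 (hEb k).2)⟩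
  set w : ℕ → ℝ × ℝ × ℝ := fun k =>
    ((gPer g (E (σ₁ k))).toReal, gInt g (E (σ₁ k)) P, gVol g (E (σ₁ k))) with hw
  have hwmem : ∀ k, w k ∈ Set.Icc 0 (C * T ^ a) ×ˢ (Set.Icc 0 T ×ˢ Set.Icc 0 T) := fun k => by
    obtain ⟨-, hv0, hv⟩ := vol_le_int hg hP1 (hE (σ₁ k)).2.1
    exact ⟨⟨ENNReal.toReal_nonneg, (hEb _).2⟩, ⟨hv0.trans hv, (hEb _).1⟩,
      hv0, hv.trans (hEb _).1⟩
  obtain ⟨⟨p, t, v⟩, hlim_mem, σ₂, hσ₂, hwlim⟩ :=
    (isCompact_Icc.prod (isCompact_Icc.prod isCompact_Icc)).tendsto_subseq hwmem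
  set σ := σ₁ ∘ σ₂ with hσ
  have hp : Tendsto (fun k => (gPer g (E (σ k))).toReal) atTop (𝓝 p) :=
    (continuous_fst.tendsto _).comp hwlim
  have ht : Tendsto (fun k => gInt g (E (σ k)) P) atTop (𝓝 t) :=
    ((continuous_fst.comp continuous_snd).tendsto _).comp hwlim
  have hv : Tendsto (fun k => gVol g (E (σ k))) atTop (𝓝 v) :=
    ((continuous_snd.comp continuous_snd).tendsto _).comp hwlim
  have hc : ∀ᵐ x, ∀ᶠ k in atTop, ind (E (σ k)) x = ind S x := by
    filter_upwards [hconv] with x hx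
    exact hσ₂.tendsto_atTop.eventually hx
  have hp0 : 0 ≤ p := hlim_mem.1.1
  have ht0 : 0 ≤ t := hlim_mem.2.1.1
  have hPd : ∀ x, 0 ≤ P x * dens g x := fun x =>
    mul_nonneg (zero_le_one.trans (hP1 x)) (dens_pos hg x).le
  have hPdc : Continuous fun x => P x * dens g x := hP.mul (contDiff_dens hg).continuous
  -- perimeter
  have hper : gPer g S ≤ ENNReal.ofReal p := by
    refine iSup₂_le fun Y hY => ENNReal.ofReal_le_ofReal ?_
    set Z : Space n → Space n := fun y => dens g y • Y y with hZ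
    have hZd : ContDiff ℝ 1 Z := ((contDiff_dens hg).of_le (by norm_num)).smul hY.1
    have hZc : Continuous (divg Z) := by
      unfold divg pd
      exact continuous_finsetSum _ fun i _ =>
        ((contDiff_euclidean.1 hZd i).continuous_fderiv one_ne_zero).clm_apply continuous_const
    have hsupp : HasCompactSupport (divg Z) := by
      refine HasCompactSupport.of_support_subset_isCompact hY.2.1 fun x hx => ?_
      by_contra hxn
      refine hx ?_
      unfold divg pd
      refine Finset.sum_eq_zero fun i _ => ?_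
      have : (fun y => Z y i) =ᶠ[𝓝 x] fun _ => (0 : ℝ) := by
        filter_upwards [notMem_tsupport_iff_eventuallyEq.1 hxn] with y hy
        simp [hZ, hy]
      rw [this.fderiv_eq]; simp
    refine le_of_tendsto_of_tendsto (tendsto_setIntegral (fun k => (hE _).1) hS hc
      (hZc.integrable_of_hasCompactSupport hsupp)) hp (Eventually.of_forall fun k => ?_)
    exact test_le ENNReal.toReal_nonneg (le_of_eq (ENNReal.ofReal_toReal (hE (σ k)).2.2).symm)
      hY.1 hY.2.1 hY.2.2
  -- confinement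
  have hlint : ∫⁻ x, S.indicator (fun x => ENNReal.ofReal (P x * dens g x)) x
      ≤ ENNReal.ofReal t := by
    have hmeas : ∀ k, Measurable ((E (σ k)).indicator fun x => ENNReal.ofReal (P x * dens g x)) :=
      fun k => hPdc.measurable.ennreal_ofReal.indicator (hE _).1
    have hlim2 : ∀ᵐ x, S.indicator (fun x => ENNReal.ofReal (P x * dens g x)) x
        = atTop.liminf fun k => (E (σ k)).indicator (fun x => ENNReal.ofReal (P x * dens g x)) x := by
      filter_upwards [hc] with x hx
      refine (Tendsto.liminf_eq (tendsto_const_nhds.congr' ?_)).symm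
      filter_upwards [hx] with k hk
      by_cases h1 : x ∈ S <;> by_cases h2 : x ∈ E (σ k) <;> simp [ind, h1, h2] at hk ⊢
    rw [lintegral_congr_ae hlim2]
    refine (lintegral_liminf_le hmeas).trans (le_of_eq ?_)
    refine Tendsto.liminf_eq ?_
    refine (ENNReal.tendsto_ofReal ht).congr fun k => ?_
    rw [lintegral_indicator (hE _).1, gInt,
      ofReal_integral_eq_lintegral_ofReal (hE _).2.1 (Eventually.of_forall hPd)]
  rw [lintegral_indicator hS] at hlint
  have hSi : IntegrableOn (fun x => P x * dens g x) S := by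
    refine ⟨hPdc.aestronglyMeasurable, ?_⟩
    rw [hasFiniteIntegral_iff_ofReal (Eventually.of_forall hPd)]
    exact hlint.trans_lt ENNReal.ofReal_lt_top
  have hSt : gInt g S P ≤ t := by
    rw [← ofReal_integral_eq_lintegral_ofReal hSi (Eventually.of_forall hPd)] at hlint
    exact (ENNReal.ofReal_le_ofReal_iff ht0).1 hlint
  have hSad : Admissible g P S := ⟨hS, hSi, ne_top_of_le_ne_top ENNReal.ofReal_ne_top hper⟩
  -- volume
  have hcut : ∀ (M : ℝ), 0 < M → ∀ G, Admissible g P G →
      |gVol g G - ∫ x in G, ({x | P x ≤ M}.indicator (dens g)) x| ≤ gInt g G P / M := by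
    intro M hM G hG
    obtain ⟨hdi, -, -⟩ := vol_le_int hg hP1 hG.2.1
    have hm' : MeasurableSet {x | P x ≤ M} := (hPc M).measurableSet
    rw [gVol, gInt, ← integral_sub hdi (hdi.indicator hm'), ← integral_div]
    refine abs_integral_le_integral_abs.trans (integral_mono (hdi.sub (hdi.indicator hm')).abs
      (hG.2.1.div_const M) fun x => ?_)
    by_cases hx : x ∈ {x | P x ≤ M}
    · simp only [Set.indicator_of_mem hx, sub_self, abs_zero]
      exact div_nonneg (hPd x) hM.le
    · simp only [Set.indicator_of_notMem hx, sub_zero, abs_of_pos (dens_pos hg x)]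
      rw [le_div_iff₀ hM, mul_comm]
      exact mul_le_mul_of_nonneg_right (le_of_not_ge hx) (dens_pos hg x).le
  have hvol : Tendsto (fun k => gVol g (E (σ k))) atTop (𝓝 (gVol g S)) := by
    rw [Metric.tendsto_atTop]
    intro e he
    set M := 3 * (T + t + 1) / e with hMdef
    have hM : 0 < M := by positivity
    have hTM : ∀ s, 0 ≤ s → s ≤ T + t → s / M < e / 3 := fun s hs0 hs => by
      rw [div_lt_iff₀ hM, hMdef]
      field_simp
      linarith
    have hi : Integrable ({x | P x ≤ M}.indicator (dens g)) :=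
      (integrable_indicator_iff (hPc M).measurableSet).2
        ((contDiff_dens hg).continuous.continuousOn.integrableOn_compact (hPc M))
    obtain ⟨N, hN⟩ := Metric.tendsto_atTop.1
      (tendsto_setIntegral (fun k => (hE (σ k)).1) hS hc hi) (e / 3) (by positivity)
    refine ⟨N, fun k hk => ?_⟩
    have h1 := abs_le.1 ((hcut M hM _ (hE (σ k))).trans (hTM _ ((vol_le_int hg hP1 (hE _).2.1).2.1.trans
      (vol_le_int hg hP1 (hE _).2.1).2.2) (by linarith [(hEb (σ k)).1])).le)
    have h2 := abs_lt.1 ((hcut M hM _ hSad).trans_lt (hTM _ ((vol_le_int hg hP1 hSi).2.1.trans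
      (vol_le_int hg hP1 hSi).2.2) (by linarith)))
    have h3 := hN k hk
    rw [Real.dist_eq, abs_lt] at h3 ⊢
    constructor <;> linarith [h3.1, h3.2, h1.1, h1.2, h2.1, h2.2]
  have hveq : gVol g S = v := tendsto_nhds_unique hvol hv
  have hen : energy g P ε C a S ≤ m := by
    have hlime : Tendsto (fun k => energy g P ε C a (E (σ k))) atTop (𝓝 (p + ε * t - C * v ^ a)) :=
      (hp.add (ht.const_mul ε)).sub ((hv.rpow_const (Or.inr ha0.le)).const_mul C)
    have hub : Tendsto (fun k => m + 1 / (((σ k : ℕ) : ℝ) + 1)) atTop (𝓝 m) := by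
      simpa [hσ, Function.comp_def] using (tendsto_one_div_add_atTop_nhds_zero_nat.comp
        ((hσ₁.comp hσ₂).tendsto_atTop)).const_add m
    have hle : p + ε * t - C * v ^ a ≤ m := le_of_tendsto_of_tendsto hlime hub
      (Eventually.of_forall fun k => ((hEe (σ k)).trans_le (min_le_right _ _)).le)
    have hp1 : (gPer g S).toReal ≤ p := ENNReal.toReal_le_of_le_ofReal hp0 hper
    rw [energy, hveq]
    linarith [mul_le_mul_of_nonneg_left hSt hε.le]
  have hneg : energy g P ε C a S < 0 := hen.trans_lt hm0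
  refine ⟨S, hSad, ?_, hneg, fun E' hE' => hen.trans (csInf_le hbdd (Set.mem_image_of_mem _ hE'))⟩
  obtain ⟨-, hv0, hv1⟩ := vol_le_int hg hP1 hSi
  refine lt_of_le_of_ne hv0 fun h => ?_
  rw [energy, ← h, Real.zero_rpow ha0.ne', mul_zero, sub_zero] at hneg
  linarith [(gPer g S).toReal_nonneg, mul_nonneg hε.le (hv0.trans hv1)]

end

end Vale.Agent.P219.Univ
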