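import Mathlib
import Vale.Agent.P219.Univ.Algebra
import Vale.Agent.P219.Univ.PerBasics
import Vale.Agent.P219.Univ.FirstVar.Bound

/-!
# First variation under the maps `x ↦ x - t • X x`
-/

open MeasureTheory Filter Topology Set
open scoped ENNReal ContDiff RealInnerProductSpace

namespace Vale.Agent.P219.Univ

open Vale.Agent.P219

noncomputable section

variable {n : ℕ} {g : MetricField n}

/-- The deformation. -/
def shrinkMap (X : Space n → Space n) (t : ℝ) (x : Space n) : Space n := x - t • X x

/-- The perimeter after a small deformation, with the flux of the deformation. -/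
theorem per_shrink (hg : IsMetric g) {X : Space n → Space n} (hX : ContDiff ℝ 2 X)
    (hXc : HasCompactSupport X) {θ Λ : Space n → ℝ} {l : ℝ} (hθc : Continuous θ)
    (hΛc : Continuous Λ)
    (hθ : ∀ x v, θ x + l * g x (X x) v + Λ x * (g x v v - 1) ≤
      gDiv g X x * g x v v - g x (cov g X x v) v)
    {E : Set (Space n)} (hE : MeasurableSet E) {ε : ℝ} (hε : 0 < ε) :
    ∀ᶠ t in 𝓝[>] (0 : ℝ), MeasurableSet (shrinkMap X t '' E) ∧
      (wPer g (fun x => 1 + t * ε - t * θ x) E ≠ ⊤ →
        gPer g (shrinkMap X t '' E) ≠ ⊤ ∧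
        (gPer g (shrinkMap X t '' E)).toReal + t * l * gInt g E (gDiv g X) ≤
          (wPer g (fun x => 1 + t * ε - t * θ x) E).toReal) := by
  filter_upwards [(FirstVar.eventually_good hX hXc).filter_mono nhdsWithin_le_nhds,
    FirstVar.bound hg hX hXc hθc hΛc hθ hε] with t hgood hb
  refine ⟨hgood.image_measurable hE, fun hfin => ?_⟩
  set J := t * l * gInt g E (gDiv g X)
  set S := (wPer g (fun x => 1 + t * ε - t * θ x) E).toReal
  have hX1 : ContDiff ℝ 1 X := hX.of_le (by norm_num)
  have key : ∀ Y : Space n → Space n, ContDiff ℝ 1 Y → HasCompactSupport Y →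
      (∀ x, gNorm g x (Y x) ≤ 1) →
      (∫ x in shrinkMap X t '' E, divg (fun y => dens g y • Y y) x) + J ≤ S := by
    intro Y hY1 hYc hYn
    have hd : ContDiff ℝ 1 (dens g) := (contDiff_dens hg).of_le (by exact_mod_cast le_top)
    obtain ⟨W, hW⟩ : ∃ W : Space n → Space n, W = fun y => dens g y • Y y := ⟨_, rfl⟩
    have hW1 : ContDiff ℝ 1 W := by rw [hW]; exact hd.smul hY1
    have hWc : HasCompactSupport W := by
      rw [hW]
      exact HasCompactSupport.smul_left (f := dens g) (f' := Y) hYc
    obtain ⟨hV, hVc, hpi⟩ := hgood.piola_spec hX hW1 hWc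
    obtain ⟨Z, hZ⟩ : ∃ Z : Space n → Space n,
        Z = fun x => (dens g x)⁻¹ • FirstVar.piola X t W x := ⟨_, rfl⟩
    have hZd : (fun y => dens g y • Z y) = FirstVar.piola X t W := by
      funext y
      rw [hZ, smul_smul, mul_inv_cancel₀ (dens_pos hg y).ne', one_smul]
    have hZ1 : ContDiff ℝ 1 Z := by
      rw [hZ]; exact (hd.inv fun x => (dens_pos hg x).ne').smul hV
    have hZc : HasCompactSupport Z := by
      rw [hZ]
      exact HasCompactSupport.smul_left (f := fun x => (dens g x)⁻¹) (f' := FirstVar.piola X t W) hVc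
    have hn : ∀ x, gNorm g x (Z x + (t * l) • X x) ≤ 1 + t * ε - t * θ x := by
      intro x
      obtain ⟨h0, hbx⟩ := hb x
      obtain ⟨w, hw⟩ : ∃ w, w = (FirstVar.dDisp X t x).inverse (Y (FirstVar.disp X t x)) :=
        ⟨_, rfl⟩
      have hwY : FirstVar.dDisp X t x w = Y (FirstVar.disp X t x) := by
        rw [hw, (hgood.dDisp_inverse hX x).self_apply_inverse]
      have hZx : Z x = FirstVar.ratio g X t x • w := by
        rw [hZ, hw]
        simp only [FirstVar.piola, hW, map_smul, smul_smul, FirstVar.ratio]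
        congr 1
        rw [inv_mul_eq_div]
      have hY2 : FirstVar.sqPush g X t (x, w) ≤ 1 := by
        simp only [FirstVar.sqPush, hwY]
        exact Real.sqrt_le_one.1 (hYn _)
      have h := hbx w hY2
      simp only [FirstVar.sqPull] at h
      rw [gNorm, hZx, Real.sqrt_le_iff]
      refine ⟨h0, le_trans (le_of_eq ?_) h⟩
      simp only [map_add, map_smul, add_apply, smul_apply, smul_eq_mul, hg.symm x w (X x)]
      ring
    have h := (ENNReal.ofReal_le_iff_le_toReal hfin).1 (le_wPer (g := g) (E := E)
      (hZ1.add (hX1.const_smul (t * l))) (hZc.add (hXc.smul_left (f := fun _ => t * l))) hn)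
    refine le_trans (le_of_eq ?_) h
    have hiX := integrable_divg (contDiff_weighted hg hX1) (hasCompactSupport_weighted (g := g) hXc)
    have e : (fun y => dens g y • (Z y + (t * l) • X y)) =
        fun y => FirstVar.piola X t W y + (t * l) • (dens g y • X y) := by
      funext y
      rw [smul_add, smul_comm (dens g y) (t * l), ← congrFun hZd y]
    have e2 : ∀ x, divg (fun y => dens g y • (Z y + (t * l) • X y)) x =
        divg (FirstVar.piola X t W) x + t * l * divg (fun y => dens g y • X y) x := fun x => by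
      rw [e, ← divg_const_smul ((contDiff_weighted hg hX1).differentiable one_ne_zero x)]
      unfold divg
      rw [← Finset.sum_add_distrib]
      refine Finset.sum_congr rfl fun i _ => ?_
      simp only [pd, PiLp.add_apply]
      rw [fderiv_fun_add ((contDiff_euclidean.1 hV i).differentiable one_ne_zero x)
        ((contDiff_euclidean.1 ((contDiff_weighted hg hX1).const_smul (t * l)) i).differentiable one_ne_zero x)]
      rfl
    simp only [e2]
    rw [integral_add (integrable_divg hV hVc).integrableOn (hiX.const_mul _).integrableOn,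
      integral_const_mul, show (∫ x in E, divg (fun y => dens g y • X y) x) = gInt g E (gDiv g X)
        from (gInt_gDiv hg X E).symm]
    rw [← hW, show shrinkMap X t '' E = FirstVar.disp X t '' E from rfl,
      hgood.integral_image hX hE]
    simp only [hpi, J]
  have h0 : J ≤ S := by
    have := key (fun _ => 0) contDiff_const HasCompactSupport.zero fun x => by simp [gNorm_zero]
    simpa [divg, pd] using this
  have hle : gPer g (shrinkMap X t '' E) ≤ ENNReal.ofReal (S - J) := iSup₂_le fun Y hY =>
    ENNReal.ofReal_le_ofReal (by linarith [key Y hY.1 hY.2.1 hY.2.2])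
  refine ⟨ne_top_of_le_ne_top ENNReal.ofReal_ne_top hle, ?_⟩
  have := ENNReal.toReal_mono ENNReal.ofReal_ne_top hle
  rw [ENNReal.toReal_ofReal (by linarith)] at this
  linarith

/-- Integrals after a small deformation. -/
theorem int_shrink (hg : IsMetric g) {X : Space n → Space n} (hX : ContDiff ℝ 2 X)
    (hXc : HasCompactSupport X) {h : Space n → ℝ} (hh : ContDiff ℝ 1 h)
    {E : Set (Space n)} (hE : MeasurableSet E)
    (hi : IntegrableOn (fun x => h x * dens g x) E) :
    (∀ᶠ t in 𝓝[>] (0 : ℝ), IntegrableOn (fun x => h x * dens g x) (shrinkMap X t '' E)) ∧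
    Tendsto (fun t => (gInt g (shrinkMap X t '' E) h - gInt g E h) / t) (𝓝[>] (0 : ℝ))
      (𝓝 (-gInt g E (gDiv g fun x => h x • X x))) := by
  obtain ⟨m, hm⟩ : ∃ m : Space n → ℝ, m = fun x => h x * dens g x := ⟨_, rfl⟩
  have hm1 : ContDiff ℝ 1 m := hm ▸ hh.mul ((contDiff_dens hg).of_le (by exact_mod_cast le_top))
  obtain ⟨q, hq⟩ : ∃ q : ℝ × Space n → ℝ,
      q = fun p => FirstVar.jac X p.1 p.2 * m (FirstVar.disp X p.1 p.2) := ⟨_, rfl⟩
  have hqs : ContDiff ℝ 1 q := hq ▸ (FirstVar.contDiff_jac hX).mul
    (hm1.comp ((FirstVar.contDiff_disp hX).of_le (by norm_num)))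
  have hoff : ∀ t, ∀ x ∉ tsupport X, q (t, x) - m x = 0 := fun t x hx => by
    obtain ⟨-, -, h2, -, h4⟩ := FirstVar.off_supp hx t
    simp [hq, h2, h4]
  have hgood := (FirstVar.eventually_good hX hXc).filter_mono
    (nhdsWithin_le_nhds (s := Ioi (0 : ℝ)))
  have hK : IsCompact (tsupport X) := hXc.isCompact
  have hdiff : ∀ t, IntegrableOn (fun x => q (t, x) - m x) E := fun t =>
    (((hqs.continuous.comp (continuous_const.prodMk continuous_id)).sub hm1.continuous
      ).integrable_of_hasCompactSupport (HasCompactSupport.intro hK (hoff t))).integrableOn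
  have him : IntegrableOn m E := hm ▸ hi
  have hiq : ∀ t, IntegrableOn (fun x => q (t, x)) E := fun t =>
    ((hdiff t).add him).congr_fun (fun x _ => by simp) hE
  refine ⟨?_, ?_⟩
  · filter_upwards [hgood] with t ht
    rw [← hm]
    refine (ht.integrableOn_image hX hE m).2 ?_
    have := hiq t
    simp only [hq] at this
    exact this
  obtain ⟨M, hM⟩ : ∃ M, ∀ p ∈ Icc (0 : ℝ) 1 ×ˢ tsupport X, ‖fderiv ℝ q p (1, 0)‖ ≤ M :=
    (isCompact_Icc.prod hK).exists_bound_of_continuousOn
      ((hqs.continuous_fderiv one_ne_zero).clm_apply continuous_const).continuousOn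
  have hline : ∀ s x, HasDerivAt (fun t => q (t, x)) (fderiv ℝ q (s, x) (1, 0)) s := fun s x =>
    ((hqs.differentiable one_ne_zero) (s, x)).hasFDerivAt.comp_hasDerivAt s
      ((hasDerivAt_id s).prodMk (hasDerivAt_const s x))
  have hq0 : ∀ x, q (0, x) = m x := fun x => by
    simp [hq, FirstVar.jac_zero, FirstVar.disp_zero]
  have hlim0 : ∀ x, fderiv ℝ q (0, x) (1, 0) =
      -gDiv g (fun x => h x • X x) x * dens g x := by
    intro x
    have hXd := hX.differentiable (by norm_num) x
    have hmd : HasFDerivAt m (fderiv ℝ m x) (FirstVar.disp X 0 x) := by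
      rw [FirstVar.disp_zero]; exact (hm1.differentiable one_ne_zero x).hasFDerivAt
    have h1 := (FirstVar.jac_deriv hXd).mul (hmd.comp_hasDerivAt (0 : ℝ) (FirstVar.disp_deriv X x))
    have h2 := hline 0 x
    simp only [hq] at h2 ⊢
    refine (h2.unique h1).trans ?_
    simp only [gDiv, neg_mul]
    rw [div_mul_cancel₀ (G₀ := ℝ) _ (dens_pos hg x).ne']
    have e : (fun y => dens g y • h y • X y) = fun y => m y • X y := by
      funext y; rw [hm, smul_smul, mul_comm]
    rw [e, divg_smul (hm1.differentiable one_ne_zero x) hXd]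
    simp [FirstVar.jac_zero, FirstVar.disp_zero]
    ring
  have hmain : Tendsto (fun t => ∫ x in E, (q (t, x) - m x) / t) (𝓝[>] (0 : ℝ))
      (𝓝 (∫ x in E, fderiv ℝ q (0, x) (1, 0))) := by
    refine tendsto_integral_filter_of_dominated_convergence
      (fun x => (tsupport X).indicator (fun _ => M) x) ?_ ?_ ?_ ?_
    · exact Filter.Eventually.of_forall fun t => ((hdiff t).div_const t).aestronglyMeasurable
    · filter_upwards [Ioo_mem_nhdsGT (zero_lt_one' ℝ)] with t ht
      refine Filter.Eventually.of_forall fun x => ?_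
      by_cases hx : x ∈ tsupport X
      · rw [indicator_of_mem hx]
        obtain ⟨c, hc, hs⟩ := exists_hasDerivAt_eq_slope (fun t => q (t, x))
          (fun s => fderiv ℝ q (s, x) (1, 0)) ht.1
          (fun s _ => (hline s x).continuousAt.continuousWithinAt) fun s _ => hline s x
        rw [← hq0 x, ← sub_zero t]
        rw [sub_zero] at *
        rw [show (q (t, x) - q (0, x)) / t = fderiv ℝ q (c, x) (1, 0) from hs.symm]
        exact hM (c, x) ⟨⟨hc.1.le, by linarith [hc.2, ht.2]⟩, hx⟩
      · rw [indicator_of_notMem hx, hoff t x hx]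
        simp
    · exact (integrable_indicator_iff (isClosed_tsupport X).measurableSet).2
        ((integrableOn_const hK.measure_lt_top.ne).mono_measure Measure.restrict_le_self)
    · refine Filter.Eventually.of_forall fun x => ?_
      have h1 := (hline 0 x).hasDerivWithinAt (s := Ioi 0)
      rw [hasDerivWithinAt_iff_tendsto_slope' (by simp)] at h1
      refine h1.congr fun t => ?_
      rw [slope_def_field, hq0, sub_zero]
  have hrhs : -gInt g E (gDiv g fun x => h x • X x) = ∫ x in E, fderiv ℝ q (0, x) (1, 0) := by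
    rw [gInt, ← integral_neg]
    exact setIntegral_congr_fun hE fun x _ => by rw [hlim0, neg_mul]
  rw [hrhs]
  refine hmain.congr' ?_
  filter_upwards [hgood] with t ht
  rw [gInt, gInt, show shrinkMap X t '' E = FirstVar.disp X t '' E from rfl, ← hm,
    ht.integral_image hX hE, integral_div]
  congr 1
  rw [← integral_sub ?_ him]
  · simp only [hq]
  · have := hiq t
    simp only [hq] at this
    exact this

end

end Vale.Agent.P219.Univ
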