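import Mathlib

/-!
# The monotonicity kernel
-/

open MeasureTheory Filter Topology
open scoped ContDiff

namespace Vale.Agent.P219.Univ

noncomputable section

/-- A smooth approximation of the positive part. -/
def softPos (e u : ℝ) : ℝ := ∫ t in (0 : ℝ)..u, Real.smoothTransition (t / e)

theorem cont_trans (e : ℝ) : Continuous fun t => Real.smoothTransition (t / e) :=
  Real.smoothTransition.continuous.comp (continuous_id.div_const e)

theorem softPos_deriv (e u : ℝ) :
    HasDerivAt (softPos e) (Real.smoothTransition (u / e)) u :=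
  (cont_trans e).integral_hasStrictDerivAt 0 u |>.hasDerivAt

theorem softPos_contDiff (e : ℝ) : ContDiff ℝ ∞ (softPos e) := by
  rw [contDiff_infty_iff_deriv]
  refine ⟨fun u => (softPos_deriv e u).differentiableAt, ?_⟩
  rw [show deriv (softPos e) = fun u => Real.smoothTransition (u / e) from
    funext fun u => (softPos_deriv e u).deriv]
  exact Real.smoothTransition.contDiff.comp (contDiff_id.div_const e)

theorem softPos_of_nonpos {e u : ℝ} (he : 0 < e) (hu : u ≤ 0) : softPos e u = 0 := by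
  rw [softPos, intervalIntegral.integral_congr (g := fun _ => (0 : ℝ)) fun t ht => ?_]
  · simp
  · rw [Set.uIcc_of_ge hu] at ht
    exact Real.smoothTransition.zero_of_nonpos (div_nonpos_of_nonpos_of_nonneg ht.2 he.le)

theorem softPos_nonneg {e : ℝ} (he : 0 < e) (u : ℝ) : 0 ≤ softPos e u := by
  rcases le_total u 0 with hu | hu
  · rw [softPos_of_nonpos he hu]
  · exact intervalIntegral.integral_nonneg hu fun t _ => Real.smoothTransition.nonneg _

theorem softPos_le {e u : ℝ} (he : 0 < e) (hu : 0 ≤ u) :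
    softPos e u ≤ Real.smoothTransition (u / e) * u := by
  calc softPos e u ≤ ∫ _t in (0 : ℝ)..u, Real.smoothTransition (u / e) :=
        intervalIntegral.integral_mono_on hu ((cont_trans e).intervalIntegrable _ _)
          intervalIntegrable_const fun t ht =>
            Real.smoothTransition.monotone (div_le_div_of_nonneg_right ht.2 he.le)
    _ = _ := by simp [mul_comm]

theorem softPos_gap {e : ℝ} (he : 0 < e) (u : ℝ) :
    Real.smoothTransition (u / e) * u - softPos e u ≤ e := by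
  have hg : 0 ≤ softPos e u := softPos_nonneg he u
  rcases le_total u e with hu | hu
  · rcases le_total u 0 with h0 | h0
    · rw [Real.smoothTransition.zero_of_nonpos (div_nonpos_of_nonpos_of_nonneg h0 he.le)]
      linarith
    · nlinarith [Real.smoothTransition.le_one (u / e), Real.smoothTransition.nonneg (u / e),
        mul_le_mul_of_nonneg_right (Real.smoothTransition.le_one (u / e)) h0]
  · have h2 : softPos e u = softPos e e + (u - e) := by
      have h1 : ∫ t in e..u, Real.smoothTransition (t / e) = u - e := by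
        rw [intervalIntegral.integral_congr (g := fun _ => (1 : ℝ)) fun t ht => ?_]
        · simp
        · rw [Set.uIcc_of_le hu] at ht
          exact Real.smoothTransition.one_of_one_le ((one_le_div he).2 ht.1)
      rw [← h1]
      exact (intervalIntegral.integral_add_adjacent_intervals
        ((cont_trans e).intervalIntegrable _ _) ((cont_trans e).intervalIntegrable _ _)).symm
    rw [Real.smoothTransition.one_of_one_le ((one_le_div he).2 hu), h2]
    linarith [softPos_nonneg he e]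

/-- The cosine attached to the scale `R`. -/
def cosR (R s : ℝ) : ℝ := Real.sqrt (1 - (s / R) ^ 2)

/-- The rate of decay of the kernel. -/
def uFac (R s : ℝ) : ℝ := (1 + cosR R s) / 2

/-- The factor of the kernel. -/
def shape (R s : ℝ) : ℝ := Real.sqrt (1 + cosR R s) / Real.exp (cosR R s / 2)

/-- The monotonicity kernel. -/
def kerK (n : ℕ) (R s : ℝ) : ℝ := (shape R s / s) ^ (n - 1)

/-- The smallest value of the factor. -/
def kap : ℝ := Real.sqrt (2 / Real.exp 1)

theorem kap_pos : 0 < kap := Real.sqrt_pos.2 (by positivity)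

theorem cosR_le (R s : ℝ) : cosR R s ≤ 1 :=
  Real.sqrt_le_one.2 (by nlinarith [sq_nonneg (s / R)])

theorem uFac_bounds (R s : ℝ) : 1 / 2 ≤ uFac R s ∧ uFac R s ≤ 1 := by
  have h0 : 0 ≤ cosR R s := Real.sqrt_nonneg _
  have h1 := cosR_le R s
  unfold uFac
  constructor <;> linarith

theorem uFac_identity {R s : ℝ} (hR : 0 < R) (h : |s| ≤ R) :
    uFac R s * (1 - uFac R s) = s ^ 2 / (4 * R ^ 2) := by
  have h1 : (s / R) ^ 2 ≤ 1 := by
    rw [← sq_abs, abs_div, abs_of_pos hR]
    exact pow_le_one₀ (by positivity) ((div_le_one hR).2 h)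
  have e : cosR R s ^ 2 = 1 - (s / R) ^ 2 := Real.sq_sqrt (by linarith)
  unfold uFac
  field_simp at e ⊢
  nlinarith

theorem shape_lower (R s : ℝ) : kap ≤ shape R s := by
  set w := cosR R s with hw
  have hw0 : 0 ≤ w := Real.sqrt_nonneg _
  have hw1 : w ≤ 1 := cosR_le R s
  rw [shape, ← hw, kap, Real.exp_half, ← Real.sqrt_div (by linarith : (0 : ℝ) ≤ 1 + w)]
  refine Real.sqrt_le_sqrt ?_
  rw [div_le_div_iff₀ (Real.exp_pos 1) (Real.exp_pos w)]
  have h := Real.add_one_le_exp (1 - w)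
  have e : Real.exp (1 - w) * Real.exp w = Real.exp 1 := by rw [← Real.exp_add]; congr 1; ring
  have h2 : 2 ≤ Real.exp (1 - w) * (1 + w) := by
    refine le_trans ?_ (mul_le_mul_of_nonneg_right h (by linarith))
    nlinarith [mul_nonneg hw0 (sub_nonneg.2 hw1)]
  nlinarith [mul_le_mul_of_nonneg_right h2 (Real.exp_pos w).le]

theorem shape_pos (R s : ℝ) : 0 < shape R s := lt_of_lt_of_le kap_pos (shape_lower R s)

theorem kerK_lower (n : ℕ) (R : ℝ) {s : ℝ} (hs : 0 < s) :
    (kap / s) ^ (n - 1) ≤ kerK n R s :=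
  pow_le_pow_left₀ (div_pos kap_pos hs).le
    (div_le_div_of_nonneg_right (shape_lower R s) hs.le) _

theorem kerK_pos (n : ℕ) (R : ℝ) {s : ℝ} (hs : 0 < s) : 0 < kerK n R s :=
  pow_pos (div_pos (shape_pos R s) hs) _

theorem kerK_radius (n : ℕ) {R : ℝ} (hR : 0 < R) : kerK n R R = (1 / R) ^ (n - 1) := by
  simp [kerK, shape, cosR, hR.ne']

theorem kerK_continuousAt (n : ℕ) {R s : ℝ} (hs : 0 < s) : ContinuousAt (kerK n R) s := by
  have hc : Continuous fun x : ℝ => shape R x := by
    unfold shape cosR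
    exact (Real.continuous_sqrt.comp (by fun_prop)).div (by fun_prop) fun x => (Real.exp_pos _).ne'
  exact (hc.continuousAt.div continuousAt_id hs.ne').pow _

theorem kerK_deriv {n : ℕ} (hn : 2 ≤ n) {R s : ℝ} (hR : 0 < R) (hs : 0 < s) (hsR : s < R) :
    HasDerivAt (kerK n R) (-(kerK n R s * (((n : ℝ) - 1) * uFac R s / s))) s := by
  have h1 : 0 < 1 - (s / R) ^ 2 := by
    have : s / R < 1 := (div_lt_one hR).2 hsR
    nlinarith [div_pos hs hR]
  set w := cosR R s with hw
  have hw0 : 0 < w := Real.sqrt_pos.2 h1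
  have hwsq : w ^ 2 = 1 - (s / R) ^ 2 := Real.sq_sqrt h1.le
  have hdw : HasDerivAt (cosR R) (-(s / (R ^ 2 * w))) s := by
    have h := ((((hasDerivAt_id s).div_const R).pow 2).const_sub 1).sqrt
      (by simpa using h1.ne')
    refine h.congr_deriv ?_
    simp only [id_eq, Pi.pow_apply]
    rw [show Real.sqrt (1 - (s / R) ^ 2) = w from rfl]
    push_cast
    norm_num
    field_simp
  have hsh := ((hdw.const_add 1).sqrt (show 1 + cosR R s ≠ 0 by rw [← hw]; linarith)).div
    (hdw.div_const 2).exp (Real.exp_pos _).ne'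
  have hf := (hsh.div (hasDerivAt_id s) hs.ne').pow (n - 1)
  refine hf.congr_deriv ?_
  obtain ⟨m, rfl⟩ := Nat.exists_eq_add_of_le hn
  simp only [id_eq, Pi.div_apply, Pi.pow_apply, kerK, shape, uFac, ← hw, show 2 + m - 1 = m + 1 by omega,
    show m + 1 - 1 = m by omega, pow_succ]
  push_cast
  have hq : 0 < Real.sqrt (1 + w) := Real.sqrt_pos.2 (by linarith)
  have hqsq : Real.sqrt (1 + w) ^ 2 = 1 + w := Real.sq_sqrt (by linarith)
  set q := Real.sqrt (1 + w)
  set E := Real.exp (w / 2)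
  have hE : 0 < E := Real.exp_pos _
  field_simp at hwsq ⊢
  linear_combination ((m : ℝ) + 1) * (s ^ 2 - w * R ^ 2 + w ^ 2 * R ^ 2) * hqsq +
    ((m : ℝ) + 1) * w * hwsq

/-- The radial profile of the deformation. -/
def prof (n : ℕ) (R a e : ℝ) (ρ : ℝ) : ℝ :=
  if 2 * ρ + a ^ 2 < R ^ 2 then
    Real.smoothTransition (1 + 4 * ρ / a ^ 2) *
      softPos e (kerK n R (Real.sqrt (2 * ρ + a ^ 2)) - kerK n R R - e)
  else 0

/-- The tangential divergence left after the mean curvature is absorbed. -/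
def profTh (n : ℕ) (R a e : ℝ) (ρ : ℝ) : ℝ :=
  ((n : ℝ) - 1) * uFac R (Real.sqrt (2 * ρ + a ^ 2)) * prof n R a e ρ +
    2 * ρ * deriv (prof n R a e) ρ

variable {n : ℕ} {R a e : ℝ}

theorem prof_of_ge {ρ : ℝ} (h : R ^ 2 ≤ 2 * ρ + a ^ 2) : prof n R a e ρ = 0 :=
  if_neg (not_lt.2 h)

theorem prof_nonneg (he : 0 < e) (ρ : ℝ) : 0 ≤ prof n R a e ρ := by
  unfold prof
  split_ifs
  · exact mul_nonneg (Real.smoothTransition.nonneg _) (softPos_nonneg he _)
  · exact le_rfl

theorem prof_zero_near (hR : 0 < R) (he : 0 < e) {ρ : ℝ}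
    (h : R ^ 2 ≤ 2 * ρ + a ^ 2) : prof n R a e =ᶠ[𝓝 ρ] fun _ => 0 := by
  rcases h.lt_or_eq with h' | h'
  · filter_upwards [Ioi_mem_nhds (show (R ^ 2 - a ^ 2) / 2 < ρ by linarith)] with x hx
    have := Set.mem_Ioi.1 hx
    exact prof_of_ge (by linarith)
  · have hc : ContinuousAt (fun x => kerK n R (Real.sqrt (2 * x + a ^ 2))) ρ := by
      refine ContinuousAt.comp (g := kerK n R) (f := fun x : ℝ => Real.sqrt (2 * x + a ^ 2))
        (x := ρ) ?_ (by fun_prop)
      exact kerK_continuousAt n (Real.sqrt_pos.2 (by nlinarith))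
    have hv : kerK n R (Real.sqrt (2 * ρ + a ^ 2)) < kerK n R R + e := by
      rw [← h', Real.sqrt_sq hR.le]
      linarith
    filter_upwards [hc.eventually (Iio_mem_nhds hv)] with x hx
    unfold prof
    split_ifs
    · rw [softPos_of_nonpos he (by
        linarith [show kerK n R (Real.sqrt (2 * x + a ^ 2)) < kerK n R R + e from hx]), mul_zero]
    · rfl

theorem prof_contDiff (hR : 0 < R) (ha : 0 < a) (he : 0 < e) :
    ContDiff ℝ 2 (prof n R a e) := by
  refine contDiff_iff_contDiffAt.2 fun ρ => ?_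
  rcases le_or_gt (R ^ 2) (2 * ρ + a ^ 2) with h | h
  · exact contDiffAt_const.congr_of_eventuallyEq (prof_zero_near hR he h)
  rcases lt_or_ge (1 + 4 * ρ / a ^ 2) 0 with h2 | h2
  · refine (contDiffAt_const (c := (0 : ℝ))).congr_of_eventuallyEq ?_
    have : ∀ᶠ x in 𝓝 ρ, 1 + 4 * x / a ^ 2 < 0 :=
      (by fun_prop : Continuous fun x : ℝ => 1 + 4 * x / a ^ 2).continuousAt.eventually_lt_const h2
    filter_upwards [this] with x hx
    simp [prof, Real.smoothTransition.zero_of_nonpos hx.le]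
  have h3 : 0 < 2 * ρ + a ^ 2 := by
    have : -(a ^ 2) ≤ 4 * ρ := by
      rw [← sub_nonneg] at h2 ⊢
      have := mul_nonneg h2 (sq_nonneg a)
      field_simp at this
      linarith
    nlinarith
  have hev : prof n R a e =ᶠ[𝓝 ρ] fun x => Real.smoothTransition (1 + 4 * x / a ^ 2) *
      softPos e (kerK n R (Real.sqrt (2 * x + a ^ 2)) - kerK n R R - e) := by
    filter_upwards [(by fun_prop : Continuous fun x : ℝ => 2 * x + a ^ 2).continuousAt.eventually_lt_const
      h] with x hx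
    simp only [prof, if_pos hx]
  refine ContDiffAt.congr_of_eventuallyEq ?_ hev
  have hs : ContDiffAt ℝ 2 (fun x : ℝ => Real.sqrt (2 * x + a ^ 2)) ρ :=
    (contDiffAt_id.const_smul (2 : ℝ) |>.add contDiffAt_const).sqrt (by simpa using h3.ne')
  have hq : 0 < 1 - (Real.sqrt (2 * ρ + a ^ 2) / R) ^ 2 := by
    rw [div_pow, Real.sq_sqrt h3.le, sub_pos, div_lt_one (by positivity)]
    exact h
  have hw : ContDiffAt ℝ 2 (fun x : ℝ => cosR R (Real.sqrt (2 * x + a ^ 2))) ρ :=
    (contDiffAt_const.sub ((hs.div_const R).pow 2)).sqrt hq.ne'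
  have hK : ContDiffAt ℝ 2 (fun x : ℝ => kerK n R (Real.sqrt (2 * x + a ^ 2))) ρ :=
    ((((contDiffAt_const.add hw).sqrt (by
      have : 0 ≤ cosR R (Real.sqrt (2 * ρ + a ^ 2)) := Real.sqrt_nonneg _
      show (1 : ℝ) + _ ≠ 0
      linarith)).div (hw.div_const 2).exp (Real.exp_pos _).ne').div hs
        (Real.sqrt_pos.2 h3).ne').pow _
  refine ((Real.smoothTransition.contDiffAt).comp ρ
    (contDiffAt_const.add ((contDiffAt_const.mul contDiffAt_id).div_const _))).mul ?_
  exact ((softPos_contDiff e).of_le ENat.LEInfty.out).contDiffAt.comp ρ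
    ((hK.sub contDiffAt_const).sub contDiffAt_const)

theorem prof_deriv (hn : 2 ≤ n) (hR : 0 < R) (ha : 0 < a) {ρ : ℝ} (hρ : 0 ≤ ρ)
    (h : 2 * ρ + a ^ 2 < R ^ 2) :
    HasDerivAt (prof n R a e)
      (Real.smoothTransition ((kerK n R (Real.sqrt (2 * ρ + a ^ 2)) - kerK n R R - e) / e) *
        (-(kerK n R (Real.sqrt (2 * ρ + a ^ 2)) *
          (((n : ℝ) - 1) * uFac R (Real.sqrt (2 * ρ + a ^ 2)) / Real.sqrt (2 * ρ + a ^ 2))) *
          (1 / Real.sqrt (2 * ρ + a ^ 2)))) ρ := by
  set s := Real.sqrt (2 * ρ + a ^ 2) with hs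
  have hs0 : 0 < s := Real.sqrt_pos.2 (by positivity)
  have hsR : s < R := by
    rw [← Real.sqrt_sq hR.le]
    exact Real.sqrt_lt_sqrt (by positivity) h
  have hT : Real.smoothTransition (1 + 4 * ρ / a ^ 2) = 1 :=
    Real.smoothTransition.one_of_one_le (le_add_of_nonneg_right (by positivity))
  have hS : HasDerivAt (fun x : ℝ => Real.sqrt (2 * x + a ^ 2)) (1 / s) ρ := by
    have := (((hasDerivAt_id ρ).const_mul 2).add_const (a ^ 2)).sqrt
      (show 2 * id ρ + a ^ 2 ≠ 0 by simp; positivity)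
    refine this.congr_deriv ?_
    simp only [id_eq, ← hs]
    field_simp
  set v := -(kerK n R s * (((n : ℝ) - 1) * uFac R s / s)) * (1 / s)
  have hK : HasDerivAt (fun x : ℝ => kerK n R (Real.sqrt (2 * x + a ^ 2))) v ρ :=
    HasDerivAt.comp (h₂ := kerK n R) (h := fun x : ℝ => Real.sqrt (2 * x + a ^ 2)) ρ
      (kerK_deriv hn hR hs0 hsR) hS
  have hin : HasDerivAt (fun x : ℝ => kerK n R (Real.sqrt (2 * x + a ^ 2)) - kerK n R R - e) v ρ :=
    (hK.sub_const (kerK n R R)).sub_const e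
  have hU : HasDerivAt
      (fun x : ℝ => softPos e (kerK n R (Real.sqrt (2 * x + a ^ 2)) - kerK n R R - e))
      (Real.smoothTransition ((kerK n R s - kerK n R R - e) / e) * v) ρ :=
    HasDerivAt.comp (h₂ := softPos e)
      (h := fun x : ℝ => kerK n R (Real.sqrt (2 * x + a ^ 2)) - kerK n R R - e) ρ
      (softPos_deriv e _) hin
  have hX : HasDerivAt (fun x : ℝ => Real.smoothTransition (1 + 4 * x / a ^ 2)) 0 ρ := by
    have hd0 : DifferentiableAt ℝ (fun x : ℝ => Real.smoothTransition (1 + 4 * x / a ^ 2)) ρ :=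
      ((Real.smoothTransition.contDiff (n := 1)).differentiable (by simp)).differentiableAt.comp ρ
        (by fun_prop)
    have hmax : IsLocalMax (fun x : ℝ => Real.smoothTransition (1 + 4 * x / a ^ 2)) ρ :=
      Filter.Eventually.of_forall fun x => by
        simp only [hT]
        exact Real.smoothTransition.le_one _
    rw [← hmax.deriv_eq_zero]
    exact hd0.hasDerivAt
  have hm := hX.mul hU
  simp only [hT, zero_mul, zero_add, one_mul] at hm
  refine hm.congr_of_eventuallyEq ?_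
  filter_upwards [(by fun_prop : Continuous fun x : ℝ => 2 * x + a ^ 2).continuousAt.eventually_lt_const
    h] with x hx
  simp [prof, hx]

theorem prof_facts (hn : 2 ≤ n) (hR : 0 < R) (ha : 0 < a) (he : 0 < e) {ρ : ℝ} (hρ : 0 ≤ ρ) :
    deriv (prof n R a e) ρ ≤ 0 ∧
    (∀ p : ℝ, ((n : ℝ) - 1) / R * prof n R a e ρ * p ≤ -deriv (prof n R a e) ρ * p ^ 2 +
      ((n : ℝ) - 1) * (1 - uFac R (Real.sqrt (2 * ρ + a ^ 2))) * prof n R a e ρ) ∧
    -(((n : ℝ) - 1) * (kerK n R R + 2 * e)) +
      (if 2 * ρ + a ^ 2 < R ^ 2 ∧ kerK n R R + 2 * e ≤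
          kerK n R (Real.sqrt (2 * ρ + a ^ 2)) then
        ((n : ℝ) - 1) / 2 * (a ^ 2 / (2 * ρ + a ^ 2)) *
          kerK n R (Real.sqrt (2 * ρ + a ^ 2)) else 0) ≤ profTh n R a e ρ := by
  have hn1 : (1 : ℝ) ≤ (n : ℝ) - 1 := by
    have : (2 : ℝ) ≤ n := by exact_mod_cast hn
    linarith
  have hKR0 : 0 < kerK n R R := kerK_pos n R hR
  rcases le_or_gt (R ^ 2) (2 * ρ + a ^ 2) with h | h
  · rw [profTh, (prof_zero_near hR he h).deriv_eq, prof_of_ge h, deriv_const, if_neg fun hh =>
      absurd hh.1 (not_lt.2 h)]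
    refine ⟨le_rfl, fun p => by simp, ?_⟩
    nlinarith
  set KR := kerK n R R with hKR
  set s := Real.sqrt (2 * ρ + a ^ 2) with hs
  have hs2 : s ^ 2 = 2 * ρ + a ^ 2 := Real.sq_sqrt (by positivity)
  have hs0 : 0 < s := Real.sqrt_pos.2 (by positivity)
  have hsR : s < R := by
    rw [← Real.sqrt_sq hR.le]
    exact Real.sqrt_lt_sqrt (by positivity) h
  have hT : Real.smoothTransition (1 + 4 * ρ / a ^ 2) = 1 :=
    Real.smoothTransition.one_of_one_le (le_add_of_nonneg_right (by positivity))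
  set K := kerK n R s with hK
  set U := uFac R s with hUd
  obtain ⟨hU1, hU2⟩ := uFac_bounds R s
  rw [← hUd] at hU1 hU2
  set u := K - KR - e with hu
  set w := Real.smoothTransition (u / e) with hw
  have hw0 : 0 ≤ w := Real.smoothTransition.nonneg _
  have hw1 : w ≤ 1 := Real.smoothTransition.le_one _
  have hK0 : 0 < K := kerK_pos n R hs0
  have hd : HasDerivAt (prof n R a e) (w * (-(K * (((n : ℝ) - 1) * U / s)) * (1 / s))) ρ :=
    prof_deriv hn hR ha hρ h
  have hp : prof n R a e ρ = softPos e u := by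
    simp [prof, h, hT, hu, hK, hKR, hs]
  rw [profTh, hd.deriv, hp, ← hs, ← hUd]
  set η := softPos e u with hη
  have hη0 : 0 ≤ η := softPos_nonneg he u
  have hgap : w * u - η ≤ e := softPos_gap he u
  have hηw : η ≤ w * K := by
    rcases le_or_gt u 0 with h0 | h0
    · rw [hη, softPos_of_nonpos he h0]
      positivity
    · refine (softPos_le he h0.le).trans (mul_le_mul_of_nonneg_left ?_ hw0)
      linarith
  have hU0 : 0 < U := by linarith
  refine ⟨?_, fun p => ?_, ?_⟩
  · have : 0 ≤ w * (K * (((n : ℝ) - 1) * U / s) * (1 / s)) := by positivity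
    linarith
  · have hid := uFac_identity hR (show |s| ≤ R by rw [abs_of_pos hs0]; exact hsR.le)
    rw [← hUd] at hid
    have hq : p / R ≤ U / s ^ 2 * p ^ 2 + (1 - U) := by
      have e1 : U / s ^ 2 * p ^ 2 + (1 - U) - p / R = U / s ^ 2 * (p - s ^ 2 / (2 * U * R)) ^ 2 +
          (U * (1 - U) - s ^ 2 / (4 * R ^ 2)) / U := by
        field_simp
        ring
      rw [hid, sub_self, zero_div, add_zero] at e1
      have : 0 ≤ U / s ^ 2 * (p - s ^ 2 / (2 * U * R)) ^ 2 := by positivity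
      linarith
    calc ((n : ℝ) - 1) / R * η * p = ((n : ℝ) - 1) * η * (p / R) := by ring
      _ ≤ ((n : ℝ) - 1) * η * (U / s ^ 2 * p ^ 2 + (1 - U)) := by gcongr
      _ = η * (((n : ℝ) - 1) * U / s ^ 2 * p ^ 2) + ((n : ℝ) - 1) * (1 - U) * η := by ring
      _ ≤ w * K * (((n : ℝ) - 1) * U / s ^ 2 * p ^ 2) + ((n : ℝ) - 1) * (1 - U) * η := by gcongr
      _ = _ := by field_simp
  · have e4 : ((n : ℝ) - 1) * U * η + 2 * ρ * (w * (-(K * (((n : ℝ) - 1) * U / s)) * (1 / s))) =
        ((n : ℝ) - 1) * U * (w * (a ^ 2 / s ^ 2) * K - (w * K - η)) := by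
      rw [show 2 * ρ = s ^ 2 - a ^ 2 by linarith]
      field_simp
      ring
    rw [e4]
    have e5 : w * K - η ≤ KR + 2 * e := by
      have : w * (KR + e) ≤ KR + e := mul_le_of_le_one_left (by positivity) hw1
      have : w * K = w * u + w * (KR + e) := by rw [hu]; ring
      linarith
    have e6 : ((n : ℝ) - 1) * U * (w * K - η) ≤ ((n : ℝ) - 1) * (KR + 2 * e) :=
      (mul_le_mul_of_nonneg_left e5 (by positivity)).trans (mul_le_mul_of_nonneg_right
        (mul_le_of_le_one_right (by linarith) hU2) (by positivity))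
    have hA : 0 ≤ a ^ 2 / s ^ 2 * K := by positivity
    have e7 : ((n : ℝ) - 1) / 2 * (w * (a ^ 2 / s ^ 2 * K)) ≤
        ((n : ℝ) - 1) * U * (w * (a ^ 2 / s ^ 2 * K)) :=
      mul_le_mul_of_nonneg_right (by nlinarith) (mul_nonneg hw0 hA)
    split_ifs with hc
    · have hw' : w = 1 :=
        Real.smoothTransition.one_of_one_le ((one_le_div he).2 (by linarith [hc.2]))
      rw [hw'] at e6 e7 ⊢
      rw [← hs2]
      linarith
    · have : 0 ≤ ((n : ℝ) - 1) / 2 * (w * (a ^ 2 / s ^ 2 * K)) := by positivity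
      linarith

/-- The kernel dominates a Gaussian. -/
theorem kernel_gauss (hn : 2 ≤ n) (R : ℝ) (ha : 0 < a) {ρ : ℝ} (hρ : 0 ≤ ρ) :
    kap ^ (n - 1) * (Real.sqrt (2 * Real.exp 1 / ((n : ℝ) + 1)) ^ (n + 1) / Real.exp 1 *
        Real.exp (-(2 * ρ / a ^ 2)) / a ^ (n - 1)) ≤
      a ^ 2 / (2 * ρ + a ^ 2) * kerK n R (Real.sqrt (2 * ρ + a ^ 2)) := by
  set x := 2 * ρ / a ^ 2 with hx
  set q := Real.sqrt (1 + x) with hq
  have hx0 : 0 ≤ x := by positivity
  have hq0 : 0 < q := Real.sqrt_pos.2 (by linarith)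
  have hs : Real.sqrt (2 * ρ + a ^ 2) = a * q := by
    rw [hq, ← Real.sqrt_sq ha.le, ← Real.sqrt_mul (sq_nonneg a), Real.sqrt_sq ha.le, hx]
    congr 1
    field_simp
    ring
  have hb : (q * Real.sqrt (2 * Real.exp 1 / ((n : ℝ) + 1))) ^ (n + 1) ≤ Real.exp (1 + x) := by
    have h1 : q * Real.sqrt (2 * Real.exp 1 / ((n : ℝ) + 1)) ≤
        Real.exp ((1 + x) / ((n : ℝ) + 1)) := by
      rw [hq, ← Real.sqrt_mul (by linarith),
        show Real.exp ((1 + x) / ((n : ℝ) + 1)) = Real.sqrt (Real.exp (2 * (1 + x) / ((n : ℝ) + 1))) by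
          rw [← Real.exp_half]; congr 1; ring]
      refine Real.sqrt_le_sqrt ?_
      have := mul_le_mul_of_nonneg_left (Real.add_one_le_exp (2 * (1 + x) / ((n : ℝ) + 1) - 1))
        (Real.exp_pos 1).le
      rw [← Real.exp_add] at this
      refine le_trans (le_of_eq ?_) (this.trans_eq (by congr 1; ring))
      ring
    refine (pow_le_pow_left₀ (by positivity) h1 _).trans_eq ?_
    rw [← Real.exp_nat_mul]
    congr 1
    push_cast
    field_simp
  have hK : kap ^ (n - 1) / (a * q) ^ (n - 1) ≤ kerK n R (a * q) := by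
    rw [← div_pow]
    exact kerK_lower n R (mul_pos ha hq0)
  rw [hs, show 2 * ρ + a ^ 2 = (a * q) ^ 2 by rw [← hs, Real.sq_sqrt]; positivity]
  refine le_trans ?_ (mul_le_mul_of_nonneg_left hK (by positivity))
  rw [div_eq_mul_one_div (kap ^ (n - 1)), mul_left_comm ((a : ℝ) ^ 2 / (a * q) ^ 2)]
  refine mul_le_mul_of_nonneg_left ?_ (pow_nonneg kap_pos.le _)
  rw [mul_pow, Real.exp_add] at hb
  obtain ⟨m, rfl⟩ := Nat.exists_eq_add_of_le hn
  rw [show 2 + m - 1 = m + 1 by omega, Real.exp_neg, mul_pow, mul_pow]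
  rw [show (2 : ℕ) + m + 1 = m + 3 by omega] at hb ⊢
  field_simp
  rw [div_le_iff₀ (by positivity)] at *
  rw [show q ^ (m + 3) = q ^ 2 * q ^ (m + 1) by ring] at hb
  linarith

end

end Vale.Agent.P219.Univ
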