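import Mathlib
import Vale.Agent.P219.Univ.Kernel
import Vale.Agent.P219.Univ.PerBasics
import Vale.Agent.P219.Univ.FirstVar
import Vale.Agent.P219.Univ.Exist

/-!
# The monotonicity inequality of a minimizer
-/

open MeasureTheory Filter Topology Set
open scoped ENNReal ContDiff

namespace Vale.Agent.P219.Univ

open Vale.Agent.P219

noncomputable section

variable {n : ℕ} {g : MetricField n} {b R a e : ℝ} {o : Space n} {ψ : Space n → ℝ}

/-- The radial contraction field. -/
def radField (g : MetricField n) (ψ : Space n → ℝ) (R a e : ℝ) (y : Space n) : Space n :=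
  prof n R a e (ψ y) • gGrad g ψ y

/-- The weight left over by the monotonicity kernel. -/
def hker (n : ℕ) (R a e ρ : ℝ) : ℝ :=
  if 2 * ρ + a ^ 2 < R ^ 2 ∧ kerK n R R + 2 * e ≤
      kerK n R (Real.sqrt (2 * ρ + a ^ 2)) then
    ((n : ℝ) - 1) / 2 * (a ^ 2 / (2 * ρ + a ^ 2)) *
      kerK n R (Real.sqrt (2 * ρ + a ^ 2)) else 0

theorem hker_nonneg (hn : 2 ≤ n) (ha : 0 < a) {ρ : ℝ} (hρ : 0 ≤ ρ) : 0 ≤ hker n R a e ρ := by
  have : (2 : ℝ) ≤ n := by exact_mod_cast hn
  have h1 : (0 : ℝ) ≤ (n : ℝ) - 1 := by linarith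
  have h2 := (kerK_pos n R
    (Real.sqrt_pos.2 (show 0 < 2 * ρ + a ^ 2 by positivity))).le
  unfold hker
  split_ifs
  · positivity
  · exact le_rfl

theorem contDiff_radField (hn : 2 ≤ n) (hg : IsMetric g) (hψ : Pot g b o ψ) (hR : 0 < R)
    (ha : 0 < a) (he : 0 < e) : ContDiff ℝ 2 (radField g ψ R a e) :=
  ((prof_contDiff hR ha he).comp (hψ.smooth.of_le ENat.LEInfty.out)).smul
    ((contDiff_gGrad hg hψ.smooth).of_le ENat.LEInfty.out)

theorem prof_zero_out {ρ : ℝ} (h : R ^ 2 < ρ) : prof n R a e ρ = 0 :=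
  prof_of_ge (by nlinarith [sq_nonneg a, sq_nonneg R])

theorem compact_radField (hψ : Pot g b o ψ) : HasCompactSupport (radField g ψ R a e) :=
  HasCompactSupport.intro (hψ.compact (R ^ 2)) fun x hx => by
    simp [radField, prof_zero_out (not_le.1 hx)]

theorem gNorm_radField (hg : IsMetric g) (hψ : Pot g b o ψ) (he : 0 < e) (x : Space n) :
    gNorm g x (radField g ψ R a e x) ≤ prof n R a e (ψ x) * Real.sqrt (2 * ψ x) := by
  rw [radField, gNorm_smul, abs_of_nonneg (prof_nonneg he _)]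
  refine mul_le_mul_of_nonneg_left ?_ (prof_nonneg he _)
  rw [← Real.sqrt_sq (gNorm_nonneg g x (gGrad g ψ x))]
  exact Real.sqrt_le_sqrt (hψ.grad x)

theorem wPer_smul_le (hg : IsMetric g) {c : ℝ} (hc : 0 ≤ c) (w : Space n → ℝ) (E : Set (Space n)) :
    ENNReal.ofReal c * wPer g w E ≤ wPer g (fun x => c * w x) E := by
  conv_lhs => rw [wPer]
  simp only [ENNReal.mul_iSup]
  refine iSup₂_le fun Y hY => ?_
  have h := le_wPer (g := g) (E := E) (hY.1.const_smul c) (hY.2.1.smul_left (f := fun _ => c))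
    (w := fun x => c * w x) fun x => by
      rw [gNorm_smul, abs_of_nonneg hc]
      exact mul_le_mul_of_nonneg_left (hY.2.2 x) hc
  refine le_trans ?_ h
  rw [← ENNReal.ofReal_mul hc, ← integral_const_mul]
  refine ENNReal.ofReal_le_ofReal (le_of_eq (integral_congr_ae (ae_of_all _ fun x => ?_)))
  simp only [smul_comm (dens g _) c]
  rw [divg_const_smul ((contDiff_weighted hg hY.1).differentiable one_ne_zero x)]

/-- The exact constant of the kernel. -/
def cKer (n : ℕ) (R e : ℝ) : ℝ := ((n : ℝ) - 1) * (kerK n R R + 2 * e)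

theorem div_lower (hn : 2 ≤ n) (hg : IsMetric g) (hψ : Pot g b o ψ) (hR : 0 < R)
    (ha : 0 < a) (he : 0 < e) {ηp : ℝ} (hη : 0 ≤ ηp) (hηR : ηp * R ≤ 1) {P : Space n → ℝ}
    (hP : ContDiff ℝ ∞ P) (hP1 : ∀ x, 1 ≤ P x)
    (hPd : ∀ x v, |fderiv ℝ P x v| ≤ ηp * P x * gNorm g x v) (x : Space n) :
    -(cKer n R e) * P x ≤ gDiv g (fun y => P y • radField g ψ R a e y) x := by
  set η := prof n R a e (ψ x)
  have hη0 : 0 ≤ η := prof_nonneg he _
  obtain ⟨hd, -, hf⟩ := prof_facts hn hR ha he (hψ.nonneg x)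
  have hh := hker_nonneg (R := R) (e := e) hn ha (hψ.nonneg x)
  have hn1 : (0 : ℝ) ≤ (n : ℝ) - 1 := by
    have : (2 : ℝ) ≤ n := by exact_mod_cast hn
    linarith
  rw [gDiv_smul hg (hP.differentiable (by simp) x)
    ((contDiff_radField hn hg hψ hR ha he).differentiable (by norm_num) x)]
  have h1 : (n : ℝ) * η + 2 * ψ x * deriv (prof n R a e) (ψ x) ≤
      gDiv g (radField g ψ R a e) x :=
    (radial_div hg hψ (prof_contDiff hR ha he) x hη0 hd).2
  have hP0 : 0 ≤ P x := le_trans zero_le_one (hP1 x)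
  have h2 : ηp * gNorm g x (radField g ψ R a e x) ≤ η := by
    refine (mul_le_mul_of_nonneg_left (gNorm_radField hg hψ he x) hη).trans ?_
    rcases le_or_gt (R ^ 2) (2 * ψ x + a ^ 2) with hc | hc
    · simp [η, prof_of_ge hc]
    have hr : Real.sqrt (2 * ψ x) ≤ R := by
      rw [← Real.sqrt_sq hR.le]
      exact Real.sqrt_le_sqrt (by nlinarith)
    calc ηp * (η * Real.sqrt (2 * ψ x)) ≤ ηp * (η * R) := by gcongr
      _ = η * (ηp * R) := by ring
      _ ≤ η := mul_le_of_le_one_right hη0 hηR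
  have h3 := (abs_le.1 (hPd x (radField g ψ R a e x))).1
  have h4 : -(cKer n R e) + η ≤ (n : ℝ) * η + 2 * ψ x * deriv (prof n R a e) (ψ x) := by
    simp only [hker] at hh
    have hu := mul_le_mul_of_nonneg_left (uFac_bounds R (Real.sqrt (2 * ψ x + a ^ 2))).2
      (mul_nonneg hn1 hη0)
    unfold cKer
    unfold profTh at hf
    linarith
  nlinarith [mul_le_mul_of_nonneg_left (h4.trans h1) hP0, mul_le_mul_of_nonneg_left h2 hP0]

/-- The perimeter of a minimizer weighted by the kernel is controlled by its energy. -/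
theorem variation (hn : 2 ≤ n) (hg : IsMetric g) (hψ : Pot g b o ψ) (ha : 0 < a) (he : 0 < e)
    {C ε ηp : ℝ} (hC : 0 < C) (hε : 0 < ε) (hη : 0 ≤ ηp) {P : Space n → ℝ}
    (hP : ContDiff ℝ ∞ P) (hP1 : ∀ x, 1 ≤ P x)
    (hPd : ∀ x v, |fderiv ℝ P x v| ≤ ηp * P x * gNorm g x v)
    {E : Set (Space n)} (hE : Admissible g P E) (hV : 0 < gVol g E)
    (hR : R = n * gVol g E ^ ((n : ℝ)⁻¹) / C) (hηR : ηp * R ≤ 1)
    (hmin : ∀ E', Admissible g P E' →
      energy g P ε C (1 - (n : ℝ)⁻¹) E ≤ energy g P ε C (1 - (n : ℝ)⁻¹) E') :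
    wPer g (fun x => hker n R a e (ψ x)) E ≠ ⊤ ∧
      (wPer g (fun x => hker n R a e (ψ x)) E).toReal ≤
        cKer n R e * ((gPer g E).toReal + ε * gInt g E P) := by
  obtain ⟨hEm, hEi, hEP⟩ := hE
  have hn2 : (2 : ℝ) ≤ n := by exact_mod_cast hn
  have hVr : 0 < gVol g E ^ ((n : ℝ)⁻¹) := Real.rpow_pos_of_pos hV _
  have hR0 : 0 < R := by rw [hR]; positivity
  set l := ((n : ℝ) - 1) / R with hl
  have hl0 : 0 ≤ l := div_nonneg (by linarith) hR0.le
  set X := radField g ψ R a e with hX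
  have hX2 : ContDiff ℝ 2 X := contDiff_radField hn hg hψ hR0 ha he
  have hXc : HasCompactSupport X := compact_radField hψ
  have hX1 : ContDiff ℝ 1 X := hX2.of_le (by norm_num)
  set pη : Space n → ℝ := fun x => prof n R a e (ψ x)
  set θ : Space n → ℝ := fun x => profTh n R a e (ψ x) with hθdef
  set Λ : Space n → ℝ := fun x =>
    ((n : ℝ) - 1) * pη x + 2 * ψ x * deriv (prof n R a e) (ψ x)
  have hηc : Continuous pη := (prof_contDiff hR0 ha he).continuous.comp hψ.smooth.continuous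
  have hdc : Continuous fun x => 2 * ψ x * deriv (prof n R a e) (ψ x) :=
    (continuous_const.mul hψ.smooth.continuous).mul
      (((prof_contDiff hR0 ha he).continuous_deriv (by norm_num)).comp hψ.smooth.continuous)
  have hθc : Continuous θ := by
    have hsc : Continuous fun x => Real.sqrt (2 * ψ x + a ^ 2) :=
      ((continuous_const.mul hψ.smooth.continuous).add continuous_const).sqrt
    have hu : Continuous fun x => uFac R (Real.sqrt (2 * ψ x + a ^ 2)) :=
      (continuous_const.add (continuous_const.sub ((hsc.div_const R).pow 2)).sqrt).div_const 2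
    exact ((continuous_const.mul hu).mul hηc).add hdc
  have hΛc : Continuous Λ := (continuous_const.mul hηc).add hdc
  have hθs : ∀ x v, θ x + l * g x (X x) v + Λ x * (g x v v - 1) ≤
      gDiv g X x * g x v v - g x (cov g X x v) v := fun x v => by
    obtain ⟨hd, hq, -⟩ := prof_facts hn hR0 ha he (hψ.nonneg x)
    refine le_trans ?_ ((radial_div hg hψ (prof_contDiff hR0 ha he) x (prof_nonneg he _) hd).1 v)
    have hXv : g x (X x) v = pη x * fderiv ℝ ψ x v := by
      simp [hX, radField, pη, gGrad_dual hg]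
    have := hq (fderiv ℝ ψ x v)
    rw [hXv]
    simp only [hθdef, Λ, pη, profTh, hl]
    linarith
  have hθ0 : ∀ x, x ∉ {x | ψ x ≤ R ^ 2} → θ x = 0 := fun x hx => by
    have hlt : R ^ 2 < ψ x := not_le.1 hx
    have hge : R ^ 2 ≤ 2 * ψ x + a ^ 2 := by nlinarith [sq_nonneg a, sq_nonneg R]
    simp [hθdef, profTh, prof_of_ge hge, (prof_zero_near hR0 he hge).deriv_eq]
  obtain ⟨Bθ, hBθ⟩ := (HasCompactSupport.intro (hψ.compact (R ^ 2)) hθ0).exists_bound_of_continuous hθc
  set W := wPer g (fun x => hker n R a e (ψ x)) E with hW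
  set c := cKer n R e with hc
  have hc0 : 0 ≤ c := mul_nonneg (by linarith)
    (by linarith [kerK_pos n R hR0])
  set D := gInt g E (gDiv g X) with hD
  set DP := gInt g E (gDiv g fun x => P x • X x) with hDP
  have hDPlow : -c * gInt g E P ≤ DP := by
    have hPX : ContDiff ℝ 1 fun x => P x • X x := (hP.of_le (by simp)).smul hX1
    rw [hDP, gInt_gDiv hg]
    unfold gInt
    rw [← integral_const_mul]
    refine setIntegral_mono_on (hEi.const_mul _) ?_ hEm fun x _ => ?_
    · exact (integrable_divg (contDiff_weighted hg hPX)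
        (hasCompactSupport_weighted (hXc.smul_left (f := P)))).integrableOn
    · rw [← gDiv_mul_dens hg, ← mul_assoc]
      exact mul_le_mul_of_nonneg_right (div_lower hn hg hψ hR0 ha he hη hηR hP hP1 hPd x)
        (dens_pos hg x).le
  -- the finite step inequality
  have hdi : IntegrableOn (fun x => dens g x) E := by
    refine Integrable.mono (μ := volume.restrict E) hEi (contDiff_dens hg).continuous.aestronglyMeasurable
      (ae_of_all _ fun x => ?_)
    rw [Real.norm_eq_abs, Real.norm_eq_abs, abs_of_pos (dens_pos hg x),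
      abs_of_nonneg (mul_nonneg (le_trans zero_le_one (hP1 x)) (dens_pos hg x).le)]
    exact le_mul_of_one_le_left (dens_pos hg x).le (hP1 x)
  have hstep : ∀ ε' : ℝ, 0 < ε' → ∀ᶠ t in 𝓝[>] (0 : ℝ),
      Admissible g P (shrinkMap X t '' E) ∧ W ≠ ⊤ ∧
        ((gPer g (shrinkMap X t '' E)).toReal - (gPer g E).toReal) / t ≤
          (ε' + c) * (gPer g E).toReal - l * D - W.toReal := by
    intro ε' hε'
    have hsmall : ∀ᶠ t in 𝓝[>] (0 : ℝ), 0 < t ∧ t * Bθ ≤ 1 := by
      refine (eventually_mem_nhdsWithin (a := (0 : ℝ)) (s := Ioi 0)).and (nhdsWithin_le_nhds ?_)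
      exact ((continuous_id.mul continuous_const).tendsto' (0 : ℝ) (0 * Bθ) rfl).eventually
        (eventually_le_nhds (by norm_num))
    filter_upwards [per_shrink hg hX2 hXc hθc hΛc hθs hEm hε', hsmall,
      (int_shrink hg hX2 hXc (hP.of_le (by simp)) hEm hEi).1] with t ⟨htm, htP⟩ ⟨ht, htB⟩ hti
    have hw1 : ∀ x, 0 ≤ 1 + t * ε' - t * θ x := fun x => by
      have h1 : θ x ≤ Bθ := (le_abs_self _).trans (hBθ x)
      nlinarith [mul_le_mul_of_nonneg_left h1 ht.le, mul_pos ht hε']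
    have hH : ∀ x, 0 ≤ t * hker n R a e (ψ x) := fun x =>
      mul_nonneg ht.le (hker_nonneg hn ha (hψ.nonneg x))
    have hsum : wPer g (fun x => 1 + t * ε' - t * θ x) E +
        wPer g (fun x => t * hker n R a e (ψ x)) E ≤ ENNReal.ofReal (1 + t * (ε' + c)) * gPer g E := by
      refine le_trans (wPer_add_le hg hw1 hH E) ?_
      refine (wPer_mono (fun x => ?_) E).trans (wPer_const_le hg (by positivity) E)
      have h' : -c + hker n R a e (ψ x) ≤ θ x := (prof_facts hn hR0 ha he (hψ.nonneg x)).2.2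
      nlinarith [mul_le_mul_of_nonneg_left h' ht.le]
    have hfin : ENNReal.ofReal (1 + t * (ε' + c)) * gPer g E ≠ ⊤ :=
      ENNReal.mul_ne_top ENNReal.ofReal_ne_top hEP
    obtain ⟨h1, h3⟩ := ENNReal.add_ne_top.1 (ne_top_of_le_ne_top hfin hsum)
    have hW3 := wPer_smul_le hg ht.le (fun x => hker n R a e (ψ x)) E
    rw [← hW] at hW3
    have hWfin : W ≠ ⊤ := by
      intro hWt
      rw [hWt, ENNReal.mul_top (by simpa using ht), top_le_iff] at hW3
      exact h3 hW3
    obtain ⟨hPΦ, hA⟩ := htP h1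
    refine ⟨⟨htm, hti, hPΦ⟩, hWfin, ?_⟩
    rw [← hD] at hA
    have hB : t * W.toReal ≤ (wPer g (fun x => t * hker n R a e (ψ x)) E).toReal := by
      have := ENNReal.toReal_mono h3 hW3
      rwa [ENNReal.toReal_mul, ENNReal.toReal_ofReal ht.le] at this
    have hC' := ENNReal.toReal_mono hfin hsum
    rw [ENNReal.toReal_add h1 h3, ENNReal.toReal_mul,
      ENNReal.toReal_ofReal (by positivity)] at hC'
    rw [div_le_iff₀ ht]
    linarith
  -- limits
  obtain ⟨t0, ht0⟩ := (hstep 1 one_pos).exists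
  refine ⟨ht0.2.1, le_of_forall_pos_le_add fun δ hδ => ?_⟩
  set P0 := (gPer g E).toReal
  have hP0 : 0 ≤ P0 := ENNReal.toReal_nonneg
  set ε' := δ / (P0 + 1)
  have hε' : 0 < ε' := by positivity
  have hshrink0 : shrinkMap X 0 '' E = E := by
    rw [show shrinkMap X 0 = id from funext fun x => by simp [shrinkMap]]
    exact image_id E
  set Vf : ℝ → ℝ := fun t => gVol g (shrinkMap X t '' E)
  have hVd : HasDerivWithinAt Vf (-D) (Ioi 0) 0 := by
    rw [hasDerivWithinAt_iff_tendsto_slope' self_notMem_Ioi]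
    have h := (int_shrink hg hX2 hXc (contDiff_const (c := (1 : ℝ))) hEm (by simpa using hdi)).2
    have e1 : gDiv g (fun x => (1 : ℝ) • X x) = gDiv g X := by simp
    rw [e1, ← hD] at h
    refine h.congr fun t => ?_
    simp [slope_def_field, Vf, hshrink0, gInt, gVol]
  have hfd : HasDerivWithinAt (fun t => Vf t ^ (1 - (n : ℝ)⁻¹))
      ((1 - (n : ℝ)⁻¹) * gVol g E ^ (1 - (n : ℝ)⁻¹ - 1) * -D) (Ioi 0) 0 := by
    have h0 : Vf 0 = gVol g E := by simp [Vf, hshrink0]
    have h := (Real.hasDerivAt_rpow_const (p := 1 - (n : ℝ)⁻¹) (Or.inl hV.ne')).comp_hasDerivWithinAt_of_eq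
      (x := (0 : ℝ)) (hh := hVd) h0.symm
    exact h
  rw [hasDerivWithinAt_iff_tendsto_slope' self_notMem_Ioi] at hfd
  have hPt := (int_shrink hg hX2 hXc (hP.of_le (by simp)) hEm hEi).2
  rw [← hDP] at hPt
  have hlim : Tendsto (fun t => (ε' + c) * P0 - l * D - W.toReal +
      ε * ((gInt g (shrinkMap X t '' E) P - gInt g E P) / t) -
        C * slope (fun t => Vf t ^ (1 - (n : ℝ)⁻¹)) 0 t) (𝓝[>] (0 : ℝ))
      (𝓝 ((ε' + c) * P0 - l * D - W.toReal + ε * -DP -
        C * ((1 - (n : ℝ)⁻¹) * gVol g E ^ (1 - (n : ℝ)⁻¹ - 1) * -D))) :=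
    ((hPt.const_mul ε).const_add _).sub (hfd.const_mul C)
  have hpos : ∀ᶠ t in 𝓝[>] (0 : ℝ), 0 ≤ (ε' + c) * P0 - l * D - W.toReal +
      ε * ((gInt g (shrinkMap X t '' E) P - gInt g E P) / t) -
        C * slope (fun t => Vf t ^ (1 - (n : ℝ)⁻¹)) 0 t := by
    filter_upwards [hstep ε' hε', self_mem_nhdsWithin] with t ⟨hadm, _, hle⟩ ht
    have hm := hmin _ hadm
    simp only [energy] at hm
    simp only [slope_def_field, sub_zero, Vf, hshrink0]
    rw [div_le_iff₀ ht] at hle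
    refine nonneg_of_mul_nonneg_left ?_ (show 0 < t from ht)
    have e2 : ∀ u v w z : ℝ, (u + ε * (v / t) - C * (w / t) + z) * t =
        u * t + ε * v - C * w + z * t := fun u v w z => by
      field_simp [ne_of_gt (show 0 < t from ht)]
    have := e2 ((ε' + c) * P0 - l * D - W.toReal) (gInt g (shrinkMap X t '' E) P - gInt g E P)
      (gVol g (shrinkMap X t '' E) ^ (1 - (n : ℝ)⁻¹) - gVol g E ^ (1 - (n : ℝ)⁻¹)) 0
    simp only [add_zero, zero_mul] at this
    rw [this]
    linarith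
  have h := ge_of_tendsto hlim hpos
  have hCl : C * ((1 - (n : ℝ)⁻¹) * gVol g E ^ (1 - (n : ℝ)⁻¹ - 1)) = l := by
    rw [hl, hR, show (1 : ℝ) - (n : ℝ)⁻¹ - 1 = -(n : ℝ)⁻¹ by ring, Real.rpow_neg hV.le]
    field_simp
  have h5 : ε' * P0 ≤ δ := by
    simp only [ε']
    rw [div_mul_eq_mul_div, div_le_iff₀ (by positivity)]
    nlinarith
  rw [show C * ((1 - (n : ℝ)⁻¹) * gVol g E ^ (1 - (n : ℝ)⁻¹ - 1) * -D) = l * -D by
    rw [← mul_assoc, hCl]] at h
  nlinarith [mul_le_mul_of_nonneg_left hDPlow hε.le]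

end

end Vale.Agent.P219.Univ
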