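import Mathlib
import Vale.Agent.P219.Univ.Variation
import Vale.Agent.P219.Univ.Local
import Vale.Agent.P219.Univ.Gauss

/-!
# The kernel weight sees a Gaussian perimeter
-/

open MeasureTheory Filter Topology Set Metric
open scoped ENNReal ContDiff

namespace Vale.Agent.P219.Univ

open Vale.Agent.P219

noncomputable section

variable {n : ℕ} {g : MetricField n}

/-- The constant of the Gaussian comparison. -/
def lowC (n : ℕ) : ℝ :=
  kap ^ (n - 1) * ((n : ℝ) - 1) * Real.sqrt (2 * Real.pi) ^ n *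
    (Real.sqrt (2 * Real.exp 1 / ((n : ℝ) + 1)) ^ (n + 1) / Real.exp 1) /
      (32 * Real.sqrt 2 ^ (n - 1))

/-- Outside a ball the Gaussian is exponentially small. -/
theorem gauss_tail {m : ℝ} (hm0 : 0 < m) {o x : Space n} (hm : ∀ v, m * ‖v‖ ^ 2 ≤ g o v v)
    {δ r : ℝ} (hδ : 0 < δ) (hr : 0 ≤ r) (hx : r ≤ ‖x - o‖) :
    gauss g δ o x ≤ Real.exp (-(m * r ^ 2 / (4 * δ ^ 2))) * gauss g (Real.sqrt 2 * δ) o x := by
  unfold gauss
  rw [← Real.exp_add, Real.exp_le_exp, mul_pow, Real.sq_sqrt zero_le_two]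
  have h1 : m * r ^ 2 ≤ g o (x - o) (x - o) :=
    (mul_le_mul_of_nonneg_left (pow_le_pow_left₀ hr hx 2) hm0.le).trans (hm _)
  rw [← sub_nonneg]
  have e : -(m * r ^ 2 / (4 * δ ^ 2)) + -(g o (x - o)) (x - o) / (2 * (2 * δ ^ 2)) -
      -(g o (x - o)) (x - o) / (2 * δ ^ 2) =
      (g o (x - o) (x - o) - m * r ^ 2) / (4 * δ ^ 2) := by
    field_simp
    ring
  rw [e]
  exact div_nonneg (by linarith) (by positivity)

/-- Cutting off a flux field costs an exponentially small amount. -/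
theorem cutoff_flux (hg : IsMetric g) {m : ℝ} (hm0 : 0 < m) {o : Space n}
    (hm : ∀ v, m * ‖v‖ ^ 2 ≤ g o v v) {δ r L : ℝ} (hδ : 0 < δ) (hr : 0 < r)
    {χ : Space n → ℝ} (hχ : ContDiff ℝ ∞ χ) (hχc : HasCompactSupport χ)
    (hχ01 : ∀ x, 0 ≤ χ x ∧ χ x ≤ 1) (hχ1 : ∀ x, ‖x - o‖ < r → χ =ᶠ[𝓝 x] fun _ => 1)
    (hL0 : 0 ≤ L) (hL : ∀ x, ‖fderiv ℝ χ x‖ ≤ L)
    {Y : Space n → Space n} (hY : ContDiff ℝ 1 Y)
    (hYn : ∀ x, gNorm g o (Y x) ≤ δ * gauss g δ o x)
    (hYd : ∀ x, |divg Y x| ≤ gauss g δ o x) {E : Set (Space n)} :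
    (∫ x in E, divg Y x) - (1 + L * δ / Real.sqrt m) * Real.exp (-(m * r ^ 2 / (4 * δ ^ 2))) *
        ∫ x, gauss g (Real.sqrt 2 * δ) o x ≤
      ∫ x in E, divg (fun y => χ y • Y y) x := by
  have hδ2 : 0 < Real.sqrt 2 * δ := by positivity
  have hi := integrable_gauss hg hδ2 o
  have hiY : Integrable (divg Y) :=
    (integrable_gauss hg hδ o).mono' (continuous_divg hY).aestronglyMeasurable (ae_of_all _ hYd)
  have hχ1' : ContDiff ℝ 1 χ := hχ.of_le (by simp)
  have hiX : Integrable (divg fun y => χ y • Y y) :=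
    integrable_divg (hχ1'.smul hY) hχc.smul_right
  set c := (1 + L * δ / Real.sqrt m) * Real.exp (-(m * r ^ 2 / (4 * δ ^ 2))) with hc
  have hc0 : 0 ≤ c := by positivity
  have hpt : ∀ x, divg Y x - divg (fun y => χ y • Y y) x ≤
      c * gauss g (Real.sqrt 2 * δ) o x := by
    intro x
    have hpos : 0 ≤ c * gauss g (Real.sqrt 2 * δ) o x := mul_nonneg hc0 (Real.exp_pos _).le
    rw [divg_smul (hχ1'.differentiable one_ne_zero x) (hY.differentiable one_ne_zero x)]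
    rcases lt_or_ge ‖x - o‖ r with hx | hx
    · rw [(hχ1 x hx).fderiv_eq, (hχ1 x hx).self_of_nhds]
      simpa using hpos
    have hYx : ‖Y x‖ ≤ δ * gauss g δ o x / Real.sqrt m := by
      rw [le_div_iff₀ (Real.sqrt_pos.2 hm0)]
      refine le_trans ?_ (hYn x)
      rw [gNorm, ← Real.sqrt_sq (norm_nonneg (Y x)), ← Real.sqrt_mul (sq_nonneg _), mul_comm]
      exact Real.sqrt_le_sqrt (hm _)
    have h1 : |fderiv ℝ χ x (Y x)| ≤ L * (δ * gauss g δ o x / Real.sqrt m) :=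
      ((fderiv ℝ χ x).le_opNorm (Y x)).trans (mul_le_mul (hL x) hYx (norm_nonneg _) hL0)
    have h2 : |(1 - χ x) * divg Y x| ≤ gauss g δ o x := by
      rw [abs_mul]
      refine (mul_le_of_le_one_left (abs_nonneg _) ?_).trans (hYd x)
      rw [abs_le]
      constructor <;> linarith [(hχ01 x).1, (hχ01 x).2]
    have h3 := gauss_tail hm0 hm hδ hr.le hx
    have h4 : (1 + L * δ / Real.sqrt m) * gauss g δ o x ≤ c * gauss g (Real.sqrt 2 * δ) o x := by
      rw [hc, mul_assoc]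
      exact mul_le_mul_of_nonneg_left h3 (by positivity)
    have h5 : (1 + L * δ / Real.sqrt m) * gauss g δ o x =
        gauss g δ o x + L * (δ * gauss g δ o x / Real.sqrt m) := by ring
    linarith [(abs_le.1 h1).1, (abs_le.1 h2).2]
  have h : (∫ x in E, divg Y x) - ∫ x in E, divg (fun y => χ y • Y y) x ≤
      ∫ x, c * gauss g (Real.sqrt 2 * δ) o x := by
    rw [← integral_sub hiY.integrableOn hiX.integrableOn]
    refine (setIntegral_mono (hiY.sub hiX).integrableOn (hi.const_mul c).integrableOn hpt).trans ?_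
    exact setIntegral_le_integral (hi.const_mul c)
      (ae_of_all _ fun x => mul_nonneg hc0 (Real.exp_pos _).le)
  rw [integral_const_mul] at h
  linarith

/-- The kernel weight is bounded below by a Gaussian. -/
theorem hker_lower (hn : 2 ≤ n) {R a e : ℝ} (ha : 0 < a) {ρ : ℝ} (hρ : 0 ≤ ρ)
    (h1 : 2 * ρ + a ^ 2 < R ^ 2) (h2 : kerK n R R + 2 * e ≤
      kerK n R (Real.sqrt (2 * ρ + a ^ 2))) :
    kap ^ (n - 1) * ((n : ℝ) - 1) / 2 *
        (Real.sqrt (2 * Real.exp 1 / ((n : ℝ) + 1)) ^ (n + 1) / Real.exp 1) /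
        a ^ (n - 1) * Real.exp (-(2 * ρ / a ^ 2)) ≤ hker n R a e ρ := by
  have hn2 : (2 : ℝ) ≤ n := by exact_mod_cast hn
  rw [hker, if_pos ⟨h1, h2⟩, mul_assoc (((n : ℝ) - 1) / 2) (a ^ 2 / (2 * ρ + a ^ 2))]
  refine le_trans (le_of_eq ?_) (mul_le_mul_of_nonneg_left
    (kernel_gauss hn R ha hρ) (by linarith))
  ring

/-- The parameters which are small enough. -/
theorem small_params (n : ℕ) {τ m ρ s0 : ℝ} (hτ : 0 < τ) (hm0 : 0 < m) (hρ : 0 < ρ) (hs0 : 0 < s0)
    (L : ℝ) :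
    ∀ᶠ δ in 𝓝[>] (0 : ℝ), 0 < δ ∧ 4 * (1 + τ) * δ ^ 2 ≤ s0 ^ 2 ∧
      (1 + |L| * δ / Real.sqrt m) * Real.exp (-(m * (ρ / 2) ^ 2 / (4 * δ ^ 2))) * Real.sqrt 2 ^ n
        ≤ 1 / 32 := by
  refine (eventually_mem_nhdsWithin (a := (0 : ℝ)) (s := Ioi 0)).and
    (Eventually.and ?_ ?_)
  · exact nhdsWithin_le_nhds (((by fun_prop : Continuous fun δ : ℝ => 4 * (1 + τ) * δ ^ 2).tendsto'
      0 0 (by simp)).eventually (eventually_le_nhds (by positivity)))
  · have h1 : Tendsto (fun δ : ℝ => Real.exp (-(m * (ρ / 2) ^ 2 / (4 * δ ^ 2)))) (𝓝[>] 0)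
        (𝓝 0) := by
      refine Real.tendsto_exp_atBot.comp (tendsto_neg_atTop_atBot.comp ?_)
      have h2 : Tendsto (fun δ : ℝ => 4 * δ ^ 2) (𝓝[>] 0) (𝓝[>] 0) := by
        refine tendsto_nhdsWithin_iff.2 ⟨?_, ?_⟩
        · exact ((by fun_prop : Continuous fun δ : ℝ => 4 * δ ^ 2).tendsto' 0 0
            (by simp)).mono_left nhdsWithin_le_nhds
        · filter_upwards [self_mem_nhdsWithin] with δ (hδ : 0 < δ)
          show (0 : ℝ) < 4 * δ ^ 2
          positivity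
      exact (h2.inv_tendsto_nhdsGT_zero.const_mul_atTop
        (show 0 < m * (ρ / 2) ^ 2 by positivity)).congr fun δ => (div_eq_mul_inv _ _).symm
    have h3 : Tendsto (fun δ : ℝ => 1 + |L| * δ / Real.sqrt m) (𝓝[>] 0) (𝓝 1) :=
      ((by fun_prop : Continuous fun δ : ℝ => 1 + |L| * δ / Real.sqrt m).tendsto' 0 1
        (by simp)).mono_left nhdsWithin_le_nhds
    have h4 := (h3.mul h1).mul_const (Real.sqrt 2 ^ n)
    rw [one_mul, zero_mul] at h4
    exact h4.eventually (eventually_le_nhds (by norm_num))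


/-- The test field lies below the kernel weight. -/
theorem test_le (hn : 2 ≤ n) (hg : IsMetric g) {b : ℝ} {o : Space n} {ψ : Space n → ℝ}
    (hψ : Pot g b o ψ) {τ ρ0 s0 δ M R a α : ℝ} (hτ : 0 < τ) (hs0 : 0 < s0) (hR : 0 < R)
    (ha : 0 < a) (hδ : 0 < δ) (ha2 : a ^ 2 = 2 * (1 + τ) * δ ^ 2)
    (hδs : 4 * (1 + τ) * δ ^ 2 ≤ s0 ^ 2)
    (hs0d : s0 = min (R / 2) (min 1 (kap ^ (n - 1) / (2 * kerK n R R))))
    (hnear' : ∀ x, ‖x - o‖ ≤ ρ0 →
      (∀ v, g x v v ≤ (1 + τ) * g o v v) ∧ dens g o ≤ (1 + τ) * dens g x)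
    (hM : ∀ u ∈ sphere (0 : Space n) 1, ‖g o u u‖ ≤ M)
    (hα : α = kap ^ (n - 1) * ((n : ℝ) - 1) / 2 *
      (Real.sqrt (2 * Real.exp 1 / ((n : ℝ) + 1)) ^ (n + 1) / Real.exp 1) /
        (a ^ (n - 1) * δ * (1 + τ) ^ 2)) (hα0 : 0 ≤ α)
    {Y : Space n → Space n} (hYn : ∀ x, gNorm g o (Y x) ≤ δ * gauss g δ o x) {x : Space n}
    (hxρ : ‖x - o‖ < min ρ0 (s0 / Real.sqrt (2 * ((1 + τ) * (|M| + 1))))) :
    α * (dens g o / dens g x) * gNorm g x (Y x) ≤
      hker n R a (kerK n R R / 8) (ψ x) := by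
  set KR := kerK n R R with hKR
  have hKR0 : 0 < KR := kerK_pos n _ hR
  have hn2 : (2 : ℝ) ≤ n := by exact_mod_cast hn
  set M' := (1 + τ) * (|M| + 1) with hM'
  have hM'0 : 0 < M' := by positivity
  obtain ⟨hgx, hdx⟩ := hnear' x (hxρ.le.trans (min_le_left _ _))
  set G := g o (x - o) (x - o) with hG
  have hψx : 2 * ψ x ≤ (1 + τ) * G := by
    refine pot_le hg hψ fun t ht => (hnear' _ ?_).1 _
    rw [add_sub_cancel_left, norm_smul, Real.norm_eq_abs, abs_of_nonneg ht.1]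
    exact (mul_le_of_le_one_left (norm_nonneg _) ht.2).trans (hxρ.le.trans (min_le_left _ _))
  have hGM : (1 + τ) * G ≤ s0 ^ 2 / 2 := by
    have h1 : G ≤ (|M| + 1) * ‖x - o‖ ^ 2 := by
      rcases eq_or_ne (x - o) 0 with h0 | h0
      · simp [hG, h0]
      have hu : ‖x - o‖⁻¹ • (x - o) ∈ sphere (0 : Space n) 1 := by simp [norm_smul, h0]
      have h2 := (le_abs_self _).trans (hM (‖x - o‖⁻¹ • (x - o)) hu)
      simp only [map_smul, smul_apply, smul_eq_mul, ← hG] at h2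
      have h3 : 0 < ‖x - o‖ := norm_pos_iff.2 h0
      field_simp at h2
      nlinarith [le_abs_self M, sq_nonneg ‖x - o‖]
    have h2 : ‖x - o‖ ^ 2 ≤ s0 ^ 2 / (2 * M') := by
      refine (pow_le_pow_left₀ (norm_nonneg _) (hxρ.le.trans (min_le_right _ _)) 2).trans_eq ?_
      rw [div_pow, Real.sq_sqrt (by positivity)]
    calc (1 + τ) * G ≤ M' * ‖x - o‖ ^ 2 := by rw [hM', mul_assoc]; gcongr
      _ ≤ M' * (s0 ^ 2 / (2 * M')) := by gcongr
      _ = _ := by field_simp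
  have hs : 2 * ψ x + a ^ 2 ≤ s0 ^ 2 := by rw [ha2]; linarith
  have hsp : 0 < 2 * ψ x + a ^ 2 := by have := hψ.nonneg x; positivity
  have hc1 : 2 * ψ x + a ^ 2 < R ^ 2 := by
    nlinarith [pow_le_pow_left₀ hs0.le (hs0d.trans_le (min_le_left _ _)) 2]
  have hc2 : KR + 2 * (KR / 8) ≤ kerK n R (Real.sqrt (2 * ψ x + a ^ 2)) := by
    set s := Real.sqrt (2 * ψ x + a ^ 2)
    have hsp' : 0 < s := Real.sqrt_pos.2 hsp
    have hs1 : s ≤ s0 := Real.sqrt_le_iff.2 ⟨hs0.le, hs⟩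
    have hsa : s ≤ 1 := hs1.trans (hs0d.trans_le ((min_le_right _ _).trans (min_le_left _ _)))
    have hsb : s ≤ kap ^ (n - 1) / (2 * KR) := hs1.trans (hs0d.trans_le ((min_le_right _ _).trans (min_le_right _ _)))
    refine le_trans (show KR + 2 * (KR / 8) ≤ kap ^ (n - 1) / s ^ (n - 1) from ?_) ?_
    · rw [le_div_iff₀ (pow_pos hsp' _)]
      rw [le_div_iff₀ (by positivity)] at hsb
      have h3 : s ^ (n - 1) ≤ s := pow_le_of_le_one hsp'.le hsa (by omega)
      nlinarith [mul_le_mul_of_nonneg_left h3 hKR0.le]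
    · rw [← div_pow]
      exact kerK_lower n R hsp'
  refine le_trans ?_ (hker_lower hn ha (hψ.nonneg x) hc1 hc2)
  have hexp : gauss g δ o x ≤ Real.exp (-(2 * ψ x / a ^ 2)) := by
    refine Real.exp_le_exp.2 ?_
    rw [neg_div, neg_le_neg_iff, ha2, div_le_div_iff₀ (by positivity) (by positivity)]
    nlinarith [mul_le_mul_of_nonneg_right hψx (sq_nonneg δ)]
  have hn1 : gNorm g x (Y x) ≤ (1 + τ) * (δ * gauss g δ o x) := by
    refine le_trans ?_ (mul_le_mul_of_nonneg_left (hYn x) (by positivity))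
    unfold gNorm
    rw [← Real.sqrt_sq (show (0 : ℝ) ≤ 1 + τ by positivity), ← Real.sqrt_mul (sq_nonneg _)]
    refine Real.sqrt_le_sqrt ((hgx _).trans (mul_le_mul_of_nonneg_right ?_ (g_nonneg hg o _)))
    nlinarith
  have hdr : dens g o / dens g x ≤ 1 + τ := (div_le_iff₀ (dens_pos hg x)).2 hdx
  calc α * (dens g o / dens g x) * gNorm g x (Y x)
      ≤ α * (1 + τ) * ((1 + τ) * (δ * Real.exp (-(2 * ψ x / a ^ 2)))) := by
        refine mul_le_mul (mul_le_mul_of_nonneg_left hdr hα0) (hn1.trans (by gcongr))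
          (gNorm_nonneg _ _ _) (by positivity)
    _ = _ := by
        rw [hα]
        field_simp


/-- The constant obtained from the test field. -/
theorem test_const (hn : 2 ≤ n) {τ δ a α D : ℝ} (hτd : τ = 1 / (2 * ((n : ℝ) + 3))) (hδ : 0 < δ)
    (hD : 0 < D) (had : a = δ * Real.sqrt (2 * (1 + τ)))
    (hα : α = kap ^ (n - 1) * ((n : ℝ) - 1) / 2 *
      (Real.sqrt (2 * Real.exp 1 / ((n : ℝ) + 1)) ^ (n + 1) / Real.exp 1) /
        (a ^ (n - 1) * δ * (1 + τ) ^ 2)) :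
    lowC n ≤ α * D * ((Real.sqrt (2 * Real.pi) * δ) ^ n / D / 8) := by
  have hn2 : (2 : ℝ) ≤ n := by exact_mod_cast hn
  have hτ : 0 < τ := by rw [hτd]; positivity
  set En := Real.sqrt (2 * Real.exp 1 / ((n : ℝ) + 1)) ^ (n + 1) / Real.exp 1 with hEn
  have hpow : Real.sqrt (1 + τ) ^ (n + 3) ≤ 2 := by
    have h1 : Real.sqrt (1 + τ) ≤ Real.exp (τ / 2) := by
      rw [Real.exp_half]
      exact Real.sqrt_le_sqrt (by linarith [Real.add_one_le_exp τ])
    refine (pow_le_pow_left₀ (Real.sqrt_nonneg _) h1 _).trans ?_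
    rw [← Real.exp_nat_mul]
    have e : ((n + 3 : ℕ) : ℝ) * (τ / 2) = 1 / 4 := by
      rw [hτd]; push_cast; field_simp; ring
    rw [e]
    have h3 := Real.add_one_le_exp (-(1 / 4 : ℝ))
    rw [Real.exp_neg] at h3
    have h4 := Real.exp_pos (1 / 4 : ℝ)
    have h5 : (3 / 4 : ℝ) * Real.exp (1 / 4) ≤ 1 := by
      have := mul_le_mul_of_nonneg_right (show (3 / 4 : ℝ) ≤ (Real.exp (1 / 4))⁻¹ by linarith) h4.le
      rwa [inv_mul_cancel₀ h4.ne'] at this
    linarith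
  have hkey : α * D * ((Real.sqrt (2 * Real.pi) * δ) ^ n / D / 8) = kap ^ (n - 1) * ((n : ℝ) - 1) * Real.sqrt (2 * Real.pi) ^ n * En /
      (16 * Real.sqrt 2 ^ (n - 1) * Real.sqrt (1 + τ) ^ (n + 3)) := by
    rw [hα, had, Real.sqrt_mul zero_le_two]
    obtain ⟨k, rfl⟩ := Nat.exists_eq_add_of_le hn
    rw [show 2 + k - 1 = k + 1 by omega]
    have hsq : (1 + τ) ^ 2 = Real.sqrt (1 + τ) ^ 4 := by
      rw [show (4 : ℕ) = 2 * 2 by rfl, pow_mul, Real.sq_sqrt (by positivity)]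
    rw [hsq]
    field_simp
    ring
  rw [hkey, lowC, ← hEn]
  refine div_le_div_of_nonneg_left ?_ (by positivity) ?_
  · have : (0 : ℝ) ≤ (n : ℝ) - 1 := by linarith
    have := kap_pos
    positivity
  · nlinarith [mul_le_mul_of_nonneg_left hpow (show 0 ≤ 16 * Real.sqrt 2 ^ (n - 1) by positivity)]


theorem test_field_smooth (hg : IsMetric g) (c : ℝ) {χ : Space n → ℝ} (hχ : ContDiff ℝ ∞ χ)
    (hχc : HasCompactSupport χ) {Y : Space n → Space n} (hY : ContDiff ℝ 1 Y) :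
    ContDiff ℝ 1 (fun x => (c / dens g x) • (χ x • Y x)) ∧
      HasCompactSupport fun x => (c / dens g x) • (χ x • Y x) := by
  have h1 : ContDiff ℝ 1 fun x : Space n => c / dens g x :=
    contDiff_const.div ((contDiff_dens hg).of_le (by simp)) fun x => (dens_pos hg x).ne'
  have h2 : ContDiff ℝ 1 χ := hχ.of_le (by simp)
  refine ⟨h1.smul (h2.smul hY), ?_⟩
  exact HasCompactSupport.intro hχc fun x hx => by
    simp [image_eq_zero_of_notMem_tsupport hx]

/-- The lower bound at a point of intermediate density. -/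
theorem gauss_lower (hn : 2 ≤ n) (hg : IsMetric g) {b : ℝ} (hpot : ∀ o, ∃ ψ, Pot g b o ψ)
    {E : Set (Space n)} (hE : MeasurableSet E) (h1 : volume E ≠ 0) (h2 : volume Eᶜ ≠ 0)
    {R : ℝ} (hR : 0 < R) :
    ∃ o ψ a, Pot g b o ψ ∧ 0 < a ∧ ENNReal.ofReal (lowC n) ≤
      wPer g (fun x => hker n R a (kerK n R R / 8) (ψ x)) E := by
  have hn2 : (2 : ℝ) ≤ n := by exact_mod_cast hn
  set KR := kerK n R R with hKR
  have hKR0 : 0 < KR := kerK_pos n _ hR
  obtain ⟨K, hK, hKev⟩ := half_point hg hE h1 h2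
  have hKn : K.Nonempty := by
    obtain ⟨δ, o, ho, -⟩ := hKev.exists
    exact ⟨o, ho⟩
  set τ : ℝ := 1 / (2 * ((n : ℝ) + 3)) with hτd
  have hτ : 0 < τ := by positivity
  obtain ⟨m, hm0, hm, ρ0, hρ0, hnear⟩ := near_bounds (by omega) hg hK hKn hτ
  obtain ⟨M, hM⟩ := (hK.prod (isCompact_sphere (0 : Space n) 1)).exists_bound_of_continuousOn
    (continuous_quad hg).continuousOn
  set M' := (1 + τ) * (|M| + 1) with hM'
  have hM'0 : 0 < M' := by positivity
  set s0 := min (R / 2) (min 1 (kap ^ (n - 1) / (2 * KR))) with hs0d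
  have hs0 : 0 < s0 := lt_min (by positivity) (lt_min one_pos (by have := kap_pos; positivity))
  set ρ := min ρ0 (s0 / Real.sqrt (2 * M')) with hρd
  have hρ : 0 < ρ := lt_min hρ0 (by positivity)
  let f : ContDiffBump (0 : Space n) := ⟨ρ / 2, ρ, half_pos hρ, half_lt_self hρ⟩
  have hf : ContDiff ℝ ∞ (f : Space n → ℝ) := f.contDiff
  obtain ⟨L, hL⟩ := (f.hasCompactSupport.fderiv ℝ).exists_bound_of_continuous
    (hf.continuous_fderiv (by simp))
  have hev := small_params n (τ := τ) hτ hm0 hρ hs0 L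
  obtain ⟨δ, ⟨hδ, hδs, hδe⟩, o, ho, hhalf⟩ := (hev.and hKev).exists
  obtain ⟨ψ, hψ⟩ := hpot o
  set a := δ * Real.sqrt (2 * (1 + τ)) with had
  have ha : 0 < a := by positivity
  have ha2 : a ^ 2 = 2 * (1 + τ) * δ ^ 2 := by
    rw [had, mul_pow, Real.sq_sqrt (by positivity)]; ring
  set Z := ∫ x, gauss g δ o x with hZ
  have hdo : 0 < dens g o := dens_pos hg o
  have hZe : Z = (Real.sqrt (2 * Real.pi) * δ) ^ n / dens g o := integral_gauss hg hδ o
  have hZ0 : 0 < Z := by rw [hZe]; positivity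
  obtain ⟨Y, hY, hYn, hYd, hYE⟩ := gauss_flux hg hE o hδ (show 0 < Z / 32 by positivity)
  set χ : Space n → ℝ := fun x => f (x - o) with hχd
  have hχ : ContDiff ℝ ∞ χ := hf.comp (contDiff_id.sub contDiff_const)
  have hχc : HasCompactSupport χ :=
    f.hasCompactSupport.comp_homeomorph (Homeomorph.subRight o)
  have hcut := cutoff_flux hg hm0 (hm o ho) hδ (half_pos hρ) hχ hχc
    (fun x => ⟨f.nonneg, f.le_one⟩)
    (fun x hx => (f.eventuallyEq_one_of_mem_ball (mem_ball_zero_iff.2 hx)).comp_tendsto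
      ((continuous_id.sub continuous_const).tendsto' x (x - o) rfl))
    (abs_nonneg L) (fun x => by
      rw [hχd, fderiv_comp_sub]
      exact (hL _).trans (le_abs_self L)) hY hYn hYd (E := E)
  have hmain : Z / 8 ≤ ∫ x in E, divg (fun y => χ y • Y y) x := by
    have hZ2 : ∫ x, gauss g (Real.sqrt 2 * δ) o x = Real.sqrt 2 ^ n * Z := by
      rw [integral_gauss hg (by positivity), hZe]
      ring
    rw [hZ2] at hcut
    have := mul_le_mul_of_nonneg_right hδe hZ0.le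
    linarith
  -- the test field
  set En := Real.sqrt (2 * Real.exp 1 / ((n : ℝ) + 1)) ^ (n + 1) / Real.exp 1 with hEn
  set α := kap ^ (n - 1) * ((n : ℝ) - 1) / 2 * En / (a ^ (n - 1) * δ * (1 + τ) ^ 2) with hα
  have hα0 : 0 ≤ α := by
    have : (0 : ℝ) ≤ (n : ℝ) - 1 := by linarith
    have := kap_pos
    positivity
  set T : Space n → Space n := fun x => (α * dens g o / dens g x) • (χ x • Y x) with hT
  have hχ1 : ContDiff ℝ 1 χ := hχ.of_le (by simp)
  obtain ⟨hTs, hTc⟩ : ContDiff ℝ 1 T ∧ HasCompactSupport T :=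
    test_field_smooth hg (α * dens g o) hχ hχc hY
  have hTn : ∀ x, gNorm g x (T x) ≤ hker n R a (KR / 8) (ψ x) := by
    intro x
    rcases eq_or_ne (χ x) 0 with h0 | h0
    · simp only [hT, h0, zero_smul, smul_zero, gNorm_zero]
      exact hker_nonneg hn ha (hψ.nonneg x)
    have hxρ : ‖x - o‖ < ρ := by
      by_contra h
      exact h0 (f.zero_of_le_dist (by simpa [dist_zero_right] using not_lt.1 h))
    simp only [hT]
    rw [gNorm_smul, gNorm_smul, abs_of_nonneg (by have := dens_pos hg x; positivity), hχd,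
      abs_of_nonneg f.nonneg, mul_div_assoc]
    refine le_trans ?_ (test_le hn hg hψ hτ hs0 hR ha hδ ha2 hδs rfl (hnear o ho)
      (fun u hu => hM (o, u) ⟨ho, hu⟩) (α := α) (by rw [hα, hEn]) hα0 hYn
      (x := x) hxρ)
    exact mul_le_mul_of_nonneg_left (mul_le_of_le_one_left (gNorm_nonneg _ _ _) f.le_one)
      (by have := dens_pos hg x; positivity)
  refine ⟨o, ψ, a, hψ, ha, le_trans (ENNReal.ofReal_le_ofReal ?_) (le_wPer hTs hTc hTn)⟩
  have heq : ∫ x in E, divg (fun y => dens g y • T y) x =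
      α * dens g o * ∫ x in E, divg (fun y => χ y • Y y) x := by
    rw [← integral_const_mul]
    refine integral_congr_ae (ae_of_all _ fun x => ?_)
    have : (fun y => dens g y • T y) = fun y => (α * dens g o) • (χ y • Y y) := by
      funext y
      simp only [hT, smul_smul]
      congr 1
      field_simp [(dens_pos hg y).ne']
    simp only [this]
    exact divg_const_smul ((hχ1.smul hY).differentiable one_ne_zero x) _
  rw [heq]
  refine le_trans ?_ (mul_le_mul_of_nonneg_left hmain (by positivity))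
  rw [hZe]
  exact test_const hn hτd hδ hdo had (by rw [hα, hEn])

end

end Vale.Agent.P219.Univ
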