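import Mathlib
import Vale.Agent.P219.Univ.Test
import Vale.Agent.P219.Univ.Pen
import Vale.Agent.P219.Univ.Const

/-!
# The isoperimetric inequality with a universal constant in nonpositive curvature
-/

open MeasureTheory Filter Topology Set Metric
open scoped ENNReal ContDiff

namespace Vale.Agent.P219.Univ

open Vale.Agent.P219

noncomputable section

variable {n : ℕ} {g : MetricField n}

theorem cKer_eq {R : ℝ} (hR : 0 < R) :
    cKer n R (kerK n R R / 8) =
      5 / 4 * ((n : ℝ) - 1) * (1 / R) ^ (n - 1) := by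
  rw [cKer, kerK_radius n hR]
  ring

/-- A potential at one point forces infinite volume. -/
theorem volume_infinite (hn : 2 ≤ n) (hg : IsMetric g) {b : ℝ} {o : Space n} {ψ : Space n → ℝ}
    (hψ : Pot g b o ψ) : ¬ Integrable (dens g) := by
  intro hint
  have hn2 : (2 : ℝ) ≤ n := by exact_mod_cast hn
  have : Nonempty (Fin n) := ⟨⟨0, by omega⟩⟩
  have hd := contDiff_dens hg
  set V := ∫ x, dens g x with hV
  have hV0 : 0 ≤ V := integral_nonneg fun x => (dens_pos hg x).le
  obtain ⟨U, hUdef⟩ : ∃ U : Set (Space n), U = {x | 2 * ψ x < 1} := ⟨_, rfl⟩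
  have hUo : IsOpen U :=
    hUdef ▸ isOpen_lt (continuous_const.mul hψ.smooth.continuous) continuous_const
  have hUne : U.Nonempty := ⟨o, by rw [hUdef]; simp [hψ.zero]⟩
  obtain ⟨E0, hE0⟩ : ∃ E0 : ℝ, E0 = kap ^ (n - 1) * ((n : ℝ) - 1) / 2 *
      (Real.sqrt (2 * Real.exp 1 / ((n : ℝ) + 1)) ^ (n + 1) / Real.exp 1) * Real.exp (-1) :=
    ⟨_, rfl⟩
  have hE0pos : 0 < E0 := by
    have : (0 : ℝ) < (n : ℝ) - 1 := by linarith
    have := kap_pos
    rw [hE0]; positivity
  have hVU : 0 < ∫ x in U, dens g x := by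
    rw [setIntegral_pos_iff_support_of_nonneg_ae (ae_of_all _ fun x => (dens_pos hg x).le)
      hint.integrableOn,
      show Function.support (dens g) = univ from eq_univ_of_forall fun x => (dens_pos hg x).ne',
      univ_inter]
    exact hUo.measure_pos volume hUne
  have key : ∀ R : ℝ, 2 ≤ R → 5 / 4 * (1 / R) ^ (n - 1) ≤ (kap / Real.sqrt 2) ^ (n - 1) →
      E0 * ∫ x in U, dens g x ≤ 5 / 4 * ((n : ℝ) - 1) * (1 / R) ^ (n - 1) * V := by
    intro R hR hRK
    have hR0 : 0 < R := by linarith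
    set e := kerK n R R / 8 with he
    have he0 : 0 < e := by have := kerK_pos n R hR0; positivity
    have hX := contDiff_radField hn hg hψ hR0 one_pos he0
    have hXc : HasCompactSupport (radField g ψ R 1 e) := compact_radField hψ
    have hX1 : ContDiff ℝ 1 (radField g ψ R 1 e) := hX.of_le (by norm_num)
    have hzero := integral_divg_eq_zero (contDiff_weighted hg hX1)
      (hasCompactSupport_weighted (g := g) hXc)
    have hi := integrable_divg (contDiff_weighted hg hX1) (hasCompactSupport_weighted (g := g) hXc)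
    have hpt : ∀ x, E0 * U.indicator (dens g) x - cKer n R e * dens g x ≤
        divg (fun y => dens g y • radField g ψ R 1 e y) x := by
      intro x
      obtain ⟨hd', -, hf⟩ := prof_facts hn hR0 one_pos he0 (hψ.nonneg x)
      have hη0 : 0 ≤ prof n R 1 e (ψ x) := prof_nonneg he0 _
      have h1 : (n : ℝ) * prof n R 1 e (ψ x) + 2 * ψ x * deriv (prof n R 1 e) (ψ x) ≤
          gDiv g (radField g ψ R 1 e) x :=
        (radial_div hg hψ (prof_contDiff hR0 one_pos he0) x hη0 hd').2
      have h2 : hker n R 1 e (ψ x) - cKer n R e ≤ gDiv g (radField g ψ R 1 e) x := by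
        have hf' : -cKer n R e + hker n R 1 e (ψ x) ≤ profTh n R 1 e (ψ x) := hf
        have hu := mul_le_mul_of_nonneg_left (uFac_bounds R (Real.sqrt (2 * ψ x + 1 ^ 2))).2
          (mul_nonneg (show (0 : ℝ) ≤ (n : ℝ) - 1 by linarith) hη0)
        unfold profTh at hf'
        linarith
      have h3 : U.indicator (fun _ => E0) x ≤ hker n R 1 e (ψ x) := by
        by_cases hx : x ∈ U
        · rw [indicator_of_mem hx]
          rw [hUdef] at hx
          have hs : Real.sqrt (2 * ψ x + 1 ^ 2) ≤ Real.sqrt 2 :=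
            Real.sqrt_le_sqrt (by rw [one_pow]; linarith [show 2 * ψ x < 1 from hx])
          have hs0 : 0 < Real.sqrt (2 * ψ x + 1 ^ 2) :=
            Real.sqrt_pos.2 (by have := hψ.nonneg x; positivity)
          refine le_trans ?_ (hker_lower hn one_pos (hψ.nonneg x)
            (by nlinarith [show 2 * ψ x < 1 from hx]) ?_)
          · rw [one_pow, one_pow, div_one, div_one, hE0]
            refine mul_le_mul_of_nonneg_left (Real.exp_le_exp.2 ?_) ?_
            · linarith [show 2 * ψ x < 1 from hx]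
            · have : (0 : ℝ) ≤ (n : ℝ) - 1 := by linarith
              have := kap_pos
              positivity
          · rw [he, kerK_radius n hR0]
            refine le_trans (le_of_eq (by ring)) (hRK.trans ?_)
            exact (pow_le_pow_left₀ (by have := kap_pos; positivity)
              (div_le_div_of_nonneg_left kap_pos.le hs0 hs) _).trans (kerK_lower n R hs0)
        · rw [indicator_of_notMem hx]
          exact hker_nonneg hn one_pos (hψ.nonneg x)
      rw [← gDiv_mul_dens hg]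
      have e1 : E0 * U.indicator (dens g) x = U.indicator (fun _ => E0) x * dens g x := by
        by_cases hx : x ∈ U <;> simp [hx]
      rw [e1, ← sub_mul]
      exact mul_le_mul_of_nonneg_right (by linarith) (dens_pos hg x).le
    have hiU : Integrable (U.indicator (dens g)) := hint.indicator hUo.measurableSet
    have h := integral_mono ((hiU.const_mul E0).sub (hint.const_mul _)) hi hpt
    rw [hzero, integral_sub' (hiU.const_mul E0) (hint.const_mul _), integral_const_mul,
      integral_const_mul, integral_indicator hUo.measurableSet, ← hV, he, cKer_eq hR0] at h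
    linarith
  have hlim : Tendsto (fun R : ℝ => (1 / R) ^ (n - 1)) atTop (𝓝 0) := by
    have h0 : Tendsto (fun R : ℝ => 1 / R) atTop (𝓝 0) :=
      tendsto_const_nhds.div_atTop tendsto_id
    have := h0.pow (n - 1)
    rwa [zero_pow (by omega)] at this
  have h1 := (hlim.const_mul (5 / 4)).eventually (eventually_le_nhds
    (show (5 / 4 : ℝ) * 0 < (kap / Real.sqrt 2) ^ (n - 1) by have := kap_pos; simp; positivity))
  have h2 := ((hlim.const_mul (5 / 4 * ((n : ℝ) - 1))).mul_const V).eventually (eventually_lt_nhds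
    (show 5 / 4 * ((n : ℝ) - 1) * 0 * V < E0 * ∫ x in U, dens g x by simpa using mul_pos hE0pos hVU))
  obtain ⟨R, hR, hRK, hlt⟩ := ((eventually_ge_atTop (2 : ℝ)).and (h1.and h2)).exists
  exact absurd (key R hR hRK) (not_le.2 hlt)

/-- The inequality, with the constant as a parameter. -/
theorem core (hn : 2 ≤ n) (hg : IsMetric g) {b : ℝ} (hpot : ∀ o, ∃ ψ, Pot g b o ψ) {C : ℝ}
    (hC : 0 < C)
    (hCl : 5 / 4 * ((n : ℝ) - 1) * C ^ n / (n : ℝ) ^ (n - 1) < lowC n)
    {F : Set (Space n)} (hFm : MeasurableSet F) (hFb : Bornology.IsBounded F)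
    (hFP : gPer g F ≠ ⊤) :
    C * gVol g F ^ (1 - (n : ℝ)⁻¹) ≤ (gPer g F).toReal := by
  by_contra hlt
  rw [not_le] at hlt
  have hn2 : (2 : ℝ) ≤ n := by exact_mod_cast hn
  have hn0 : (0 : ℝ) < n := by linarith
  have hinv : (n : ℝ)⁻¹ ≤ 1 / 2 := by rw [inv_le_comm₀ hn0 (by norm_num)]; linarith
  have hinv0 : (0 : ℝ) < (n : ℝ)⁻¹ := inv_pos.2 hn0
  have hd0 := fun x => (dens_pos hg x).le
  obtain ⟨ψ0, hψ0⟩ := hpot 0
  obtain ⟨M, hM⟩ := hFb.isCompact_closure.exists_bound_of_continuousOn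
    hψ0.smooth.continuous.continuousOn
  have hVF : 0 ≤ gVol g F := setIntegral_nonneg hFm fun x _ => hd0 x
  set gap := C * gVol g F ^ (1 - (n : ℝ)⁻¹) - (gPer g F).toReal with hgap
  have hgap0 : 0 < gap := by rw [hgap]; linarith
  set ε := gap / (4 * (gVol g F + 1)) with hε
  have hε0 : 0 < ε := by positivity
  set η := min (ε / n) (1 / (2 * Real.sqrt (1 + 2 * |M|))) with hη
  have hη0 : 0 < η := lt_min (by positivity) (by positivity)
  obtain ⟨hPs, hP1, hPc, hPd⟩ := pen_facts hg hψ0 hη0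
  set P := penW ψ0 η with hP
  have hPF : ∀ x ∈ F, P x ≤ 2 := by
    intro x hx
    have h1 : ψ0 x ≤ |M| := ((le_abs_self _).trans (hM x (subset_closure hx))).trans (le_abs_self M)
    have h2 : η * Real.sqrt (1 + 2 * ψ0 x) ≤ 1 / 2 := by
      refine (mul_le_mul (min_le_right _ _)
        (Real.sqrt_le_sqrt (show 1 + 2 * ψ0 x ≤ 1 + 2 * |M| by linarith))
        (Real.sqrt_nonneg _) (by positivity)).trans (le_of_eq ?_)
      field_simp
    refine (Real.exp_le_exp.2 h2).trans ?_
    have h3 := Real.add_one_le_exp (-(1 / 2 : ℝ))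
    rw [Real.exp_neg] at h3
    have h4 := Real.exp_pos (1 / 2 : ℝ)
    have := mul_le_mul_of_nonneg_right (show (1 / 2 : ℝ) ≤ (Real.exp (1 / 2))⁻¹ by linarith) h4.le
    rw [inv_mul_cancel₀ h4.ne'] at this
    linarith
  have hiF : ∀ {h : Space n → ℝ}, Continuous h → IntegrableOn h F := fun hh =>
    (hh.continuousOn.integrableOn_compact hFb.isCompact_closure).mono_set subset_closure
  have hiP : IntegrableOn (fun x => P x * dens g x) F :=
    hiF (hPs.continuous.mul (contDiff_dens hg).continuous)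
  have hPenF : gInt g F P ≤ 2 * gVol g F := by
    unfold gInt gVol
    rw [← integral_const_mul]
    exact setIntegral_mono_on hiP ((hiF (contDiff_dens hg).continuous).const_mul 2) hFm
      fun x hx => mul_le_mul_of_nonneg_right (hPF x hx) (hd0 x)
  have hFneg : energy g P ε C (1 - (n : ℝ)⁻¹) F < 0 := by
    have h1 : ε * gInt g F P ≤ gap / 2 := by
      refine (mul_le_mul_of_nonneg_left hPenF hε0.le).trans ?_
      rw [hε, div_mul_eq_mul_div, div_le_div_iff₀ (by positivity) (by norm_num)]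
      nlinarith
    unfold energy
    linarith
  obtain ⟨E, hEa, hEV, hEneg, hmin⟩ := exists_min hn hg hPs.continuous hP1 hPc hε0 hC
    (show 0 < 1 - (n : ℝ)⁻¹ by linarith) (by linarith) ⟨hFm, hiP, hFP⟩ hFneg
  obtain ⟨hEm, hEi, hEP⟩ := hEa
  set R := (n : ℝ) * gVol g E ^ ((n : ℝ)⁻¹) / C with hR
  have hVr : 0 < gVol g E ^ ((n : ℝ)⁻¹) := Real.rpow_pos_of_pos hEV _
  have hR0 : 0 < R := by rw [hR]; positivity
  have hdi : IntegrableOn (fun x => dens g x) E := by
    refine Integrable.mono (μ := volume.restrict E) hEi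
      (contDiff_dens hg).continuous.aestronglyMeasurable (ae_of_all _ fun x => ?_)
    rw [Real.norm_eq_abs, Real.norm_eq_abs, abs_of_nonneg (hd0 x),
      abs_of_nonneg (mul_nonneg (le_trans zero_le_one (hP1 x)) (hd0 x))]
    exact le_mul_of_one_le_left (hd0 x) (hP1 x)
  have hVP : gVol g E ≤ gInt g E P :=
    setIntegral_mono_on hdi hEi hEm fun x _ => le_mul_of_one_le_left (hd0 x) (hP1 x)
  have hpow : gVol g E ^ (1 - (n : ℝ)⁻¹) * gVol g E ^ ((n : ℝ)⁻¹) = gVol g E := by
    rw [← Real.rpow_add hEV, sub_add_cancel, Real.rpow_one]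
  have hηR : η * R ≤ 1 := by
    have h1 : ε * gVol g E < C * gVol g E ^ (1 - (n : ℝ)⁻¹) := by
      have := ENNReal.toReal_nonneg (a := gPer g E)
      have := mul_le_mul_of_nonneg_left hVP hε0.le
      unfold energy at hEneg
      linarith
    have h2 : ε * gVol g E ^ ((n : ℝ)⁻¹) < C := by
      have h3 : gVol g E ^ (1 - (n : ℝ)⁻¹) * (ε * gVol g E ^ ((n : ℝ)⁻¹)) <
          gVol g E ^ (1 - (n : ℝ)⁻¹) * C := by
        rw [mul_left_comm, hpow]; linarith
      exact lt_of_mul_lt_mul_left h3 (Real.rpow_nonneg hEV.le _)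
    refine (mul_le_mul_of_nonneg_right (min_le_left _ _) hR0.le).trans ?_
    rw [hR, show ε / n * ((n : ℝ) * gVol g E ^ ((n : ℝ)⁻¹) / C) = ε * gVol g E ^ ((n : ℝ)⁻¹) / C by
      field_simp, div_le_one hC]
    exact h2.le
  have hvol : volume E ≠ 0 := fun h => by simp [gVol, setIntegral_measure_zero _ h] at hEV
  have hcompl : volume Eᶜ ≠ 0 := fun h => by
    refine volume_infinite hn hg hψ0 ?_
    have h2 : IntegrableOn (dens g) Eᶜ := by
      rw [IntegrableOn, Measure.restrict_eq_zero.2 h]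
      exact integrable_zero_measure
    have := hdi.union h2
    rwa [union_compl_self, integrableOn_univ] at this
  obtain ⟨o, ψ, a, hψ, ha, hlow⟩ := gauss_lower hn hg hpot hEm hvol hcompl hR0
  obtain ⟨hWt, hW⟩ := variation hn hg hψ (R := R) ha
    (e := kerK n R R / 8) (by have := kerK_pos n R hR0; positivity)
    hC hε0 hη0.le hPs hP1 hPd ⟨hEm, hEi, hEP⟩ hEV hR hηR hmin
  have h3 := ((ENNReal.ofReal_le_iff_le_toReal hWt).1 hlow).trans hW
  rw [cKer_eq hR0] at h3
  have hk : 0 ≤ 5 / 4 * ((n : ℝ) - 1) * (1 / R) ^ (n - 1) := by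
    have : (0 : ℝ) ≤ (n : ℝ) - 1 := by linarith
    positivity
  have h4 : lowC n ≤ 5 / 4 * ((n : ℝ) - 1) * (1 / R) ^ (n - 1) *
      (C * gVol g E ^ (1 - (n : ℝ)⁻¹)) := by
    refine h3.trans (mul_le_mul_of_nonneg_left ?_ hk)
    unfold energy at hEneg
    linarith
  have hRp : R ^ (n - 1) = (n : ℝ) ^ (n - 1) / C ^ (n - 1) * gVol g E ^ (1 - (n : ℝ)⁻¹) := by
    rw [hR, div_pow, mul_pow, ← Real.rpow_natCast (gVol g E ^ ((n : ℝ)⁻¹)), ← Real.rpow_mul hEV.le,
      Nat.cast_sub (show 1 ≤ n by omega), Nat.cast_one, mul_sub, inv_mul_cancel₀ hn0.ne', mul_one]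
    ring
  have hVa : 0 < gVol g E ^ (1 - (n : ℝ)⁻¹) := Real.rpow_pos_of_pos hEV _
  have hCn : C ^ (n - 1) * C = C ^ n := by rw [← pow_succ, Nat.sub_add_cancel (by omega)]
  rw [div_pow, one_pow, hRp] at h4
  rw [← hCn] at hCl
  refine absurd (lt_of_lt_of_le hCl (h4.trans (le_of_eq ?_))) (lt_irrefl _)
  field_simp

/-- The inequality with the constant `1 / c`. -/
theorem core_const (hn : 2 ≤ n) {c : ℝ} (hc : 0 < c)
    (hcb : 20 * Real.exp 1 * ((n : ℝ) * ((n : ℝ) + 1)) ≤ Real.sqrt 2 * c ^ n * kap ^ (n - 1)) (hg : IsMetric g) {b : ℝ} (hpot : ∀ o, ∃ ψ, Pot g b o ψ)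
    {F : Set (Space n)} (hFm : MeasurableSet F) (hFb : Bornology.IsBounded F)
    (hFP : gPer g F ≠ ⊤) :
    (n : ℝ) * ballVol n ^ ((n : ℝ)⁻¹) * gVol g F ^ (1 - (n : ℝ)⁻¹) ≤
      c * (gPer g F).toReal := by
  have hn2 : (2 : ℝ) ≤ n := by exact_mod_cast hn
  have hω : 0 < ballVol n := ballVol_pos (by omega)
  have hC0 : 0 < (n : ℝ) * ballVol n ^ ((n : ℝ)⁻¹) / c :=
    div_pos (mul_pos (by linarith) (Real.rpow_pos_of_pos hω _)) hc
  set C0 := (n : ℝ) * ballVol n ^ ((n : ℝ)⁻¹) / c with hC0d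
  have hCn : C0 ^ n = (n : ℝ) ^ n * ballVol n / c ^ n := by
    rw [hC0d, div_pow, mul_pow, Real.rpow_inv_natCast_pow hω.le (by omega)]
  have hle : 5 / 4 * ((n : ℝ) - 1) * C0 ^ n / (n : ℝ) ^ (n - 1) ≤ lowC n := by
    have h := mul_le_mul_of_nonneg_left (const_bound hn hc kap_pos hcb)
      (show (0 : ℝ) ≤ ((n : ℝ) - 1) / 32 by linarith)
    rw [hCn, lowC]
    refine le_trans (le_of_eq ?_) (h.trans (le_of_eq ?_))
    · have : (n : ℝ) ^ n = (n : ℝ) ^ (n - 1) * n := by
        rw [← pow_succ, Nat.sub_add_cancel (by omega)]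
      rw [this]
      field_simp
      ring
    · have h2 : Real.sqrt (2 * Real.pi) ^ n =
          Real.sqrt 2 ^ (n - 1) * Real.sqrt 2 * Real.sqrt Real.pi ^ n := by
        rw [Real.sqrt_mul zero_le_two, mul_pow, ← pow_succ, Nat.sub_add_cancel (by omega)]
      rw [h2]
      field_simp
  have hlim : ∀ s : ℝ, 0 < s → s < 1 →
      s * C0 * gVol g F ^ (1 - (n : ℝ)⁻¹) ≤ (gPer g F).toReal := by
    intro s hs hs1
    refine core hn hg hpot (mul_pos hs hC0) (lt_of_lt_of_le ?_ hle) hFm hFb hFP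
    rw [mul_pow]
    refine div_lt_div_of_pos_right (mul_lt_mul_of_pos_left ?_ ?_) (by positivity)
    · exact mul_lt_of_lt_one_left (pow_pos hC0 n) (pow_lt_one₀ hs.le hs1 (by omega))
    · have : (0 : ℝ) < (n : ℝ) - 1 := by linarith
      positivity
  have h : C0 * gVol g F ^ (1 - (n : ℝ)⁻¹) ≤ (gPer g F).toReal := by
    have ht : Tendsto (fun s : ℝ => s * C0 * gVol g F ^ (1 - (n : ℝ)⁻¹)) (𝓝[<] 1)
        (𝓝 (C0 * gVol g F ^ (1 - (n : ℝ)⁻¹))) :=
      ((by fun_prop : Continuous fun s : ℝ => s * C0 * gVol g F ^ (1 - (n : ℝ)⁻¹)).tendsto' 1 _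
        (by simp)).mono_left nhdsWithin_le_nhds
    refine le_of_tendsto ht ?_
    filter_upwards [self_mem_nhdsWithin, nhdsWithin_le_nhds (Ioi_mem_nhds one_pos)] with s h1 h2
    exact hlim s h2 h1
  rw [hC0d, div_mul_eq_mul_div, div_le_iff₀ hc] at h
  linarith

end

end Vale.Agent.P219.Univ
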