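import Mathlib
import Vale.Agent.P219.Univ.Algebra
import Vale.Agent.P219.Univ.Geo.Jacobi

/-!
# The Hessian comparison theorem
-/

open MeasureTheory
open scoped ENNReal ContDiff RealInnerProductSpace

namespace Vale.Agent.P219.Univ

open Vale.Agent.P219

noncomputable section

variable {n : ℕ} {g : MetricField n}

namespace Geo

variable {E : Space n → Space n} {o : Space n}

lemma g_sub_nonneg (hg : IsMetric g) (x a b : Space n) :
    0 ≤ g x a a - 2 * g x a b + g x b b := by
  have h : 0 ≤ g x (a - b) (a - b) := by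
    rcases eq_or_ne (a - b) 0 with h | h
    · simp [h]
    · exact (hg.pos x _ h).le
  simp only [map_sub, ContinuousLinearMap.sub_apply, hg.symm x b a] at h
  linarith

lemma g_nonneg (hg : IsMetric g) (x a : Space n) : 0 ≤ g x a a := by
  rcases eq_or_ne a 0 with h | h
  · simp [h]
  · exact (hg.pos x _ h).le

lemma g_cs (hg : IsMetric g) (x u v : Space n) : 0 ≤ g x u u * g x v v - g x u v ^ 2 := by
  rcases eq_or_ne v 0 with h | h
  · simp [h]
  have hv := hg.pos x v h
  have := g_sub_nonneg hg x u ((g x u v / g x v v) • v)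
  simp only [map_smul, ContinuousLinearMap.smul_apply, smul_eq_mul] at this
  have h2 : g x u u - 2 * (g x u v / g x v v * g x u v) +
      g x u v / g x v v * (g x u v / g x v v * g x v v) = (g x u u * g x v v - g x u v ^ 2) / g x v v := by
    field_simp
    ring
  rw [h2] at this
  exact (div_nonneg_iff.1 this).elim (·.1) fun h => absurd h.2 (not_le.2 hv)

/-- The value `DE_p (p)` is the Jacobi field of the radial direction. -/
lemma self_smul (h : Chart g o E) (u w : Space n) (t : ℝ) :
    g (E (t • u)) (fderiv ℝ E (t • u) (t • u)) (fderiv ℝ E (t • u) w) =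
      t * g (E (t • u)) (Y E u u t) (Y E u w t) := by
  simp [Y]

lemma gauss_Y (hg : IsMetric g) (h : Chart g o E) (u w : Space n) (t : ℝ) :
    t * g (E (t • u)) (Y E u u t) (Y E u w t) = t * inner ℝ u w := by
  rw [← self_smul h, h.gauss_lemma hg, real_inner_smul_left]

/-- The Jacobi fields expand at least linearly. -/
lemma expand_one (hg : IsMetric g) (h : Chart g o E) {κ : ℝ} (hκ : κ ≤ 0) (hs : SecBound g κ)
    (u w : Space n) :
    0 ≤ g (E u) (DY g E u w 1) (Y E u w 1) := by
  choose Z hZd hZeq using fun t => h.jacobi hg u w t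
  set p : ℝ → ℝ := fun t => t ^ 2 * g (E (t • u)) (DY g E u w t) (Y E u w t) with hp
  set W : ℝ → Space n := fun t => Z t + gam g (E (t • u)) (Y E u u t) (DY g E u w t)
  have hd : ∀ t, HasDerivAt p (2 * t * g (E (t • u)) (DY g E u w t) (Y E u w t) +
      t ^ 2 * (g (E (t • u)) (W t) (Y E u w t) +
        g (E (t • u)) (DY g E u w t) (DY g E u w t))) t := fun t => by
    refine ((hasDerivAt_pow 2 t).mul
      (hasDerivAt_g hg (h.deriv_ray u t) (hZd t) (h.deriv_Y u w t))).congr_deriv ?_
    simp [W, DY]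
  have hnn : ∀ t, 0 ≤ 2 * t * g (E (t • u)) (DY g E u w t) (Y E u w t) +
      t ^ 2 * (g (E (t • u)) (W t) (Y E u w t) +
        g (E (t • u)) (DY g E u w t) (DY g E u w t)) := fun t => by
    have e := congrArg (fun z => t * g (E (t • u)) z (Y E u w t)) (hZeq t)
    simp only [map_add, map_smul, map_neg, ContinuousLinearMap.add_apply,
      ContinuousLinearMap.smul_apply, neg_apply, smul_eq_mul] at e
    simp only [W, map_add, ContinuousLinearMap.add_apply]
    have h1 := hs (E (t • u)) (Y E u w t) (Y E u u t)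
    have h2 := mul_nonpos_of_nonpos_of_nonneg hκ (g_cs hg (E (t • u)) (Y E u w t) (Y E u u t))
    have h3 : 0 ≤ t ^ 2 * g (E (t • u)) (DY g E u w t) (DY g E u w t) :=
      mul_nonneg (sq_nonneg t) (g_nonneg hg _ _)
    have h4 : t ^ 2 * g (E (t • u)) (riem g (E (t • u)) (Y E u w t) (Y E u u t) (Y E u u t))
        (Y E u w t) ≤ 0 := mul_nonpos_of_nonneg_of_nonpos (sq_nonneg t) (h1.trans h2)
    linarith
  have := monotone_of_hasDerivAt_nonneg hd hnn (show (0 : ℝ) ≤ 1 by norm_num)
  simpa [hp] using this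

/-- The Jacobi fields normal to the geodesic expand at the rate of the curvature bound. -/
lemma expand_curv (hg : IsMetric g) (h : Chart g o E) {κ : ℝ} (hκ : κ ≤ 0) (hs : SecBound g κ)
    {u w : Space n} (hw : inner ℝ u w = (0 : ℝ)) :
    Real.sqrt (-κ) * ‖u‖ * g (E u) (Y E u w 1) (Y E u w 1) ≤
      g (E u) (Y E u w 1 + DY g E u w 1) (Y E u w 1) := by
  set c := Real.sqrt (-κ) * ‖u‖
  choose Z hZd hZeq using fun t => h.jacobi hg u w t
  set J : ℝ → Space n := fun t => t • Y E u w t
  set D : ℝ → Space n := fun t => Y E u w t + t • DY g E u w t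
  set q : ℝ → ℝ := fun t =>
    g (E (t • u)) (D t) (J t) - c * g (E (t • u)) (J t) (J t) with hq
  have hJ : ∀ t, HasDerivAt J (Y E u w t + t • Y' E u w t) t := fun t =>
    ((hasDerivAt_id t).smul (h.deriv_Y u w t)).congr_deriv (by simp [add_comm])
  have hD : ∀ t, HasDerivAt D (Y' E u w t + (DY g E u w t + t • Z t)) t := fun t =>
    ((h.deriv_Y u w t).add ((hasDerivAt_id t).smul (hZd t))).congr_deriv (by simp [add_comm])
  have hd : ∀ t, HasDerivAt q ((g (E (t • u))
      ((2 : ℝ) • DY g E u w t + t • (Z t + gam g (E (t • u)) (Y E u u t) (DY g E u w t))) (J t) +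
        g (E (t • u)) (D t) (D t)) -
      c * (2 * g (E (t • u)) (D t) (J t))) t := fun t => by
    have eD : Y E u w t + t • Y' E u w t + gam g (E (t • u)) (Y E u u t) (J t) = D t := by
      simp only [J, D, DY, gam_smul₂]
      module
    have eDD : Y' E u w t + (DY g E u w t + t • Z t) + gam g (E (t • u)) (Y E u u t) (D t) =
        (2 : ℝ) • DY g E u w t + t • (Z t + gam g (E (t • u)) (Y E u u t) (DY g E u w t)) := by
      simp only [D, DY, gam_add₂, gam_smul₂]
      module
    refine ((hasDerivAt_g hg (h.deriv_ray u t) (hD t) (hJ t)).sub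
      ((hasDerivAt_g hg (h.deriv_ray u t) (hJ t) (hJ t)).const_mul c)).congr_deriv ?_
    rw [eD, eDD, hg.symm (E (t • u)) (J t) (D t)]
    ring
  have hnn : ∀ t, 0 ≤ (g (E (t • u))
      ((2 : ℝ) • DY g E u w t + t • (Z t + gam g (E (t • u)) (Y E u u t) (DY g E u w t))) (J t) +
        g (E (t • u)) (D t) (D t)) - c * (2 * g (E (t • u)) (D t) (J t)) := fun t => by
    rw [hZeq t]
    have h1 := hs (E (t • u)) (Y E u w t) (Y E u u t)
    have h0 := gauss_Y hg h u w t
    rw [hw, mul_zero, hg.symm] at h0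
    have hsp : g (E (t • u)) (Y E u u t) (Y E u u t) = ‖u‖ ^ 2 := by
      rw [h.speed hg, real_inner_self_eq_norm_sq]
    have h2 : t ^ 2 * g (E (t • u)) (riem g (E (t • u)) (Y E u w t) (Y E u u t) (Y E u u t))
        (Y E u w t) ≤ t ^ 2 * (κ * ‖u‖ ^ 2 * g (E (t • u)) (Y E u w t) (Y E u w t)) := by
      refine (mul_le_mul_of_nonneg_left h1 (sq_nonneg t)).trans_eq ?_
      rw [hsp]
      linear_combination (-κ * (t * g (E (t • u)) (Y E u w t) (Y E u u t))) * h0
    have hc : c ^ 2 = -κ * ‖u‖ ^ 2 := by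
      simp only [c, mul_pow, Real.sq_sqrt (neg_nonneg.2 hκ)]
    have h3 := g_sub_nonneg hg (E (t • u)) (D t) (c • J t)
    simp only [J, map_smul, map_neg, ContinuousLinearMap.smul_apply, neg_apply, smul_eq_mul] at h3 ⊢
    have h4 : c * (t * (c * (t * g (E (t • u)) (Y E u w t) (Y E u w t)))) =
        c ^ 2 * (t ^ 2 * g (E (t • u)) (Y E u w t) (Y E u w t)) := by ring
    rw [h4, hc] at h3
    linarith
  have := monotone_of_hasDerivAt_nonneg hd hnn (show (0 : ℝ) ≤ 1 by norm_num)
  simp [hq, J, D] at this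
  simpa using this

end Geo

open Geo in
/-- In curvature at most `κ ≤ 0`, half the squared norm of normal coordinates is a potential. -/
theorem pot_of_chart (hn : 2 ≤ n) (hg : IsMetric g) {κ : ℝ} (hκ : κ ≤ 0) (hs : SecBound g κ)
    (hc : NormalCharts g) {o : Space n} {E F : Space n → Space n} (h : Chart g o E)
    (hF : ContDiff ℝ ∞ F) (hFE : Function.LeftInverse F E) (hEF : Function.RightInverse F E) :
    Pot g (Real.sqrt (-κ)) o fun x => ‖F x‖ ^ 2 / 2 := by
  have hE : ContDiff ℝ ∞ E := h.smooth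
  have hE0 : E 0 = o := h.zero
  set ψ : Space n → ℝ := fun x => ‖F x‖ ^ 2 / 2 with hψ
  set G : Space n → Space n := fun x => fderiv ℝ E (F x) (F x)
  have hψs : ContDiff ℝ ∞ ψ := (hF.norm_sq ℝ).div_const 2
  have hdF : ∀ x z, fderiv ℝ E (F x) (fderiv ℝ F x z) = z := fun x z => by
    have h1 : HasFDerivAt (E ∘ F) ((fderiv ℝ E (F x)).comp (fderiv ℝ F x)) x :=
      (h.hasFDerivAt (F x)).comp x ((hF.differentiable (by simp)) x).hasFDerivAt
    rw [show E ∘ F = id from funext hEF] at h1
    exact congrFun (congrArg DFunLike.coe (h1.unique (hasFDerivAt_id x))) z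
  -- the gradient is the radial field
  have hdψ : ∀ x z, fderiv ℝ ψ x z = inner ℝ (F x) (fderiv ℝ F x z) := fun x z => by
    have h1 := (((hF.differentiable (by simp)) x).hasFDerivAt.norm_sq).mul_const (1 / 2 : ℝ)
    rw [show ψ = fun y => ‖F y‖ ^ 2 * (1 / 2 : ℝ) from funext fun y => by simp [hψ]; ring, h1.fderiv]
    simp
  have hgrad : gGrad g ψ = G := funext fun x => by
    by_contra hne
    have h1 := hg.pos x (gGrad g ψ x - G x) (sub_ne_zero.2 hne)
    have h2 : ∀ v, g x (gGrad g ψ x - G x) v = 0 := fun v => by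
      rw [map_sub, ContinuousLinearMap.sub_apply, gGrad_dual hg, hdψ, sub_eq_zero]
      have := h.gauss_lemma hg (F x) (fderiv ℝ F x v)
      rw [hEF x, hdF] at this
      exact this.symm
    linarith [h2 (gGrad g ψ x - G x)]
  have hG : ∀ x, DifferentiableAt ℝ G x := fun x =>
    ((((h.contDiff_D).comp hF).clm_apply hF).differentiable (by simp)) x
  -- the covariant derivative of the gradient
  have hcov : ∀ u w, cov g G (E u) (Y E u w 1) = Y E u w 1 + DY g E u w 1 := fun u w => by
    have h1 : HasDerivAt (fun s : ℝ => E (u + s • w)) (Y E u w 1) 0 := by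
      refine ((h.hasFDerivAt _).comp_hasDerivAt (0 : ℝ) (hasDerivAt_line u w 0)).congr_deriv ?_
      simp [Y]
    have h2 : HasDerivAt (fun s : ℝ => fderiv ℝ E (u + s • w) (u + s • w))
        (Y' E u w 1 + Y E u w 1) 0 := by
      refine (((h.hasFDerivAt_D _).comp_hasDerivAt (0 : ℝ) (hasDerivAt_line u w 0)).clm_apply
        (hasDerivAt_line u w 0)).congr_deriv ?_
      simp [Y, Y', h.symm2 u w u]
    have h3 := ((hG (E u)).hasFDerivAt).comp_hasDerivAt_of_eq (0 : ℝ) h1 (by simp)
    have h4 : fderiv ℝ G (E u) (Y E u w 1) = Y' E u w 1 + Y E u w 1 := by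
      refine h3.unique ?_
      rw [show G ∘ (fun s : ℝ => E (u + s • w)) = fun s : ℝ => fderiv ℝ E (u + s • w) (u + s • w)
        from funext fun s => by simp only [G, Function.comp_apply, hFE (u + s • w)]]
      exact h2
    rw [cov, h4, show G (E u) = Y E u u 1 from by simp [G, hFE u, Y], gam_symm hg, DY, one_smul]
    abel
  have hY : ∀ x v, Y E (F x) (fderiv ℝ F x v) 1 = v := fun x v => by simp [Y, hdF]
  have hbase : ∀ x v, g x v v ≤ g x (cov g G x v) v := fun x v => by
    have h1 := expand_one hg h hκ hs (F x) (fderiv ℝ F x v)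
    have h2 := hcov (F x) (fderiv ℝ F x v)
    rw [hEF x, hY] at h1 h2
    rw [h2, map_add, ContinuousLinearMap.add_apply]
    linarith
  refine ⟨hψs, ?_, fun x => by positivity, fun M => ?_, fun x => le_of_eq ?_, fun x v => ?_,
    fun x => ?_⟩
  · have : F o = 0 := by rw [← hE0, hFE 0]
    simp [hψ, this]
  · have hcl : IsClosed {x | ψ x ≤ M} := isClosed_le hψs.continuous continuous_const
    refine ((isCompact_closedBall (0 : Space n) (Real.sqrt (2 * M))).image hE.continuous).of_isClosed_subset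
      hcl fun x hx => ⟨F x, ?_, hEF x⟩
    rw [mem_closedBall_zero_iff]
    refine Real.le_sqrt_of_sq_le ?_
    have hx' : ‖F x‖ ^ 2 / 2 ≤ M := hx
    linarith
  · rw [hgrad, gNorm, Real.sq_sqrt (g_nonneg hg _ _)]
    have := h.speed hg (F x) 1
    simp only [one_smul, hEF x, Y, real_inner_self_eq_norm_sq] at this
    simp only [G, this, hψ]
    ring
  · rw [← gHess_eq hg hψs, hgrad]
    exact hbase x v
  -- the trace
  set u := F x
  obtain ⟨r, hr⟩ : ∃ r, r = ‖u‖ := ⟨_, rfl⟩
  have hsq : Real.sqrt (2 * ψ x) = r := by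
    rw [hr, show 2 * ψ x = ‖u‖ ^ 2 by simp [hψ, u]; ring, Real.sqrt_sq (norm_nonneg _)]
  rw [hsq, hgrad, gDiv_eq_trace hg (hG x)]
  set L := (cov_isLinear hg G x).mk' (cov g G x)
  -- an orthonormal frame
  obtain ⟨E', F', -, -, -, -, -, hiso', -⟩ := hc x
  set A : Space n →ₗ[ℝ] Space n := (fderiv ℝ E' 0 : Space n →ₗ[ℝ] Space n)
  have hA : Function.Injective A := by
    refine (injective_iff_map_eq_zero A).2 fun v hv => ?_
    have := hiso' v v
    rw [show fderiv ℝ E' 0 v = 0 from hv] at this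
    simpa using this.symm
  set Ae : Space n ≃ₗ[ℝ] Space n := LinearEquiv.ofBijective A
    ⟨hA, (LinearMap.injective_iff_surjective (f := A)).1 hA⟩
  have hAe : ∀ v v', g x (Ae v) (Ae v') = inner ℝ v v' := fun v v' => hiso' v v'
  set e := EuclideanSpace.basisFun (Fin n) ℝ
  have htr : LinearMap.trace ℝ (Space n) L = ∑ i, g x (cov g G x (Ae (e i))) (Ae (e i)) := by
    rw [← LinearMap.trace_conj' L Ae.symm, LinearMap.trace_eq_sum_inner _ e]
    refine Finset.sum_congr rfl fun i _ => ?_
    rw [LinearEquiv.conj_apply_apply, LinearEquiv.symm_symm, ← hAe, LinearEquiv.apply_symm_apply,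
      hg.symm]
    rfl
  rw [htr]
  by_cases hu : u = 0
  · rw [hr, hu, norm_zero, mul_zero, add_zero]
    refine le_trans ?_ (Finset.sum_le_sum fun i _ => hbase x (Ae (e i)))
    simp [hAe, real_inner_self_eq_norm_sq, e]
    omega
  have hr0 : 0 < r := hr ▸ norm_pos_iff.2 hu
  set P := Y E u u 1
  have hPx : ∀ w, g x P (Y E u w 1) = inner ℝ u w := fun w => by
    have := h.gauss_lemma hg u w
    rw [hEF x] at this
    simpa [Y, P] using this
  have hcP : cov g G x P = P := by
    have h2 := hcov u u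
    rw [hEF x] at h2
    rw [h2]
    simp [DY, h.geo_eq u 1, P]
  -- lower bound in each direction
  have hdir : ∀ v, Real.sqrt (-κ) * r * g x v v +
      (1 - Real.sqrt (-κ) * r) * ((g x v P) ^ 2 / r ^ 2) ≤ g x (cov g G x v) v := fun v => by
    set α := g x v P / r ^ 2
    set w := fderiv ℝ F x v - α • u
    have hv : v = α • P + Y E u w 1 := by
      have e1 : Y E u (fderiv ℝ F x v) 1 = v := hY x v
      simp only [Y, w, P, map_sub, map_smul, one_smul] at e1 ⊢
      rw [e1]; abel
    have huu : inner ℝ u u = r ^ 2 := by rw [real_inner_self_eq_norm_sq, hr]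
    have hw : inner ℝ u w = (0 : ℝ) := by
      have := hPx (fderiv ℝ F x v)
      rw [show Y E u (fderiv ℝ F x v) 1 = v from hY x v, hg.symm] at this
      simp only [w, inner_sub_right, inner_smul_right, huu, α, ← this]
      field_simp
      ring
    have h1 := expand_curv hg h hκ hs hw
    have h2 := hcov u w
    rw [hEF x] at h1 h2
    rw [← h2, ← hr] at h1
    have hl := cov_isLinear hg G x
    have hsy : g x (cov g G x (Y E u w 1)) P = g x (Y E u w 1) P := by
      rw [← hgrad, gHess_eq hg hψs, gHess_symm hg hψs, ← gHess_eq hg hψs, hgrad, hcP, hg.symm]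
    have hPw : g x P (Y E u w 1) = 0 := (hPx w).trans hw
    have hPP : g x P P = r ^ 2 := (hPx u).trans huu
    have e1 : g x v v = α ^ 2 * r ^ 2 + g x (Y E u w 1) (Y E u w 1) := by
      rw [hv]
      simp only [map_add, map_smul, ContinuousLinearMap.add_apply, ContinuousLinearMap.smul_apply,
        smul_eq_mul, hPw, hPP, hg.symm x (Y E u w 1) P]
      ring
    have e2 : g x (cov g G x v) v =
        α ^ 2 * r ^ 2 + g x (cov g G x (Y E u w 1)) (Y E u w 1) := by
      conv_lhs => rw [hv, hl.map_add, hl.map_smul, hcP]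
      simp only [map_add, map_smul, ContinuousLinearMap.add_apply, ContinuousLinearMap.smul_apply,
        smul_eq_mul, hsy, hPw, hPP, hg.symm x (Y E u w 1) P]
      ring
    have e3 : (g x v P) ^ 2 / r ^ 2 = α ^ 2 * r ^ 2 := by
      simp only [α]
      field_simp
    rw [e1, e2, e3]
    linarith
  refine le_trans (le_of_eq ?_) (Finset.sum_le_sum fun i _ => hdir (Ae (e i)))
  have hone : ∀ i, g x (Ae (e i)) (Ae (e i)) = 1 := fun i => by
    rw [hAe, real_inner_self_eq_norm_sq, e.orthonormal.1 i, one_pow]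
  have hP2 : ∑ i, g x (Ae (e i)) P ^ 2 = r ^ 2 := by
    rw [show P = Ae (Ae.symm P) from (Ae.apply_symm_apply P).symm]
    simp only [hAe]
    rw [e.sum_sq_inner_right, ← real_inner_self_eq_norm_sq, ← hAe, Ae.apply_symm_apply]
    exact (hPx u).trans (by rw [real_inner_self_eq_norm_sq, hr])
  simp only [hone, mul_one, Finset.sum_add_distrib, ← Finset.mul_sum, ← Finset.sum_div, hP2,
    Finset.sum_const, Finset.card_univ, Fintype.card_fin, nsmul_eq_mul]
  rw [div_self (by positivity)]
  ring

open Geo in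
/-- In curvature at most `κ ≤ 0`, half the squared distance from every point is a potential. -/
theorem pot_exists (hn : 2 ≤ n) (hg : IsMetric g) {κ : ℝ} (hκ : κ ≤ 0) (hs : SecBound g κ)
    (hc : NormalCharts g) (o : Space n) :
    ∃ ψ, Pot g (Real.sqrt (-κ)) o ψ := by
  obtain ⟨E, F, hE, hF, hFE, hEF, hE0, hiso, hgeo⟩ := hc o
  exact ⟨_, pot_of_chart hn hg hκ hs hc ⟨hE, hE0, hiso, hgeo⟩ hF hFE hEF⟩

end

end Vale.Agent.P219.Univ
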