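import Mathlib
import Vale.Agent.P219.Model
import Vale.Agent.P219.Univ.Core
import Vale.Agent.P219.Univ.Cheeger
import Vale.Agent.P219.Univ.Geo

/-!
# The generalised Cartan-Hadamard inequality up to a universal constant
-/

open MeasureTheory Set
open scoped ENNReal

namespace Vale.Agent.P219.Univ

open Vale.Agent.P219

noncomputable section

variable {n : ℕ} {g : MetricField n}

theorem universal_bound (hn : 2 ≤ n) {c : ℝ} (hc0 : 0 < c)
    (hcb : 20 * Real.exp 1 * ((n : ℝ) * ((n : ℝ) + 1)) ≤ Real.sqrt 2 * c ^ n * kap ^ (n - 1))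
    {κ : ℝ} (hκ : κ ≤ 0) (hg : IsMetric g) (hs : SecBound g κ) (hc : NormalCharts g)
    {F : Set (Space n)} (hFm : MeasurableSet F) (hFb : Bornology.IsBounded F) :
    ENNReal.ofReal (n * ballVol n ^ ((n : ℝ)⁻¹) * gVol g F ^ (1 - (n : ℝ)⁻¹)) ≤
        ENNReal.ofReal c * gPer g F ∧
      ∀ r, 0 ≤ r → modelVol n κ r = gVol g F →
        ENNReal.ofReal (modelArea n κ r) ≤ ENNReal.ofReal (c + 1) * gPer g F := by
  rcases eq_or_ne (gPer g F) ⊤ with hP | hP
  · simp [hP, hc0, show 0 < c + 1 by linarith]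
  have hpot := fun o => pot_exists hn hg hκ hs hc o
  have h1 := core_const hn hc0 hcb hg hpot hFm hFb hP
  obtain ⟨ψ, hψ⟩ := hpot 0
  have h2 := cheeger hn hg (Real.sqrt_nonneg _) hψ hFm hFb hP
  have key : ∀ (a m : ℝ), 0 ≤ m → a ≤ m * (gPer g F).toReal →
      ENNReal.ofReal a ≤ ENNReal.ofReal m * gPer g F := fun a m hm h => by
    refine (ENNReal.ofReal_le_ofReal h).trans ?_
    rw [ENNReal.ofReal_mul hm, ENNReal.ofReal_toReal hP]
  refine ⟨key _ c hc0.le h1, fun r hr hV => key _ (c + 1) (by linarith) ?_⟩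
  have hM := modelArea_le hn hκ hr
  rw [hV] at hM
  linarith

/-- The condition on the constant for `c = 17`. -/
theorem cond17 {n : ℕ} (hn : 2 ≤ n) :
    20 * Real.exp 1 * ((n : ℝ) * ((n : ℝ) + 1)) ≤ Real.sqrt 2 * (17 : ℝ) ^ n * kap ^ (n - 1) := by
  have hk : (857 / 1000 : ℝ) ≤ kap := by
    rw [kap, Real.le_sqrt (by norm_num) (by positivity), le_div_iff₀ (Real.exp_pos 1)]
    nlinarith [Real.exp_one_lt_d9]
  have h2 : (141 / 100 : ℝ) ≤ Real.sqrt 2 := Real.le_sqrt_of_sq_le (by norm_num)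
  obtain ⟨m, rfl⟩ := Nat.exists_eq_add_of_le hn
  rw [show 2 + m - 1 = m + 1 by omega, show (17 : ℝ) ^ (2 + m) = 17 * 17 ^ (m + 1) by
    rw [show 2 + m = m + 1 + 1 by omega, pow_succ']]
  have h3 : (857 / 1000 * 17 : ℝ) ^ (m + 1) ≤ kap ^ (m + 1) * 17 ^ (m + 1) := by
    rw [← mul_pow]
    exact pow_le_pow_left₀ (by norm_num) (by linarith) _
  have h4 : ∀ k : ℕ, (54366 / 1000 : ℝ) * (((k : ℝ) + 2) * ((k : ℝ) + 3)) ≤
      141 / 100 * 17 * (857 / 1000 * 17) ^ (k + 1) := by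
    intro k
    induction k with
    | zero => norm_num
    | succ k ih =>
      push_cast
      rw [pow_succ]
      nlinarith [(Nat.cast_nonneg k : (0 : ℝ) ≤ k)]
  have h5 := h4 m
  push_cast
  calc 20 * Real.exp 1 * ((2 + (m : ℝ)) * (2 + (m : ℝ) + 1))
      ≤ 54366 / 1000 * ((2 + (m : ℝ)) * (2 + (m : ℝ) + 1)) := by
        refine mul_le_mul_of_nonneg_right ?_ (by positivity)
        linarith [Real.exp_one_lt_d9]
    _ ≤ 141 / 100 * 17 * (857 / 1000 * 17) ^ (m + 1) := by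
        refine le_trans (le_of_eq ?_) h5
        ring
    _ ≤ Real.sqrt 2 * 17 * (kap ^ (m + 1) * 17 ^ (m + 1)) := by gcongr
    _ = _ := by ring

/-- The condition on the constant in large dimension. -/
theorem cond_eventually {c : ℝ} (hc : Real.sqrt (Real.exp 1 / 2) < c) :
    ∃ N : ℕ, ∀ n, N ≤ n → 2 ≤ n ∧ 0 < c ∧
      20 * Real.exp 1 * ((n : ℝ) * ((n : ℝ) + 1)) ≤ Real.sqrt 2 * c ^ n * kap ^ (n - 1) := by
  have hc0 : 0 < c := lt_of_le_of_lt (Real.sqrt_nonneg _) hc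
  have hk1 : kap ≤ 1 :=
    Real.sqrt_le_one.2 (by rw [div_le_one (Real.exp_pos 1)]; linarith [Real.exp_one_gt_d9])
  have hr : 1 < c * kap := by
    rw [kap, show (2 : ℝ) / Real.exp 1 = (Real.exp 1 / 2)⁻¹ by rw [inv_div], Real.sqrt_inv,
      ← div_eq_mul_inv, one_lt_div (Real.sqrt_pos.2 (by positivity))]
    exact hc
  have h := (tendsto_pow_const_div_const_pow_of_one_lt 2 hr).eventually
    (eventually_lt_nhds (show (0 : ℝ) < 1 / (40 * Real.exp 1) by positivity))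
  obtain ⟨N, hN⟩ := Filter.eventually_atTop.1 h
  refine ⟨max N 2, fun n hn => ⟨le_trans (le_max_right N 2) hn, hc0, ?_⟩⟩
  have hlt := hN n (le_trans (le_max_left N 2) hn)
  rw [div_lt_div_iff₀ (pow_pos (by positivity) n) (by positivity), one_mul] at hlt
  have hn2 : (2 : ℝ) ≤ n := by exact_mod_cast le_trans (le_max_right N 2) hn
  have h1 : c ^ n * kap ^ n ≤ c ^ n * kap ^ (n - 1) :=
    mul_le_mul_of_nonneg_left (pow_le_pow_of_le_one kap_pos.le hk1 (Nat.sub_le n 1)) (by positivity)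
  have h2 : c ^ n * kap ^ (n - 1) ≤ Real.sqrt 2 * c ^ n * kap ^ (n - 1) := by
    rw [mul_assoc]
    exact le_mul_of_one_le_left (by have := kap_pos; positivity) (Real.one_le_sqrt.2 one_le_two)
  rw [mul_pow] at hlt
  nlinarith [mul_le_mul_of_nonneg_left (show (n : ℝ) + 1 ≤ 2 * n by linarith)
    (show (0 : ℝ) ≤ 20 * Real.exp 1 * n by positivity)]

end

end Vale.Agent.P219.Univ
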