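import Mathlib
import Vale.Agent.P219.Univ.Coord
import Vale.Agent.P219.Univ.Final

/-!
# From components to the bilinear forms used in the proof
-/

open MeasureTheory
open scoped ENNReal ContDiff RealInnerProductSpace

set_option maxSynthPendingDepth 3

namespace Vale.Agent.P219.Coord

open Vale.Agent.P219

noncomputable section

variable {n : ℕ} {G : Fin n → Fin n → Space n → ℝ}

/-- The bilinear form `(u, v) ↦ u i * v j`. -/
def unit2 (i j : Fin n) : Space n →L[ℝ] Space n →L[ℝ] ℝ :=
  (ContinuousLinearMap.smulRightL ℝ (Space n) (Space n →L[ℝ] ℝ) (EuclideanSpace.proj i))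
    (EuclideanSpace.proj j)

theorem sum_move₄ (f : Fin n → Fin n → Fin n → Fin n → ℝ) :
    ∑ a, ∑ b, ∑ c, ∑ d, f a b c d = ∑ b, ∑ c, ∑ d, ∑ a, f a b c d :=
  Finset.sum_comm.trans (Finset.sum_congr rfl fun _ _ =>
    Finset.sum_comm.trans (Finset.sum_congr rfl fun _ _ => Finset.sum_comm))

theorem sum_swap₄ (f : Fin n → Fin n → Fin n → Fin n → ℝ) :
    ∑ a, ∑ b, ∑ c, ∑ d, f a b c d = ∑ c, ∑ d, ∑ a, ∑ b, f a b c d :=
  (sum_move₄ f).trans (sum_move₄ fun b c d a => f a b c d)

/-- The field of bilinear forms with the given components. -/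
def toField (G : Fin n → Fin n → Space n → ℝ) : Univ.MetricField n :=
  fun x => ∑ i, ∑ j, G i j x • unit2 i j

theorem toField_apply (G : Fin n → Fin n → Space n → ℝ) (x u v : Space n) :
    toField G x u v = ∑ i, ∑ j, u i * v j * G i j x := by
  simp only [toField, unit2, sum_apply, smul_apply, smul_eq_mul]
  refine Finset.sum_congr rfl fun i _ => Finset.sum_congr rfl fun j _ => ?_
  simp
  ring

theorem toField_single (G : Fin n → Fin n → Space n → ℝ) (x : Space n) (a b : Fin n) :
    toField G x (EuclideanSpace.single a (1 : ℝ)) (EuclideanSpace.single b (1 : ℝ)) = G a b x := by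
  simp [toField_apply, PiLp.single_apply]

theorem isMetric (hG : IsMetric G) : Univ.IsMetric (toField G) := by
  refine ⟨ContDiff.sum fun i _ => ContDiff.sum fun j _ => (hG.smooth i j).smul contDiff_const,
    fun x u v => ?_, fun x u hu => ?_⟩
  · rw [toField_apply, toField_apply, Finset.sum_comm]
    refine Finset.sum_congr rfl fun j _ => Finset.sum_congr rfl fun i _ => ?_
    rw [hG.symm i j]
    ring
  · rw [toField_apply]
    refine hG.pos x (fun i => u i) fun h => hu ?_
    ext i
    simpa using congrFun h i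

theorem single_sum (u : Space n) : u = ∑ i, u i • EuclideanSpace.single i (1 : ℝ) := by
  conv_lhs => rw [← (EuclideanSpace.basisFun (Fin n) ℝ).sum_repr u]
  simp

/-- The matrix of components is invertible. -/
theorem det_pos (hG : IsMetric G) (x : Space n) :
    0 < Matrix.det (Matrix.of fun a b => G a b x) := by
  have h := Univ.dens_pos (isMetric hG) x
  simp only [Univ.dens, toField_single] at h
  exact Real.sqrt_pos.1 h

theorem dens_eq (G : Fin n → Fin n → Space n → ℝ) : dens G = Univ.dens (toField G) := by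
  funext x
  simp only [dens, Univ.dens, toField_single]

theorem pd_toField (hG : IsMetric G) (x : Space n) (l a b : Fin n) :
    fderiv ℝ (toField G) x (EuclideanSpace.single l (1 : ℝ)) (EuclideanSpace.single a (1 : ℝ))
      (EuclideanSpace.single b (1 : ℝ)) = pd l (G a b) x := by
  rw [← Univ.Alg.dg_apply (isMetric hG)]
  simp only [toField_single]
  rfl

/-- The components of the connection. -/
theorem gam_single (hG : IsMetric G) (x : Space n) (i j k : Fin n) :
    Univ.gam (toField G) x (EuclideanSpace.single i (1 : ℝ)) (EuclideanSpace.single j (1 : ℝ)) k =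
      Gamma G k i j x := by
  set g := toField G
  set M := Matrix.of fun a b => G a b x
  set p := Univ.chris g x (EuclideanSpace.single i (1 : ℝ)) (EuclideanSpace.single j (1 : ℝ))
  set z := Univ.sharp g x p
  have hp : ∀ l, p (EuclideanSpace.single l (1 : ℝ)) =
      pd i (G j l) x + pd j (G i l) x - pd l (G i j) x := fun l => by
    simp only [p, g, Univ.chris, sub_apply, add_apply, ContinuousLinearMap.flip_apply,
      pd_toField hG]
  have hz : Matrix.mulVec M (fun a => z a) = fun l => p (EuclideanSpace.single l (1 : ℝ)) := by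
    funext l
    rw [← Univ.g_sharp (isMetric hG) x p]
    show _ = toField G x z (EuclideanSpace.single l (1 : ℝ))
    rw [toField_apply]
    simp [Matrix.mulVec, dotProduct, M, PiLp.single_apply, hG.symm l, mul_comm]
  have hinv : (fun a => z a) = Matrix.mulVec M⁻¹ fun l => p (EuclideanSpace.single l (1 : ℝ)) := by
    rw [← hz, Matrix.mulVec_mulVec, Matrix.nonsing_inv_mul _ (det_pos hG x).ne'.isUnit,
      Matrix.one_mulVec]
  have := congrFun hinv k
  simp only [Matrix.mulVec, dotProduct, hp] at this
  show ((1 / 2 : ℝ) • z) k = _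
  rw [PiLp.smul_apply, smul_eq_mul, this]
  rfl

theorem gam_smooth (hG : IsMetric G) :
    ContDiff ℝ ∞ fun p : Space n × Space n × Space n => Univ.gam (toField G) p.1 p.2.1 p.2.2 :=
  Univ.contDiff_gam (isMetric hG)

theorem gam_expand (x u v : Space n) : Univ.gam (toField G) x u v =
    ∑ i, u i • Univ.gam (toField G) x (EuclideanSpace.single i (1 : ℝ)) v := by
  let L : Space n →ₗ[ℝ] Space n :=
    { toFun := fun u => Univ.gam (toField G) x u v
      map_add' := fun a b => Univ.Alg.gam_add_left x a b v
      map_smul' := fun c a => Univ.Alg.gam_smul_left x a v c }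
  have h : L u = ∑ i, u i • L (EuclideanSpace.single i (1 : ℝ)) := by
    conv_lhs => rw [Univ.Alg.expand u]
    simp only [map_sum, map_smul]
  exact h

theorem gam_bilin (hG : IsMetric G) (x u v : Space n) (k : Fin n) :
    Univ.gam (toField G) x u v k = ∑ i, ∑ j, Gamma G k i j x * u i * v j := by
  have hg := isMetric hG
  rw [gam_expand x u v, WithLp.ofLp_sum, Finset.sum_apply]
  refine Finset.sum_congr rfl fun i _ => ?_
  rw [PiLp.smul_apply, smul_eq_mul, Univ.gam_symm hg, gam_expand x v,
    WithLp.ofLp_sum, Finset.sum_apply, Finset.mul_sum]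
  refine Finset.sum_congr rfl fun j _ => ?_
  rw [PiLp.smul_apply, smul_eq_mul, Univ.gam_symm hg, gam_single hG]
  ring

theorem contDiff_Gamma (hG : IsMetric G) (k i j : Fin n) : ContDiff ℝ ∞ (Gamma G k i j) := by
  have e : Gamma G k i j = fun x => Univ.gam (toField G) x
      (EuclideanSpace.single i (1 : ℝ)) (EuclideanSpace.single j (1 : ℝ)) k :=
    funext fun x => (gam_single hG x i j k).symm
  rw [e]
  exact contDiff_euclidean.1 ((gam_smooth hG).comp
    (contDiff_id.prodMk (contDiff_const.prodMk contDiff_const))) k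

theorem gam_deriv (hG : IsMetric G) (x a b c : Space n) (m : Fin n) :
    fderiv ℝ (fun y => Univ.gam (toField G) y a b) x c m =
      ∑ i, ∑ j, ∑ k, c i * a j * b k * pd i (Gamma G m j k) x := by
  have hgam : ContDiff ℝ ∞ fun y => Univ.gam (toField G) y a b := by
    refine contDiff_euclidean.2 fun k => ?_
    simp only [gam_bilin hG]
    exact ContDiff.sum fun i _ => ContDiff.sum fun j _ =>
      ((contDiff_Gamma hG k i j).mul contDiff_const).mul contDiff_const
  have h1 := (EuclideanSpace.proj (𝕜 := ℝ) m).hasFDerivAt.comp x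
    (hgam.differentiable (by simp) x).hasFDerivAt
  have e : ⇑(EuclideanSpace.proj (𝕜 := ℝ) m) ∘ (fun y => Univ.gam (toField G) y a b) =
      fun y => ∑ i, ∑ j, Gamma G m i j y * a i * b j := funext fun y => gam_bilin hG y a b m
  have h2 : HasFDerivAt (fun y => ∑ i, ∑ j, Gamma G m i j y * a i * b j)
      (∑ i, ∑ j, b j • a i • fderiv ℝ (Gamma G m i j) x) x :=
    HasFDerivAt.fun_sum fun i _ => HasFDerivAt.fun_sum fun j _ =>
      (((contDiff_Gamma hG m i j).differentiable (by simp) x).hasFDerivAt.mul_const
        (a i)).mul_const _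
  rw [e] at h1
  have h3 := DFunLike.congr_fun (h1.unique h2) c
  simp only [ContinuousLinearMap.comp_apply, sum_apply, smul_apply, smul_eq_mul] at h3
  refine Eq.trans h3 ?_
  refine Eq.trans (Finset.sum_congr rfl fun i _ => Finset.sum_congr rfl fun j _ => ?_)
    ((Finset.sum_congr rfl fun i _ => Finset.sum_comm).trans Finset.sum_comm)
  rw [apply_eq_sum (fderiv ℝ (Gamma G m i j) x) c, Finset.mul_sum, Finset.mul_sum]
  exact Finset.sum_congr rfl fun l _ => by simp only [pd]; ring

theorem riem_eq (hG : IsMetric G) (x u v : Space n) (m : Fin n) :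
    Univ.riem (toField G) x u v v m =
      ∑ i, ∑ j, ∑ k, u i * v j * v k * Curv G m i j k x := by
  have t2 : fderiv ℝ (fun y => Univ.gam (toField G) y u v) x v m =
      ∑ i, ∑ j, ∑ k, u i * v j * v k * pd j (Gamma G m i k) x := by
    rw [gam_deriv hG, Finset.sum_comm]
    exact Finset.sum_congr rfl fun i _ => Finset.sum_congr rfl fun j _ =>
      Finset.sum_congr rfl fun k _ => by ring
  have inner4 : ∀ a b c : Space n, Univ.gam (toField G) x a (Univ.gam (toField G) x b c) m =
      ∑ i, ∑ j, ∑ k, ∑ s, a i * b j * c k * (Gamma G m i s x * Gamma G s j k x) := by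
    intro a b c
    rw [gam_bilin hG x a]
    refine Finset.sum_congr rfl fun i _ => ?_
    refine Eq.trans (Finset.sum_congr rfl fun s _ => ?_)
      (Finset.sum_comm.trans (Finset.sum_congr rfl fun j _ => Finset.sum_comm))
    rw [gam_bilin hG x b c, Finset.mul_sum]
    refine Finset.sum_congr rfl fun j _ => ?_
    rw [Finset.mul_sum]
    exact Finset.sum_congr rfl fun k _ => by ring
  have t4 : Univ.gam (toField G) x v (Univ.gam (toField G) x u v) m =
      ∑ i, ∑ j, ∑ k, ∑ s, u i * v j * v k * (Gamma G m j s x * Gamma G s i k x) := by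
    rw [inner4, Finset.sum_comm]
    exact Finset.sum_congr rfl fun i _ => Finset.sum_congr rfl fun j _ =>
      Finset.sum_congr rfl fun k _ => Finset.sum_congr rfl fun s _ => by ring
  rw [Univ.riem, PiLp.sub_apply, PiLp.add_apply, PiLp.sub_apply, gam_deriv hG, t2, inner4, t4]
  simp only [← Finset.sum_sub_distrib, ← Finset.sum_add_distrib, Curv]
  refine Finset.sum_congr rfl fun i _ => Finset.sum_congr rfl fun j _ =>
    Finset.sum_congr rfl fun k _ => ?_
  simp only [mul_add, mul_sub, Finset.mul_sum, Finset.sum_sub_distrib]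
  ring

theorem secBound (hG : IsMetric G) {κ : ℝ} (hs : SecLE G κ) :
    Univ.SecBound (toField G) κ := by
  intro x u v
  refine le_trans (le_of_eq ?_) ((hs x (fun i => u i) (fun i => v i)).trans (le_of_eq ?_))
  · rw [toField_apply]
    refine Eq.trans (Finset.sum_congr rfl fun m _ => ?_)
      (sum_move₄ fun m i j k => ∑ l, u i * v j * v k * u l * G m l x * Curv G m i j k x)
    refine Eq.trans (Finset.sum_congr rfl fun l _ => ?_)
      (sum_move₄ fun l i j k => u i * v j * v k * u l * G m l x * Curv G m i j k x)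
    rw [riem_eq hG, Finset.sum_mul, Finset.sum_mul]
    refine Finset.sum_congr rfl fun i _ => ?_
    rw [Finset.sum_mul, Finset.sum_mul]
    refine Finset.sum_congr rfl fun j _ => ?_
    rw [Finset.sum_mul, Finset.sum_mul]
    exact Finset.sum_congr rfl fun k _ => by ring
  · rw [toField_apply, toField_apply, toField_apply]

theorem normalCharts (hG : IsMetric G) (hc : NormalCharts G) :
    Univ.NormalCharts (toField G) := by
  intro o
  obtain ⟨E, F, hE, hF, hl, hr, h0, hiso, hgeo⟩ := hc o
  refine ⟨E, F, hE, hF, hl, hr, h0, fun u v => ?_, fun u t => ?_⟩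
  · have hcomp : ∀ (w : Space n) (i : Fin n),
        fderiv ℝ E 0 w i = ∑ a, w a * pd a (fun y => E y i) 0 := by
      intro w i
      have h1 := ((EuclideanSpace.proj (𝕜 := ℝ) i).hasFDerivAt.comp 0
        (hE.differentiable (by simp) 0).hasFDerivAt).fderiv
      have h2 : fderiv ℝ (fun y => E y i) 0 w = fderiv ℝ E 0 w i := by
        rw [show (fun y => E y i) = ⇑(EuclideanSpace.proj (𝕜 := ℝ) i) ∘ E from rfl, h1]
        rfl
      rw [← h2, apply_eq_sum (fderiv ℝ (fun y => E y i) 0) w]
      exact Finset.sum_congr rfl fun a _ => by simp only [pd]; ring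
    rw [toField_apply, PiLp.inner_apply]
    calc ∑ i, ∑ j, fderiv ℝ E 0 u i * fderiv ℝ E 0 v j * G i j o
        = ∑ i, ∑ j, ∑ a, ∑ b, u a * v b *
            (pd a (fun y => E y i) 0 * pd b (fun y => E y j) 0 * G i j o) := by
          refine Finset.sum_congr rfl fun i _ => Finset.sum_congr rfl fun j _ => ?_
          rw [hcomp, hcomp, Finset.sum_mul_sum, Finset.sum_mul]
          refine Finset.sum_congr rfl fun a _ => ?_
          rw [Finset.sum_mul]
          exact Finset.sum_congr rfl fun b _ => by ring
      _ = ∑ a, ∑ b, ∑ i, ∑ j, u a * v b *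
            (pd a (fun y => E y i) 0 * pd b (fun y => E y j) 0 * G i j o) := sum_swap₄ _
      _ = _ := by
          simp only [← Finset.mul_sum, hiso]
          simp [mul_comm]
  · have hp : ContDiff ℝ ∞ fun s : ℝ => E (s • u) :=
      hE.comp (contDiff_id.smul contDiff_const)
    have hd1 : ∀ (i : Fin n) s, deriv (fun s : ℝ => E (s • u) i) s =
        deriv (fun s : ℝ => E (s • u)) s i := fun i s =>
      ((EuclideanSpace.proj (𝕜 := ℝ) i).hasFDerivAt.comp_hasDerivAt s
        (hp.differentiable (by simp) s).hasDerivAt).deriv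
    ext k
    have hp1 : Differentiable ℝ (deriv fun s : ℝ => E (s • u)) :=
      (contDiff_infty_iff_deriv.1 hp).2.differentiable (by simp)
    have hd2 : deriv (fun s => deriv (fun s : ℝ => E (s • u)) s k) t =
        deriv (deriv fun s : ℝ => E (s • u)) t k :=
      ((EuclideanSpace.proj (𝕜 := ℝ) k).hasFDerivAt.comp_hasDerivAt t (hp1 t).hasDerivAt).deriv
    have := hgeo u t k
    rw [show (deriv fun s : ℝ => E (s • u) k) = fun s => deriv (fun s : ℝ => E (s • u)) s k from
      funext (hd1 k), hd2] at this
    rw [this, PiLp.neg_apply, gam_bilin hG]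
    simp only [hd1]

theorem per_eq (hG : IsMetric G) (Ω : Set (Space n)) :
    per G Ω = Univ.gPer (toField G) Ω := by
  simp only [per, Univ.gPer, Univ.wPer, dens_eq, Univ.gNorm, toField_apply, Real.sqrt_le_one]

theorem ineq (hn : 2 ≤ n) {c : ℝ} (hc0 : 0 < c)
    (hcb : 20 * Real.exp 1 * ((n : ℝ) * ((n : ℝ) + 1)) ≤
      Real.sqrt 2 * c ^ n * Univ.kap ^ (n - 1)) : Ineq n c := by
  intro κ hκ G hG hs hc Ω hm hb
  have hv : vol G Ω = Univ.gVol (toField G) Ω := by rw [vol, Univ.gVol, dens_eq]
  rw [hv, per_eq hG]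
  exact Univ.universal_bound hn hc0 hcb hκ (isMetric hG) (secBound hG hs) (normalCharts hG hc)
    hm hb

theorem flat_valid (n : ℕ) : IsMetric (flat n) ∧ SecLE (flat n) 0 ∧ NormalCharts (flat n) := by
  have hpd : ∀ l a b x, pd l (flat n a b) x = 0 := by
    intro l a b x
    show fderiv ℝ (fun _ : Space n => if a = b then (1 : ℝ) else 0) x _ = 0
    simp
  have hG0 : ∀ k i j x, Gamma (flat n) k i j x = 0 := by
    intro k i j x
    simp [Gamma, hpd]
  refine ⟨⟨fun i j => contDiff_const, fun i j x => by simp [flat, eq_comm], fun x v hv => ?_⟩,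
    fun x u v => ?_, fun o => ?_⟩
  · simp only [flat, mul_ite, mul_one, mul_zero, Finset.sum_ite_eq, Finset.mem_univ, if_true]
    obtain ⟨i, hi⟩ := Function.ne_iff.1 hv
    exact Finset.sum_pos' (fun i _ => mul_self_nonneg _)
      ⟨i, Finset.mem_univ i, mul_self_pos.2 hi⟩
  · have hC : ∀ m i j k, Curv (flat n) m i j k x = 0 := fun m i j k => by
      have e : ∀ k i j, Gamma (flat n) k i j = fun _ => 0 := fun k i j => funext (hG0 k i j)
      simp [Curv, e, pd]
    simp [hC]
  · refine ⟨fun u => o + u, fun x => x - o, contDiff_const.add contDiff_id,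
      contDiff_id.sub contDiff_const, fun u => by simp, fun x => by simp, by simp,
      fun a b => ?_, fun u t k => ?_⟩
    · have e : ∀ a i : Fin n, pd a (fun y : Space n => (o + y) i) 0 = if i = a then 1 else 0 := by
        intro a i
        have h : HasFDerivAt (fun y : Space n => (o + y) i) (EuclideanSpace.proj (𝕜 := ℝ) i) 0 := by
          simpa using ((EuclideanSpace.proj (𝕜 := ℝ) i).hasFDerivAt (x := (0 : Space n))).const_add (o i)
        rw [pd, h.fderiv]
        simp [PiLp.single_apply]
      simp only [e, flat]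
      simp [eq_comm]
    · have h1 : (deriv fun s : ℝ => (o + s • u) k) = fun _ => u k := funext fun s => by
        simpa using (((hasDerivAt_id s).mul_const (u k)).const_add (o k)).deriv
      rw [h1]
      simp [hG0]

end

end Vale.Agent.P219.Coord
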